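import Vale.Agent.P153.A2.Stm

/-! Each boundary arc lies on one side of the real line in the disc. -/

open Set Filter Topology Metric Complex MeasureTheory
open scoped Real

noncomputable section
namespace Vale.Agent.P153.A2

open Vale.Agent.P164 (Pth HP Zf fi dom)
open Vale.Agent.P153.CA (Cf Full cay icay JLoop inside circ Hyd)
open Vale.Agent.P153.Wick (Fr arcP arcM CS Seq W_bv cc YY Qv cov inv)
open Vale.Agent.P153.SLE (DC Drv)
open Vale.Agent.P153.Drive (Run Near obsM obsQ)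
open Vale.Agent.P071 (Test g0)

namespace Arcs

theorem real_pt {ζ : ℂ} (h : ζ ∈ sphere (0 : ℂ) 1) (h0 : ζ.im = 0) : ζ = 1 ∨ ζ = -1 := by
  have h1 : |ζ.re| = 1 := by
    rw [Complex.abs_re_eq_norm.2 h0]
    exact mem_sphere_zero_iff_norm.1 h
  rcases (abs_eq zero_le_one).1 h1 with e | e
  · exact Or.inl (Complex.ext e h0)
  · exact Or.inr (Complex.ext (by simpa using e) (by simpa using h0))

/-- A connected part of the boundary that avoids the marks lies on one side. -/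
theorem one_side {Ψ : ℂ → ℂ} (hΨ : IsJordanMap Ψ) {S : Set ℂ} (hS : IsPreconnected S)
    (hs : S ⊆ Ψ '' sphere 0 1) (h1 : Ψ 1 ∉ S) (h2 : Ψ (-1) ∉ S) {σ : ℝ} {ζ₀ : ℂ}
    (h0 : ζ₀ ∈ sphere (0 : ℂ) 1) (hσ : 0 < σ * ζ₀.im) (hm : Ψ ζ₀ ∈ S) {w : ℂ} (hw : w ∈ S) :
    ∃ ζ ∈ sphere (0 : ℂ) 1, 0 < σ * ζ.im ∧ Ψ ζ = w := by
  obtain ⟨ζ, hζ, rfl⟩ := hs hw
  refine ⟨ζ, hζ, lt_of_not_ge fun hle => ?_, rfl⟩
  have hc : Continuous fun z : ℂ => σ * z.im := by fun_prop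
  have k : ∀ T : Set ℂ, IsClosed T → IsClosed (Ψ '' (sphere 0 1 ∩ T)) := fun T hT =>
    (((isCompact_sphere 0 1).inter_right hT).image_of_continuousOn
      (hΨ.1.mono (inter_subset_left.trans sphere_subset_closedBall))).isClosed
  obtain ⟨v, hv, ⟨a, ha, rfl⟩, b, hb, e⟩ := isPreconnected_closed_iff.1 hS _ _
    (k _ (isClosed_le continuous_const hc : IsClosed {z : ℂ | 0 ≤ σ * z.im}))
    (k _ (isClosed_le hc continuous_const : IsClosed {z : ℂ | σ * z.im ≤ 0}))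
    (fun x hx => by
      obtain ⟨z, hz, rfl⟩ := hs hx
      exact (le_total 0 (σ * z.im)).imp (fun h => ⟨z, ⟨hz, h⟩, rfl⟩) fun h => ⟨z, ⟨hz, h⟩, rfl⟩)
    ⟨_, hm, ζ₀, ⟨h0, hσ.le⟩, rfl⟩ ⟨_, hw, ζ, ⟨hζ, hle⟩, rfl⟩
  obtain rfl := hΨ.2.1 (sphere_subset_closedBall hb.1) (sphere_subset_closedBall ha.1) e
  have h3 : σ * b.im = 0 := le_antisymm hb.2 ha.2
  have h4 : σ ≠ 0 := fun h => by simp [h] at hσ
  rcases real_pt hb.1 ((mul_eq_zero.1 h3).resolve_left h4) with rfl | rfl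
  · exact h1 hv
  · exact h2 hv

end Arcs

theorem s_arcs (hj : S_jl) (hp : S_poly) : S_arcs := by
  intro L δ Ψ hδ hΨ hbd ha hb A σ hA ⟨y₀, hy₀, ζ₀, h0, hσ, e0⟩
  obtain ⟨jl, -, hmid, -⟩ := hj L
  have hN0 : 0 < L.N := L.k_pos.trans L.k_lt
  have hN : (0 : ℝ) < L.N := Nat.cast_pos.2 hN0
  have hδ' : (δ : ℂ) ≠ 0 := by exact_mod_cast hδ.ne'
  obtain ⟨hc, hi, -⟩ := hp (fun i => emb (L.β i)) L.N hN0
  obtain ⟨a, b, hbN, hk, hab⟩ : ∃ a b : ℕ, b < L.N ∧ (b < L.k ∨ L.k ≤ a) ∧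
      ∀ y ∈ A, ∃ i, a ≤ i ∧ i ≤ b ∧ L.β i = y := by
    have := L.k_pos
    have := L.k_lt
    rcases hA with rfl | rfl
    · exact ⟨0, L.k - 1, by omega, Or.inl (by omega), fun y ⟨i, h, e⟩ =>
        ⟨i, Nat.zero_le _, Nat.le_sub_one_of_lt h, e⟩⟩
    · exact ⟨L.k, L.N - 1, by omega, Or.inr le_rfl, fun y ⟨i, h, e⟩ =>
        ⟨i, h.1, Nat.le_sub_one_of_lt h.2, e⟩⟩
  have hI : Icc ((a : ℝ) / L.N) (b / L.N) ⊆ Ico 0 1 := fun t ht =>
    ⟨le_trans (by positivity) ht.1, ht.2.trans_lt ((div_lt_one hN).2 (Nat.cast_lt.2 hbN))⟩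
  have hI' := hI.trans Ico_subset_Icc_self
  have hmem : ∀ y ∈ A, (δ : ℂ) * emb y ∈ (fun t => δ * L.bd t) '' Icc ((a : ℝ) / L.N) (b / L.N) :=
    fun y hy => by
      obtain ⟨i, h1, h2, rfl⟩ := hab y hy
      exact ⟨i / L.N, ⟨div_le_div_of_nonneg_right (Nat.cast_le.2 h1) hN.le,
        div_le_div_of_nonneg_right (Nat.cast_le.2 h2) hN.le⟩,
        congrArg ((δ : ℂ) * ·) (hi i (h2.trans hbN.le))⟩
  have hno : ∀ i < L.N, (i < a ∨ b ≤ i) → (δ : ℂ) * ((emb (L.β i) + emb (L.β (i + 1))) / 2) ∉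
      (fun t => δ * L.bd t) '' Icc ((a : ℝ) / L.N) (b / L.N) := by
    rintro i hiN hi' ⟨t, ht, e⟩
    have m1 : ((i : ℝ) + 1 / 2) / L.N ∈ Ico (0 : ℝ) 1 := ⟨by positivity, by
      have : (i : ℝ) + 1 ≤ L.N := by exact_mod_cast hiN
      rw [div_lt_one hN]
      linarith⟩
    have e1 := jl.inj (hI ht) m1 (by
      simp only [Int.fract_eq_self.2 (hI ht), Int.fract_eq_self.2 m1]
      rw [hmid i hiN]
      exact mul_left_cancel₀ hδ' e)
    rw [e1, mem_Icc, div_le_div_iff_of_pos_right hN, div_le_div_iff_of_pos_right hN] at ht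
    rcases hi' with h | h
    · have : (i : ℝ) + 1 ≤ a := by exact_mod_cast h
      linarith [ht.1]
    · have : (b : ℝ) ≤ i := by exact_mod_cast h
      linarith [ht.2]
  intro y hy
  refine Arcs.one_side hΨ (isPreconnected_Icc.image (fun t => δ * L.bd t)
    (continuousOn_const.mul (hc.mono hI'))) ?_ ?_ ?_ h0 hσ (e0 ▸ hmem y₀ hy₀) (hmem y hy)
  · rintro _ ⟨t, ht, rfl⟩
    rw [hbd, mem_ofPred_eq, mul_div_cancel_left₀ _ hδ']
    exact ⟨t, hI' ht, rfl⟩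
  · have := L.k_pos
    have := L.k_lt
    have h1 := hno (L.k - 1) (by omega) (by omega)
    rwa [Nat.sub_add_cancel L.k_pos, ← hb] at h1
  · have h1 := hno (L.N - 1) (by omega) (by omega)
    rwa [Nat.sub_add_cancel hN0, L.closed, add_comm, ← ha] at h1

end Vale.Agent.P153.A2
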