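import Vale.Agent.P153.A2.Stm
import Vale.Agent.P153.K2.Lbv
import Vale.Agent.P153.K2.Card
import Vale.Agent.P153.Wick.Gbv
import Vale.Agent.P153.Wick.Loc
import Vale.Agent.P153.Wick.Emb
import Vale.Agent.P153.Wick.Hat
import Vale.Agent.P153.Wick.Wt

/-! Boundary values in the slit domains. -/

open Set Filter Topology Metric MeasureTheory

noncomputable section
namespace Vale.Agent.P153.A2

open Vale.Agent.P153.Wick
open Vale.Agent.P153.Wick.Gbv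
open Vale.Agent.P071 (Test hh)

namespace Bv

/-- Boundary values in a free room. -/
def BR (M : ℕ) (ε : ℝ) : Prop := ∀ (F S W O : Set V) (x : V) (n N R : ℕ)
  (c : ℝ) (a : V →₀ ℝ) (G : Cfg → ℝ), Wick.Dom F → 1 ≤ N → n ≤ N → M * N ≤ R →
  hex x n ⊆ F → B1 a x n → (W = Fᶜ ∩ S ∧ c = 1 ∨ W = Fᶜ \ S ∧ c = 0) → CS W → CS (Fᶜ \ W) →
  K2.room W x x R ⊆ F → (W ∩ hex x N).Nonempty → ¬ W ⊆ hex x R →
  O ⊆ F → CS O → Disjoint O (hex x R) → Obs G O →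
  |Ex (dob F S) fun H => (lin a H - c * tot a) * G H| ≤ ε * N ^ 2

theorem br (hb : K2.BVR) (hm : L_mb) {ε : ℝ} (hε : 0 < ε) : ∃ M, BR M ε := by
  obtain ⟨C, hC⟩ := hm
  obtain ⟨M, hM⟩ := hb (ε / (2 * |C| + 20)) (by positivity)
  refine ⟨M, fun F S W O x n N R c a G hF hN hn hR hx ha hW cW cW' hroom hne hfar hO cO hOR hG => ?_⟩
  have ha' : B1 a x N := ⟨ha.1, fun y hy => hex_mono hn (ha.2 y hy)⟩
  have hWF : W ⊆ Fᶜ := by
    rcases hW with ⟨rfl, -⟩ | ⟨rfl, -⟩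
    exacts [inter_subset_left, sdiff_subset]
  have hR' : K2.Room F W (hex x n) x x N R :=
    ⟨hF.1, hF.2, cW, disjoint_left.2 fun y hy => hWF hy, hN, hne, hfar, self_mem_hex x n,
      cn_hex x n, hex_mono hn, disjoint_left.2 fun y hy hy' => hWF hy' (hx hy), hroom⟩
  have a1 : K2.Away W O x x R := ⟨cO, disjoint_left.2 fun y hy hy' => hWF hy' (hO hy),
    hOR.mono_right (comp_subset.trans sdiff_subset)⟩
  have a2 : K2.Away W (Fᶜ \ W) x x R := ⟨cW', disjoint_sdiff_left,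
    disjoint_left.2 fun y hy hy' => hy.1 (hroom hy')⟩
  have hm := hC F S x N a hF hN (fun h => let ⟨y, hy⟩ := hne; hWF hy.1 (h hy.2)) ha'
  have ht := K2.lbv_tot K2.s_card hN ha'
  have key : ∀ k : ℤ, (k = 1 ∧ W ⊆ S ∧ Fᶜ \ S ⊆ Fᶜ \ W ∨ k = 0 ∧ Disjoint W S ∧ Fᶜ ∩ S ⊆ Fᶜ \ W) →
      |Ex (dob F S) fun H => (lin a H - k * K2.tot a) * G H| ≤ ε * N ^ 2 := fun k hk => by
    refine (hM F S W _ O _ x x N R k a G hR' hR a1 a2 hk hG.1 hG.2
      fun y hy _ h => absurd (ha.2 y hy) h).trans ?_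
    refine (mul_le_mul_of_nonneg_left (K2.lbv_sq hm ?_)
      (by positivity)).trans_eq (by field_simp)
    rcases hk with ⟨rfl, -⟩ | ⟨rfl, -⟩
    · simpa using ht
    · simp
  rcases hW with ⟨rfl, rfl⟩ | ⟨rfl, rfl⟩
  · simpa only [Int.cast_one, K2.tot, tot] using key 1
      (Or.inl ⟨rfl, inter_subset_right, fun y hy => ⟨hy.1, fun h => hy.2 h.2⟩⟩)
  · simpa only [Int.cast_zero, K2.tot, tot] using key 0
      (Or.inr ⟨rfl, disjoint_sdiff_left, fun y hy => ⟨hy.1, fun h => h.2 hy.2⟩⟩)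

/-- The estimate at one mesh. -/
theorem one {M : ℕ} {ε δ s ρ A₀ c : ℝ} (hε : 0 < ε) (H : BR M ε) {F S A B : Set V} {z : ℂ}
    {K : Set ℂ} {r g : ℂ → ℝ} {Γ : ℝ → ℝ} (hF : Wick.Dom F) (hAB : obd F ⊆ A ∪ B) (hA : A ⊆ Fᶜ)
    (hB : B ⊆ Fᶜ) (cA : CS A) (cB : CS B) (nB : B.Nonempty) (dAB : Disjoint A B)
    (hS : c = 1 ∧ S = A ∨ c = 0 ∧ S = B) (hδ : 0 < δ) (hδs : 30 * δ ≤ s)
    (hsρ : 3 * (M + 1) * s ≤ ρ) (hA₀ : 0 < A₀)
    (hin : ∀ y, ‖δ * emb y - z‖ ≤ 4 / 5 * s → y ∈ F)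
    (sd : ∀ v u y, ‖δ * emb v - z‖ ≤ δ →
      Conn (fun _ _ => True) (F ∩ {y | ‖δ * emb y - z‖ ≤ 2 * ρ}) v u → Adj u y → y ∉ B)
    (nF : ∃ y, y ∉ F ∧ ‖δ * emb y - z‖ ≤ 3 / 2 * s)
    (fA : ∃ y ∈ A, 2 * ρ < ‖δ * emb y - z‖) (hK : IsPreconnected K)
    (hK1 : ∀ y, (∃ w ∈ K, ‖w - δ * emb y‖ < 3 / 5 * δ) → y ∈ F)
    (hK2 : ∀ w ∈ K, 3 * ρ < ‖w - z‖) (hg : ∀ y, wt δ g y ≠ 0 → δ * emb y ∈ K)
    (hr : Test (ball z (s / 2)) r) (hrA : ∀ y, |r y| ≤ A₀) (hΓ : ∀ t, |Γ t| ≤ 1) :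
    |Ex (dob F S) fun H => (lin (wt δ r) H - c * ∫ y, r y) * Γ (lin (wt δ g) H)| ≤
      36 * ε * (A₀ * s ^ 2) := by
  have he := s_emb
  have hw := s_wt s_emb s_hat
  have hs : 0 < s := by linarith
  have hM : (0 : ℝ) ≤ M := Nat.cast_nonneg M
  have hsρ' : 3 * s ≤ ρ := by nlinarith
  obtain ⟨v, hv⟩ := near he hδ z
  obtain ⟨W, w1, w2, w3, w4, w5, -⟩ := s_wall F A B hF hAB hA hB cA cB nB dAB
  have hru : Test univ r := ⟨hr.1, hr.2.1, subset_univ _⟩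
  obtain ⟨-, r2, r3, r4, -⟩ := hw δ r hδ hru
  obtain ⟨n, n1, n2⟩ : ∃ n : ℕ, 7 / 10 * s ≤ δ * n ∧ δ * n ≤ 7 / 10 * s + δ := by
    refine ⟨⌈7 / 10 * s / δ⌉₊, ?_, ?_⟩
    · rw [mul_comm δ, ← div_le_iff₀ hδ]; exact Nat.le_ceil _
    · have := (Nat.ceil_lt_add_one (show 0 ≤ 7 / 10 * s / δ by positivity)).le
      calc δ * _ ≤ δ * (7 / 10 * s / δ + 1) := mul_le_mul_of_nonneg_left this hδ.le
        _ = _ := by field_simp
  obtain ⟨N, N1, N2⟩ : ∃ N : ℕ, 2 * s ≤ δ * N ∧ δ * N ≤ 2 * s + δ := by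
    refine ⟨⌈2 * s / δ⌉₊, ?_, ?_⟩
    · rw [mul_comm δ, ← div_le_iff₀ hδ]; exact Nat.le_ceil _
    · have := (Nat.ceil_lt_add_one (show 0 ≤ 2 * s / δ by positivity)).le
      calc δ * _ ≤ δ * (2 * s / δ + 1) := mul_le_mul_of_nonneg_left this hδ.le
        _ = _ := by field_simp
  obtain ⟨R, R1, R2⟩ : ∃ R : ℕ, ρ - δ ≤ δ * R ∧ δ * R ≤ ρ := by
    refine ⟨⌊ρ / δ⌋₊, ?_, ?_⟩
    · have := (Nat.lt_floor_add_one (ρ / δ)).le
      rw [div_le_iff₀ hδ] at this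
      linarith
    · rw [mul_comm δ, ← le_div_iff₀ hδ]; exact Nat.floor_le (div_nonneg (by linarith) hδ.le)
  have cast : ∀ {a b : ℕ}, δ * a ≤ δ * b → a ≤ b := fun h => by
    exact_mod_cast le_of_mul_le_mul_left h hδ
  have hN : 1 ≤ N := cast (by push_cast; linarith)
  have hnN : n ≤ N := cast (by linarith)
  have hNR : N ≤ R := cast (by linarith)
  have hMN : M * N ≤ R := cast (by
    push_cast
    have : M * (δ * N) ≤ M * (2 * s + δ) := mul_le_mul_of_nonneg_left N2 hM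
    have : M * δ ≤ M * s := mul_le_mul_of_nonneg_left (by linarith) hM
    nlinarith)
  have far : ∀ y, 2 * ρ < ‖δ * emb y - z‖ → y ∉ hex v R := fun y h h' => by
    have := hex_le he hδ hv h'
    linarith
  have hnF : hex v n ⊆ F := fun y hy => hin y (by
    have := hex_le he hδ hv hy
    linarith)
  have ex : ∀ X ⊆ hex v R, ∀ y, Conn (fun _ _ => True) X v y → y ∉ F → (A ∩ X).Nonempty :=
    fun X hX y h hy => by
    obtain ⟨u, u', h1, h2, -, -, h3, h4, h5, -⟩ := h.exit (hnF (self_mem_hex v n)) hy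
    exact ⟨u', (hAB ⟨h5, u, h3, h2.symm⟩).resolve_right (sd v u u' hv (h1.monoA fun y hy =>
      ⟨hy.2, not_lt.1 fun k => far y k (hX hy.1)⟩) h2), h4⟩
  have supp : ∀ y, wt δ r y ≠ 0 → y ∈ hex v n := fun y hy => by
    obtain ⟨w, h1, h2⟩ := r3 y hy
    have h3 : ‖w - z‖ < s / 2 := by
      simpa [dist_eq_norm] using hr.2.2 (subset_tsupport r h1)
    have h4 := norm_sub_le_norm_sub_add_norm_sub (δ * emb y) w z
    rw [norm_sub_rev _ w] at h4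
    exact le_hex he hδ hv (by linarith)
  have ht : 0 < 4 * A₀ * δ ^ 2 := by positivity
  have b1 : B1 ((4 * A₀ * δ ^ 2)⁻¹ • wt δ r) v n := by
    refine ⟨fun y => ?_, fun y hy => supp y fun h => hy (by simp [h])⟩
    rw [Finsupp.smul_apply, smul_eq_mul, abs_mul, abs_of_pos (inv_pos.2 ht), inv_mul_le_iff₀ ht,
      mul_one]
    exact r4 A₀ hrA y
  obtain ⟨y₁, y1, y2⟩ := nF
  have y3 : y₁ ∈ hex v N := le_hex he hδ hv (by linarith)
  obtain ⟨y₂, y4, y5⟩ := ex _ (hex_mono hNR) y₁ (cn_hex v N v (self_mem_hex v N) y₁ y3) y1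
  have wR : K2.room W v v R ⊆ F := fun y hy => by
    by_contra h
    obtain ⟨u, u1, u2⟩ := ex _ sdiff_subset y hy.2 h
    exact u2.2 (w1 u1)
  have wout : ¬ W ⊆ hex v R := fun h =>
    let ⟨y, h1, h2⟩ := fA
    far y h2 (h (w1 h1))
  have gO : ∀ y, wt δ g y ≠ 0 → y ∈ {x | ∃ z ∈ K, ‖z - δ * emb x‖ < 3 / 5 * δ} := fun y hy =>
    ⟨_, hg y hy, by simpa using hδ⟩
  have dO : Disjoint {x | ∃ z ∈ K, ‖z - δ * emb x‖ < 3 / 5 * δ} (hex v R) := by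
    refine disjoint_left.2 fun y ⟨w, h1, h2⟩ => far y ?_
    have := hK2 w h1
    have := norm_sub_le_norm_sub_add_norm_sub w (δ * emb y) z
    linarith
  have obs : Obs (fun H => Γ (lin (wt δ g) H)) {x | ∃ z ∈ K, ‖z - δ * emb x‖ < 3 / 5 * δ} :=
    ⟨fun H H' h => by
      show Γ _ = Γ _
      rw [lin_congr _ fun y hy => h y (gO y hy)], fun H => hΓ _⟩
  obtain ⟨S', s1, s2⟩ : ∃ S', (∀ y ∈ obd F, y ∈ S ↔ y ∈ S') ∧
      (W = Fᶜ ∩ S' ∧ c = 1 ∨ W = Fᶜ \ S' ∧ c = 0) := by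
    rcases hS with ⟨h1, rfl⟩ | ⟨h1, rfl⟩
    · exact ⟨W, fun y hy => ⟨fun h => w1 h, fun h =>
        (hAB hy).resolve_right (disjoint_left.1 w3 h)⟩,
        Or.inl ⟨(inter_eq_right.2 w2).symm, h1⟩⟩
    · refine ⟨Fᶜ \ W, fun y hy => ⟨fun h => ⟨hB h, disjoint_right.1 w3 h⟩, fun h =>
        (hAB hy).resolve_left fun h' => h.2 (w1 h')⟩, Or.inr ⟨?_, h1⟩⟩
      rw [sdiff_sdiff_right_self, inter_eq_right.2 w2]
  have key := H F S' W _ v n N R c _ _ hF hN hnN hMN hnF b1 s2 w4 w5 wR ⟨y₂, w1 y4, y5⟩ wout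
    hK1 (s_cs he δ K hδ hK) dO obs
  have dep : DepOn (fun H => (lin (wt δ r) H - c * ∫ y, r y) * Γ (lin (wt δ g) H)) F :=
    fun H H' h => by
      show (_ - _) * Γ _ = (_ - _) * Γ _
      rw [lin_congr _ fun y hy => h y (hnF (supp y hy)),
        lin_congr (wt δ g) fun y hy => h y (hK1 y (gO y hy))]
  rw [s_loc.2 F S S' _ s1 dep]
  have e : (Ex (dob F S') fun H => (lin (wt δ r) H - c * ∫ y, r y) * Γ (lin (wt δ g) H)) =
      4 * A₀ * δ ^ 2 * Ex (dob F S') fun H => (lin ((4 * A₀ * δ ^ 2)⁻¹ • wt δ r) H -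
        c * tot ((4 * A₀ * δ ^ 2)⁻¹ • wt δ r)) * Γ (lin (wt δ g) H) := by
    rw [← Ex_mul_left]
    refine Ex_congr fun H _ => ?_
    rw [lin_smul, tot_smul, r2]
    field_simp
  rw [e, abs_mul, abs_of_pos ht]
  have h9 : (δ * N) ^ 2 ≤ (3 * s) ^ 2 := pow_le_pow_left₀ (by positivity) (by linarith) 2
  calc _ ≤ 4 * A₀ * δ ^ 2 * (ε * N ^ 2) := mul_le_mul_of_nonneg_left key ht.le
    _ = 4 * A₀ * ε * (δ * N) ^ 2 := by ring
    _ ≤ 4 * A₀ * ε * (3 * s) ^ 2 := mul_le_mul_of_nonneg_left h9 (by positivity)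
    _ = _ := by ring

theorem core {D : Set ℂ} {ψ φ : ℂ → ℂ} (hD : IsOpen D) (hc : P071.Conf D ψ φ)
    {T : Set ℂ} (hT : IsCompact T) (hTD : T ⊆ D) : ∃ (K : Set ℂ) (η : ℝ), 0 < η ∧
      IsPreconnected K ∧ IsCompact (cthickening η K) ∧ cthickening η T ⊆ K ∧
      cthickening η K ⊆ D := by
  obtain ⟨η, hη, h1⟩ := hT.exists_cthickening_subset_open hD hTD
  have h2 : IsCompact (φ '' cthickening η T) :=
    hT.cthickening.image_of_continuousOn (hc.hφ.continuousOn.mono h1)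
  obtain ⟨r, hr, h3⟩ := exists_lt_subset_ball h2.isClosed
    (show φ '' cthickening η T ⊆ ball 0 1 from fun _ ⟨w, hw, e⟩ => e ▸ hc.mapsφ (h1 hw))
  have h4 : ContinuousOn ψ (closedBall 0 r) := hc.hf.continuousOn.mono (closedBall_subset_ball hr)
  have h5 : IsCompact (ψ '' closedBall 0 r) := (isCompact_closedBall 0 r).image_of_continuousOn h4
  obtain ⟨η', hη', h6⟩ := h5.exists_cthickening_subset_open hD
    (fun _ ⟨w, hw, e⟩ => e ▸ hc.mapsf (closedBall_subset_ball hr hw))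
  refine ⟨ψ '' closedBall 0 r, min η η', lt_min hη hη',
    (convex_closedBall 0 r).isPreconnected.image ψ h4, h5.cthickening, fun w hw => ?_,
    (cthickening_mono (min_le_right _ _) _).trans h6⟩
  have hw' := cthickening_mono (min_le_left _ _) _ hw
  exact ⟨φ w, ball_subset_closedBall (h3 ⟨w, hw', rfl⟩), hc.right w (h1 hw')⟩

theorem deep {D : Set ℂ} {ψ φ : ℂ → ℂ} (hb : Bornology.IsBounded D) (hc : P071.Conf D ψ φ) {s : ℝ}
    (hs : 0 < s) : ∃ e : ℝ, 0 < e ∧ ∀ z ∈ D, hh (φ z) < e → infDist z Dᶜ < s := by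
  have h1 : {z | s ≤ infDist z Dᶜ} ⊆ D := fun z hz => by
    by_contra h
    exact absurd (infDist_zero_of_mem (s := Dᶜ) h ▸ hz : s ≤ 0) (not_le.2 hs)
  have h2 : IsCompact {z | s ≤ infDist z Dᶜ} := isCompact_of_isClosed_isBounded
    (isClosed_le continuous_const (continuous_infDist_pt _)) (hb.subset h1)
  obtain ⟨e, he, h⟩ := h2.exists_forall_le' (f := fun z => hh (φ z)) (a := 0)
    ((show Continuous hh by unfold hh; fun_prop).comp_continuousOn (hc.hφ.continuousOn.mono h1))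
    fun z hz => P071.hh_pos (hc.mapsφ (h1 hz))
  exact ⟨e, he, fun z _ h' => lt_of_not_ge fun k => not_le.2 h' (h z k)⟩

theorem sign {x : ℂ} {τ : ℝ} (hτ : 0 < τ) (h0 : 0 < hh x) (h : hh x ≤ τ ^ 2 / 2) (h1 : τ ≤ ‖x - 1‖)
    (h2 : τ ≤ ‖x + 1‖) : τ ^ 2 / 4 ≤ |x.im| := by
  have e : (‖x - 1‖ * ‖x + 1‖) ^ 2 = hh x ^ 2 + 4 * x.im ^ 2 := by
    simp only [mul_pow, Complex.sq_norm, Complex.normSq_apply, P071.hh_eq, Complex.sub_re,
      Complex.sub_im, Complex.add_re, Complex.add_im, Complex.one_re, Complex.one_im]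
    ring
  have h3 := pow_le_pow_left₀ (by positivity) (mul_le_mul h1 h2 hτ.le (norm_nonneg _)) 2
  have h4 := pow_le_pow_left₀ h0.le h 2
  refine (pow_le_pow_iff_left₀ (by positivity) (abs_nonneg _) two_ne_zero).1 ?_
  rw [sq_abs]
  nlinarith [pow_pos hτ 4]

theorem path {δ ρ : ℝ} {F : Set V} {Ω : Set ℂ} {z : ℂ} {v u : V}
    (he : ∀ x ∈ F, ∀ y ∈ F, Adj x y → segment ℝ (δ * emb x) (δ * emb y) ⊆ Ω)
    (hz : closedBall z δ ⊆ Ω) (hδ : δ ≤ ρ) (hv : ‖δ * emb v - z‖ ≤ δ)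
    (h : Conn (fun _ _ => True) (F ∩ {y | ‖δ * emb y - z‖ ≤ ρ}) v u) :
    ∃ P, IsPreconnected P ∧ P ⊆ Ω ∩ closedBall z ρ ∧ z ∈ P ∧ δ * emb u ∈ P := by
  refine h.ind (P := fun u => ∃ P, IsPreconnected P ∧ P ⊆ Ω ∩ closedBall z ρ ∧ z ∈ P ∧
    δ * emb u ∈ P) ⟨closedBall z δ, (convex_closedBall _ _).isPreconnected,
      subset_inter hz (closedBall_subset_closedBall hδ),
      mem_closedBall_self ((norm_nonneg _).trans hv), mem_closedBall_iff_norm.2 hv⟩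
    fun a b _ hab _ ha hb ⟨P, p1, p2, p3, p4⟩ => ?_
  exact ⟨P ∪ segment ℝ (δ * emb a) (δ * emb b), p1.union _ p4 (left_mem_segment _ _ _)
    (convex_segment _ _).isPreconnected, union_subset p2 (subset_inter (he a ha.1 b hb.1 hab)
      ((convex_closedBall z ρ).segment_subset (mem_closedBall_iff_norm.2 ha.2)
        (mem_closedBall_iff_norm.2 hb.2))), Or.inl p3, Or.inr (right_mem_segment _ _ _)⟩

end Bv

open Bv in
theorem s_bv (hb : K2.BVR) (hm : L_mb) (hsm : S_small) (hseq : S_seq) (hk : S_ker1) : S_bv := by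
  intro D ψ φ Ω f g δ R d F A B ε h u hu ε' τ hε' hτ
  obtain ⟨hq, hc⟩ := hseq D ψ φ Ω f g δ R d F A B h
  obtain ⟨K, η, hη, k1, k2, k3, k4⟩ := Bv.core hq.op hc hu.2.1 hu.2.2
  obtain ⟨⟨ρa, hρa, a1⟩, a2⟩ := hsm D ψ φ Ω f g δ R d F A B h (τ ^ 2 / 16) (by positivity)
  have hd := h.dpos
  obtain ⟨ρ, hρ, ρ1, ρ2, ρ3⟩ : ∃ ρ : ℝ, 0 < ρ ∧ 4 * ρ ≤ η ∧ 2 * ρ ≤ ρa ∧ 4 * ρ ≤ d :=
    ⟨min (η / 4) (min (ρa / 2) (d / 4)), by positivity,
      by linarith [min_le_left (η / 4) (min (ρa / 2) (d / 4))],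
      by linarith [min_le_right (η / 4) (min (ρa / 2) (d / 4)), min_le_left (ρa / 2) (d / 4)],
      by linarith [min_le_right (η / 4) (min (ρa / 2) (d / 4)), min_le_right (ρa / 2) (d / 4)]⟩
  obtain ⟨M, HM⟩ := br hb hm (show 0 < ε' / 36 by positivity)
  obtain ⟨e, he, h1⟩ := deep hq.bdd hc (show 0 < ρ / (3 * (M + 1)) by positivity)
  refine ⟨min (e / 2) (τ ^ 2 / 2), by positivity, fun z hz hh1 t1 t2 A₀ r hA hr hrA => ?_⟩
  rw [le_min_iff] at hh1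
  have hs1 := (h1 z hz (by linarith [hh1.1])).le
  have sg := Bv.sign hτ (P071.hh_pos (hc.mapsφ hz)) hh1.2 t1 t2
  have hne : Dᶜ.Nonempty := nonempty_compl.2 fun k => NormedSpace.unbounded_univ ℝ ℂ (k ▸ hq.bdd)
  obtain ⟨ζ, nD, hs⟩ := hq.op.isClosed_compl.exists_infDist_eq_dist hne z
  set s := infDist z Dᶜ with hsd
  have hs0 : 0 < s := hs ▸ dist_pos.2 fun h => nD (h ▸ hz)
  have hsρ : 3 * (M + 1) * s ≤ ρ := by
    rw [mul_comm, ← le_div_iff₀ (by positivity)]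
    exact hs1
  have hsρ' : 3 * s ≤ ρ := by nlinarith [Nat.cast_nonneg (α := ℝ) M]
  have hζ : ζ ∈ frontier D := by
    refine ⟨closure_mono (ball_infDist_compl_subset (x := z)) ?_, fun k => nD (interior_subset k)⟩
    rw [closure_ball z hs0.ne', mem_closedBall, dist_comm]
    exact hs.ge
  have hcb : closedBall z (4 / 5 * s) ⊆ D :=
    (closedBall_subset_ball (by linarith)).trans ball_infDist_compl_subset
  obtain ⟨b1, b2⟩ := hk D ψ φ Ω f g h.toKc _ (isCompact_closedBall z _) hcb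
  have hgu : Test univ u := ⟨hu.1, hu.2.1, subset_univ _⟩
  filter_upwards [a1, a2, b1, Metric.tendstoUniformlyOn_iff.1 b2 (τ ^ 2 / 16) (by positivity),
    hq.bdy ζ hζ (s / 2) (by linarith), hq.inn _ k2 k4, hq.inn _ (isCompact_closedBall z _) hcb,
    hq.lim.eventually (ge_mem_nhds (show 0 < s / 30 by linarith))]
    with n a1 a2 b1 b2 ⟨y₁, y1, y2⟩ bK bz bδ Γ hΓ
  have hδ := hq.pos n
  have m := h.ms n
  have y3 : ‖δ n * emb y₁ - z‖ ≤ 3 / 2 * s := by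
    have := norm_sub_le_norm_sub_add_norm_sub (δ n * emb y₁) ζ z
    rw [← dist_eq_norm ζ z, dist_comm, ← hs] at this
    linarith
  have cl : ∀ v w, ‖δ n * emb v - z‖ ≤ δ n →
      Conn (fun _ _ => True) (F n ∩ {y | ‖δ n * emb y - z‖ ≤ 2 * ρ}) v w →
      w ∈ F n ∧ |(g n (δ n * emb w)).im - (φ z).im| ≤ τ ^ 2 / 8 := fun v w hv hw => by
    obtain ⟨P, p1, p2, p3, p4⟩ := path m.edge
      ((closedBall_subset_closedBall (by linarith)).trans b1) (by linarith) hv hw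
    obtain ⟨w₀, w1, w2⟩ := m.pin y₁ y1
    have h2 := a1 z P p1 (p2.trans (inter_subset_inter_right _ (closedBall_subset_closedBall ρ2)))
      ⟨w₀, w1, by linarith [norm_sub_le_norm_sub_add_norm_sub w₀ (δ n * emb y₁) z]⟩ _ p4 z p3
    have h3 := b2 z (mem_closedBall_self (by linarith))
    rw [dist_comm, dist_eq_norm] at h3
    refine ⟨(hw.mem ⟨bz v (mem_closedBall_iff_norm.2 (by linarith)),
      hv.trans (by linarith)⟩).1, ?_⟩
    rw [← Complex.sub_im]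
    exact (Complex.abs_im_le_norm _).trans
      (by linarith [norm_sub_le_norm_sub_add_norm_sub (g n (δ n * emb w)) (g n z) (φ z)])
  have main : ∀ A' B' : Set V, obd (F n) ⊆ A' ∪ B' → A' ⊆ (F n)ᶜ → B' ⊆ (F n)ᶜ →
      CS A' → CS B' → Disjoint A' B' →
      (cc ε (φ z) = 1 ∧ pick ε (A n) (B n) = A' ∨ cc ε (φ z) = 0 ∧ pick ε (A n) (B n) = B') →
      (∀ w ∈ F n, ∀ y ∈ B', Adj w y → τ ^ 2 / 8 < |(g n (δ n * emb w)).im - (φ z).im|) →
      (∃ y ∈ A', d ≤ ‖δ n * emb y - z‖) → (∃ y ∈ B', d ≤ ‖δ n * emb y - z‖) →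
      |Ex (dob (F n) (pick ε (A n) (B n))) fun H =>
        (YY δ n r H - cc ε (φ z) * ∫ y, r y) * Γ (YY δ n u H)| ≤ ε' * (A₀ * s ^ 2) := by
    intro A' B' c1 c2 c3 c4 c5 c7 c8 c9 ⟨p, p1, p2⟩ ⟨q, q1, _⟩
    refine (Bv.one (K := K) (by positivity) HM m.dom c1 c2 c3 c4 c5 ⟨q, q1⟩ c7 c8 hδ (by linarith)
      hsρ hA (fun y hy => bz y (mem_closedBall_iff_norm.2 hy))
      (fun v w y hv hw hy k => not_le.2 (c9 w (cl v w hv hw).1 y k hy) (cl v w hv hw).2)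
      ⟨y₁, y1, y3⟩ ⟨p, p1, by linarith⟩ k1 (fun y ⟨w, h1, h3⟩ => bK y ?_) (fun w h1 => ?_)
      (fun y hy => ?_) hr hrA hΓ).trans (le_of_eq (by ring))
    · refine mem_cthickening_of_dist_le _ w η K h1 ?_
      rw [dist_comm, dist_eq_norm]
      linarith
    · have h3 : η < dist ζ w := lt_of_not_ge fun h =>
        nD (k4 (mem_cthickening_of_dist_le _ w η K h1 h))
      have h4 := dist_triangle ζ z w
      rw [dist_comm ζ z, ← hs, dist_comm z w, dist_eq_norm w z] at h4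
      linarith
    · obtain ⟨w, h1, h3⟩ := (s_wt s_emb s_hat (δ n) u hδ hgu).2.2.1 y hy
      refine k3 (mem_cthickening_of_dist_le _ w η _ (subset_tsupport u h1) ?_)
      rw [dist_comm, dist_eq_norm]
      linarith
  have hτ2 := pow_pos hτ 2
  by_cases hi : 0 < (φ z).im
  · refine main _ _ m.obd m.AF m.BF m.cA m.cB m.dis ?_ (fun w hw y hy k => ?_) (m.bigA z) (m.bigB z)
    · by_cases h : ε = 1 <;> simp [cc, pick, h, hi]
    · rw [abs_of_pos hi] at sg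
      exact lt_abs.2 (Or.inr (by linarith [(a2 w hw y k).2 hy]))
  · refine main _ _ (union_comm _ _ ▸ m.obd) m.BF m.AF m.cB m.cA m.dis.symm ?_
      (fun w hw y hy k => ?_) (m.bigB z) (m.bigA z)
    · by_cases h : ε = 1 <;> simp [cc, pick, h, hi]
    · rw [abs_of_nonpos (not_lt.1 hi)] at sg
      exact lt_abs.2 (Or.inl (by linarith [(a2 w hw y k).1 hy]))

end Vale.Agent.P153.A2
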