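import Vale.Agent.P153.A2.Stm
import Vale.Agent.P153.CA.All

/-! The Cayley map, the driving function of a curve in the disc, and the distance to the end. -/

open Set Filter Topology Metric Complex MeasureTheory
open scoped Real

noncomputable section
namespace Vale.Agent.P153.A2

open Vale.Agent.P164 (Pth HP Zf fi dom)
open Vale.Agent.P153.CA (Cf Full cay icay JLoop inside circ Hyd)
open Vale.Agent.P153.SLE (DC Drv)
open Vale.Agent.P153.Drive (Run Near obsM obsQ)

namespace Cay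

theorem addI_ne {z : ℂ} (hz : 0 ≤ z.im) : z + I ≠ 0 := by
  intro h
  have h1 : (z + I).im = 0 := by rw [h]; rfl
  simp only [add_im, I_im] at h1
  linarith

theorem sub_ne {w : ℂ} (hw : w ≠ 1) : 1 - w ≠ 0 := sub_ne_zero.2 hw.symm

theorem cay_icay (w : ℂ) (hw : w ≠ 1) : cay (icay w) = w := by
  have h := sub_ne hw
  have h1 : icay w - I = 2 * I * w / (1 - w) := by
    unfold icay; field_simp; ring
  have h2 : icay w + I = 2 * I / (1 - w) := by
    unfold icay; field_simp; ring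
  unfold cay
  rw [h1, h2]
  have hI : (I : ℂ) ≠ 0 := I_ne_zero
  field_simp

theorem cay_sub (z : ℂ) (hz : 0 ≤ z.im) : cay z - 1 = -(2 * I) / (z + I) := by
  have h := addI_ne hz
  unfold cay; field_simp; ring

theorem cay_ne (z : ℂ) (hz : 0 ≤ z.im) : cay z ≠ 1 := by
  intro h
  have h1 := cay_sub z hz
  rw [h, sub_self] at h1
  have h2 : -(2 * I) / (z + I) ≠ 0 :=
    div_ne_zero (neg_ne_zero.2 (mul_ne_zero two_ne_zero I_ne_zero)) (addI_ne hz)
  exact h2 h1.symm

theorem icay_cay (z : ℂ) (hz : 0 ≤ z.im) : icay (cay z) = z := by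
  have h := addI_ne hz
  have h1 : 1 + cay z = 2 * z / (z + I) := by
    unfold cay; field_simp; ring
  have h2 : 1 - cay z = 2 * I / (z + I) := by
    unfold cay; field_simp; ring
  unfold icay
  rw [h1, h2]
  have hI : (I : ℂ) ≠ 0 := I_ne_zero
  field_simp

theorem norm_cay_sub (z : ℂ) (hz : 0 ≤ z.im) : ‖cay z - 1‖ = 2 / ‖z + I‖ := by
  rw [cay_sub z hz, norm_div, norm_neg, norm_mul, norm_I]
  simp

theorem cay_im (z : ℂ) : (cay z).im = -2 * z.re / ‖z + I‖ ^ 2 := by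
  unfold cay
  rw [div_im, ← normSq_eq_norm_sq]
  simp only [sub_im, I_im, add_re, I_re, add_zero, sub_re, sub_zero, add_im]
  ring

theorem icay_im (w : ℂ) : (icay w).im = (1 - ‖w‖ ^ 2) / ‖1 - w‖ ^ 2 := by
  unfold icay
  rw [div_im, ← normSq_eq_norm_sq, ← normSq_eq_norm_sq, normSq_apply w]
  simp only [mul_im, I_re, add_im, one_im, zero_add, zero_mul, I_im, add_re, one_re, one_mul,
    sub_re, mul_re, zero_sub, sub_im]
  ring

theorem ne_one {w : ℂ} (hw : ‖w‖ < 1) : w ≠ 1 := by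
  intro h
  rw [h, norm_one] at hw
  exact lt_irrefl _ hw

theorem icay_pos {w : ℂ} (hw : ‖w‖ < 1) : 0 < (icay w).im := by
  rw [icay_im]
  have h1 : 0 < ‖1 - w‖ := norm_pos_iff.2 (sub_ne (ne_one hw))
  have h2 : ‖w‖ ^ 2 < 1 := by nlinarith [norm_nonneg w]
  exact div_pos (by linarith) (by positivity)

theorem cay_lt {z : ℂ} (hz : 0 < z.im) : ‖cay z‖ < 1 := by
  have h1 : 0 < ‖z + I‖ := norm_pos_iff.2 (addI_ne hz.le)
  unfold cay
  rw [norm_div, div_lt_one h1]
  apply lt_of_pow_lt_pow_left₀ 2 h1.le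
  rw [← normSq_eq_norm_sq, ← normSq_eq_norm_sq, normSq_apply, normSq_apply]
  simp only [sub_re, I_re, sub_zero, sub_im, I_im, add_re, add_zero, add_im]
  nlinarith

theorem diff_cay : DifferentiableOn ℂ cay {z : ℂ | 0 ≤ z.im} := by
  intro z hz
  have h := addI_ne hz
  have : DifferentiableAt ℂ (fun z : ℂ => (z - I) / (z + I)) z :=
    (differentiableAt_id.sub_const I).div (differentiableAt_id.add_const I) h
  exact this.differentiableWithinAt

theorem diff_icay : DifferentiableOn ℂ icay {1}ᶜ := by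
  intro w hw
  have h := sub_ne (w := w) hw
  have : DifferentiableAt ℂ (fun w : ℂ => I * (1 + w) / (1 - w)) w :=
    ((differentiableAt_id.const_add 1).const_mul I).div (differentiableAt_id.const_sub 1) h
  exact this.differentiableWithinAt

theorem cf_cay : Cf HP (ball 0 1) cay icay where
  oU := CA.isOpen_HP
  oV := isOpen_ball
  hf := diff_cay.mono fun z hz => le_of_lt (show 0 < z.im from hz)
  hg := diff_icay.mono fun _ hw => ne_one (mem_ball_zero_iff.1 hw)
  mf := fun _ hz => mem_ball_zero_iff.2 (cay_lt hz)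
  mg := fun _ hw => icay_pos (mem_ball_zero_iff.1 hw)
  gf := fun z hz => icay_cay z (le_of_lt hz)
  fg := fun w hw => cay_icay w (ne_one (mem_ball_zero_iff.1 hw))

theorem dc_ne {c : ℝ → ℂ} (h : DC c) {s : ℝ} (hs : s ∈ Ico (0 : ℝ) 1) : c s ≠ 1 := by
  intro e
  have h1 : s = 1 := h.inj ⟨hs.1, hs.2.le⟩ ⟨zero_le_one, le_rfl⟩ (by rw [e, h.c1])
  exact absurd h1 hs.2.ne

theorem crv {c : ℝ → ℂ} (h : DC c) : CA.Crv (fun v => icay (c v)) 1 where
  cont := diff_icay.continuousOn.comp (h.cont.mono Ico_subset_Icc_self) fun _ hs => dc_ne h hs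
  inj := fun s hs t ht e => by
    apply h.inj (Ico_subset_Icc_self hs) (Ico_subset_Icc_self ht)
    have e' : icay (c s) = icay (c t) := e
    rw [← cay_icay _ (dc_ne h hs), e', cay_icay _ (dc_ne h ht)]
  im0 := by
    show (icay (c 0)).im = 0
    rw [h.c0, icay_im]
    simp
  pos := fun s hs => icay_pos (h.ins s hs)

end Cay

theorem s_cay : S_cay := by
  refine ⟨Cay.cf_cay, ?_, ?_, ?_, Cay.cay_icay, fun z hz => ⟨Cay.icay_cay z hz, Cay.cay_ne z hz⟩,
    Cay.diff_icay.continuousOn, Cay.diff_cay.continuousOn,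
    fun z hz => ⟨Cay.norm_cay_sub z hz, Cay.cay_im z⟩, fun w _ => Cay.icay_im w⟩
  · simp [icay]
  · simp [cay]
  · simp [cay]

theorem s_drv (hc : S_cay) : S_drv := by
  intro c h S hS
  obtain ⟨τ, t0, tc, tm, hW⟩ := CA.slit_all _ 1 (Cay.crv h) one_pos
  obtain ⟨W, w0, -, wn, wd⟩ := hW S hS
  have hsub : Icc (0 : ℝ) S ⊆ Ico 0 1 := fun s hs => ⟨hs.1, lt_of_le_of_lt hs.2 hS.2⟩
  have W0 : W 0 = 0 := by
    have e : (W 0 : ℂ) = icay (c 0) := w0
    rw [h.c0, hc.2.1] at e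
    exact_mod_cast e
  exact ⟨τ, W, ⟨hS.1, hS.2, t0, tc.mono hsub, tm.mono hsub, W0, wd⟩,
    fun t ht => (wn t ht).trans W0⟩

theorem s_fin (hc : S_cay) (hb : SLE.S_bnd) : S_fin := by
  intro T R
  have hA : 0 < |2 * T + 3 * R + 3| + 1 := by positivity
  refine ⟨min 2 (2 / (|2 * T + 3 * R + 3| + 1)), lt_min two_pos (div_pos two_pos hA), ?_⟩
  intro c S τ W h d s hs hr
  rcases hs.1.eq_or_lt with e | hpos
  · rw [← e, h.c0]
    have : ‖(-1 : ℂ) - 1‖ = 2 := by
      rw [show (-1 : ℂ) - 1 = -2 by ring, norm_neg]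
      simp
    rw [this]
    exact min_le_left _ _
  · have hs1 : s < 1 := lt_of_le_of_lt hs.2 d.S1
    have hw : 0 < (icay (c s)).im := Cay.icay_pos (h.ins s ⟨hpos, hs1⟩)
    have hτ : 0 ≤ τ s := by
      rw [← d.t0]
      exact (d.mono ⟨le_rfl, d.S0⟩ hs hpos).le
    have hn : icay (c s) ∉ dom W (τ s) := by
      rw [d.dom s hs]
      exact fun hh => hh.2 ⟨s, ⟨hpos, le_rfl⟩, rfl⟩
    have hlt : ‖icay (c s)‖ < 2 * τ s + 3 * R + 3 := by
      by_contra hh
      exact hn ((hb W (τ s) R _ hr.2).2 hτ hw (not_lt.1 hh))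
    have e : ‖c s - 1‖ = 2 / ‖icay (c s) + I‖ := by
      rw [← (hc.2.2.2.2.2.2.2.2.1 _ hw.le).1, hc.2.2.2.2.1 _ (Cay.dc_ne h ⟨hs.1, hs1⟩)]
    rw [e]
    refine (min_le_right _ _).trans ?_
    have h1 : 0 < ‖icay (c s) + I‖ := norm_pos_iff.2 (Cay.addI_ne hw.le)
    apply div_le_div_of_nonneg_left two_pos.le h1
    have h2 := norm_add_le (icay (c s)) I
    rw [norm_I] at h2
    have h3 := le_abs_self (2 * T + 3 * R + 3)
    have h4 := hr.1
    linarith

end Vale.Agent.P153.A2
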