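import Vale.Agent.P153.A2.Stm
import Vale.Agent.P153.CA.All
import Vale.Agent.P153.SLE.Basic

/-! The conformal maps of the slit domains. -/

open Set Filter Topology Metric Complex MeasureTheory
open scoped Real

noncomputable section
namespace Vale.Agent.P153.A2

open Vale.Agent.P164 (Pth HP Zf fi dom)
open Vale.Agent.P153.CA (Cf Full cay icay JLoop inside circ Hyd)
open Vale.Agent.P153.Wick (Fr arcP arcM CS Seq W_bv cc YY Qv cov inv)
open Vale.Agent.P153.SLE (DC Drv)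
open Vale.Agent.P153.Drive (Run Near obsM obsQ)
open Vale.Agent.P071 (Test g0)

namespace Cf

variable {Ψ : ℂ → ℂ} {c : ℝ → ℂ} {s : ℝ}

theorem cf2 (hΨ : IsJordanMap Ψ) : CA.Cf (ball 0 1) (Ψ '' ball 0 1) Ψ (inv Ψ) :=
  CA.s_inv _ _ isOpen_ball hΨ.2.2 (hΨ.2.1.mono ball_subset_closedBall)

theorem mem_cb (hc : DC c) (hs : s ∈ Icc (0 : ℝ) 1) {v : ℝ} (hv : v ∈ Icc 0 s) :
    c v ∈ closedBall (0 : ℂ) 1 :=
  mem_closedBall_zero_iff.2 (hc.norm_le ⟨hv.1, hv.2.trans hs.2⟩)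

theorem om_eq (hΨ : IsJordanMap Ψ) (hc : DC c) (hs : s ∈ Icc (0 : ℝ) 1) :
    om Ψ c s = Ψ '' ball 0 1 \ (fun v => Ψ (c v)) '' Icc 0 s := by
  ext w
  constructor
  · rintro ⟨z, ⟨h1, h2⟩, rfl⟩
    refine ⟨mem_image_of_mem _ h1, ?_⟩
    rintro ⟨v, hv, e⟩
    exact h2 ⟨v, hv, hΨ.2.1 (mem_cb hc hs hv) (ball_subset_closedBall h1) e⟩
  · rintro ⟨⟨z, h1, rfl⟩, h2⟩
    refine ⟨z, ⟨h1, ?_⟩, rfl⟩
    rintro ⟨v, hv, rfl⟩
    exact h2 ⟨v, hv, rfl⟩

theorem clos (hΨ : IsJordanMap Ψ) : closure (Ψ '' ball 0 1) ⊆ Ψ '' ball 0 1 ∪ Ψ '' sphere 0 1 := by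
  rw [← image_union, ball_union_sphere]
  exact closure_minimal (image_mono ball_subset_closedBall)
    ((isCompact_closedBall 0 1).image_of_continuousOn hΨ.1).isClosed

theorem full_disc (hΨ : IsJordanMap Ψ) : Full (Ψ '' ball 0 1) := by
  obtain ⟨-, -, h3, h4, -⟩ := CA.jct_all _ (CA.jloop_comp hΨ)
  have h1 : Ψ '' ball 0 1 ⊆ inside (range fun t => Ψ (circ t)) := fun w hw => by
    obtain ⟨e, he, h⟩ := CA.wind_all Ψ {w} hΨ isCompact_singleton (singleton_subset_iff.2 hw)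
    exact h _ (CA.jloop_comp hΨ).toLoop (fun t => by simpa using he.le) rfl
  have h0 : Ψ 0 ∈ Ψ '' ball 0 1 := mem_image_of_mem _ (mem_ball_self one_pos)
  have h2 : inside (range fun t => Ψ (circ t)) ⊆ Ψ '' ball 0 1 :=
    h3.subset_of_closure_inter_subset (cf2 hΨ).oV ⟨_, h1 h0, h0⟩ fun w hw =>
      (clos hΨ hw.1).resolve_right (CA.range_comp_circ Ψ ▸ hw.2.1)
  rwa [Subset.antisymm h1 h2]

end Cf

open Cf

theorem s_cf (hc : S_cay) : S_cf := by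
  intro Ψ c S τ W hΨ hd hr s hs
  have hs1 : s ∈ Icc (0 : ℝ) 1 := ⟨hs.1, hs.2.trans hr.S1.le⟩
  have ht := hr.nonneg hs
  have e : cay '' dom W (τ s) = ball 0 1 \ c '' Icc 0 s := by
    rw [hr.dom s hs]
    ext w
    constructor
    · rintro ⟨z, ⟨h1, h2⟩, rfl⟩
      refine ⟨hc.1.mf h1, ?_⟩
      rintro ⟨v, hv, e⟩
      rcases hv.1.eq_or_lt with rfl | h0
      · have := mem_ball_zero_iff.1 (hc.1.mf h1)
        rw [← e, hd.c0] at this
        simp at this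
      · exact h2 ⟨v, ⟨h0, hv.2⟩, by simp only [e, hc.1.gf z h1]⟩
    · rintro ⟨h1, h2⟩
      refine ⟨icay w, ⟨hc.1.mg h1, ?_⟩, hc.1.fg w h1⟩
      rintro ⟨v, hv, e⟩
      exact h2 ⟨v, Ioc_subset_Icc_self hv, hc.1.symm.inj (mem_ball_zero_iff.2
        (hd.ins v ⟨hv.1, hv.2.trans_lt (hs.2.trans_lt hr.S1)⟩)) h1 e⟩
  have h1 := (hc.1.symm.trans (SLE.cf_fi W ht)).trans
    (hc.1.restrict (SLE.cf_fi W ht).oV fun z hz => hz.1)
  rw [e] at h1
  have h3 := h1.trans ((cf2 hΨ).restrict h1.oV diff_subset)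
  refine ⟨h1, cf2 hΨ, h3, om_eq hΨ hd hs1, fun w hw => ?_⟩
  have ho : IsOpen (om Ψ c s) := h3.oV
  rw [ho.frontier_eq] at hw
  rcases clos hΨ (closure_mono (image_mono diff_subset) hw.1) with h | h
  · refine Or.inr (by_contra fun hn => hw.2 ?_)
    rw [om_eq hΨ hd hs1]
    exact ⟨h, hn⟩
  · exact Or.inl h

theorem s_full : S_full := by
  intro Ψ c s hΨ hd hs w hw
  have hsub : om Ψ c s ⊆ Ψ '' ball 0 1 := image_mono diff_subset
  by_cases hD : w ∈ Ψ '' ball 0 1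
  · have hn : Ψ (c 0) ∉ Ψ '' ball 0 1 := by
      rintro ⟨z, hz, e⟩
      have := hΨ.2.1 (ball_subset_closedBall hz) (mem_cb hd hs (left_mem_Icc.2 hs.1)) e
      rw [this, hd.c0] at hz
      simp at hz
    obtain ⟨S, h1, h2, h3, h4⟩ := full_disc hΨ _ hn
    have hp : IsPreconnected ((fun v => Ψ (c v)) '' Icc 0 s) :=
      isPreconnected_Icc.image _ (hΨ.1.comp (hd.cont.mono (Icc_subset_Icc_right hs.2))
        fun v hv => mem_cb hd hs hv)
    refine ⟨(fun v => Ψ (c v)) '' Icc 0 s ∪ S, hp.union _ ⟨0, left_mem_Icc.2 hs.1, rfl⟩ h2 h1,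
      Or.inl (by_contra fun hn => hw ?_), disjoint_union_left.2 ⟨?_, h3.mono_right hsub⟩,
      fun hb => h4 (hb.subset subset_union_right)⟩
    · rw [om_eq hΨ hd hs]
      exact ⟨hD, hn⟩
    · rw [om_eq hΨ hd hs]
      exact disjoint_sdiff_right
  · obtain ⟨S, h1, h2, h3, h4⟩ := full_disc hΨ w hD
    exact ⟨S, h1, h2, h3.mono_right hsub, h4⟩

end Vale.Agent.P153.A2
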