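import Vale.Agent.P153.A2.Stm
import Vale.Agent.P153.CA.Bdir
import Vale.Agent.P153.CA.Bconv
import Vale.Agent.P153.CA.Bc2
import Vale.Agent.P153.CA.Jan

/-! The crossing lemma. -/

open Set Filter Topology Metric Complex MeasureTheory
open scoped Real

noncomputable section
namespace Vale.Agent.P153.A2

open Vale.Agent.P153.CA (HasLog)

namespace Cross

theorem slit {w : ℂ} (h : ‖w‖ ≤ 1) (h1 : w ≠ 1) : 1 - w ∈ slitPlane := by
  by_contra hn
  rw [mem_slitPlane_iff, not_or, not_lt, not_not] at hn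
  obtain ⟨a, b⟩ := hn
  simp only [sub_re, one_re, sub_im, one_im] at a b
  have := (re_le_norm w).trans h
  exact h1 (Complex.ext (by simp only [one_re]; linarith) (by simp only [one_im]; linarith))

theorem log_disc {u v : ℂ} (hu : ‖u‖ = 1) (hv : ‖v‖ = 1) {A : Set ℂ}
    (hA : ∀ z ∈ A, ‖z‖ ≤ 1 ∧ z ≠ u ∧ z ≠ v) : HasLog (fun z => (z - u) / (z - v)) A := by
  have u0 : u ≠ 0 := by rintro rfl; simp at hu
  have v0 : v ≠ 0 := by rintro rfl; simp at hv
  have s : ∀ p : ℂ, ‖p‖ = 1 → ∀ z : ℂ, ‖z‖ ≤ 1 → z ≠ p → 1 - z / p ∈ slitPlane := by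
    intro p hp z hz hne
    have p0 : p ≠ 0 := by rintro rfl; simp at hp
    refine slit (by rw [norm_div, hp, div_one]; exact hz) fun e => hne ?_
    rwa [div_eq_one_iff_eq p0] at e
  refine ⟨fun z => log (1 - z / u) - log (1 - z / v) + log (u / v), ?_, fun z hz => ?_⟩
  · refine (ContinuousOn.sub ?_ ?_).add continuousOn_const
    · exact ContinuousOn.clog (by fun_prop) fun z hz => s u hu z (hA z hz).1 (hA z hz).2.1
    · exact ContinuousOn.clog (by fun_prop) fun z hz => s v hv z (hA z hz).1 (hA z hz).2.2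
  · have a := slitPlane_ne_zero (s u hu z (hA z hz).1 (hA z hz).2.1)
    have b := slitPlane_ne_zero (s v hv z (hA z hz).1 (hA z hz).2.2)
    have c : z - v ≠ 0 := sub_ne_zero.2 (hA z hz).2.2
    have d : v - z ≠ 0 := sub_ne_zero.2 (hA z hz).2.2.symm
    rw [exp_add, exp_sub, exp_log a, exp_log b, exp_log (div_ne_zero u0 v0)]
    field_simp
    ring

theorem pm {z : ℂ} (h : ‖z‖ = 1) (hi : z.im = 0) : z = -1 ∨ z = 1 := by
  have e : z = (z.re : ℂ) := Complex.ext (by simp) (by simp [hi])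
  rw [e, norm_real, Real.norm_eq_abs] at h
  rcases abs_eq (zero_le_one' ℝ) |>.1 h with h | h
  · right; rw [e, h]; simp
  · left; rw [e, h]; simp

end Cross

theorem s_cross : S_cross := by
  intro K Q u v hK cK sK m1 p1 cQ sQ hu hv nu nv iu
  by_contra iv
  rw [not_le] at iv
  set E : Set ℂ := {z | 1 ≤ ‖z‖} ∩ ({z | z.im = 0} ∪ {z | 2 ≤ ‖z‖}) with hE
  set J : Set ℂ := {z | ‖z‖ ≤ 1} ∩ {z | z.im = 0} with hJ
  have cE : IsClosed E := (isClosed_le continuous_const continuous_norm).inter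
    ((isClosed_eq continuous_im continuous_const).union
      (isClosed_le continuous_const continuous_norm))
  have cJ : IsClosed J := (isClosed_le continuous_norm continuous_const).inter
    (isClosed_eq continuous_im continuous_const)
  have nK : ∀ w : ℂ, ‖w‖ = 1 → w.im ≠ 0 → w ∉ K := by
    intro w hw hi h
    rcases sK h with h | h | h
    · rw [mem_ball_zero_iff] at h; linarith
    · exact hi (by rw [h]; simp)
    · exact hi (by rw [mem_singleton_iff.1 h]; simp)
  have nE : ∀ w : ℂ, ‖w‖ = 1 → w.im ≠ 0 → w ∉ E := by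
    rintro w hw hi ⟨-, h | h⟩
    · exact hi h
    · have : (2 : ℝ) ≤ ‖w‖ := h
      linarith
  have l1 : HasLog (fun z => (z - u) / (z - v)) (K ∪ E) := by
    refine CA.s_bdir.1 (K ∪ E) (Q ∪ {u, v}) u v (hK.isClosed.union cE)
      (cQ.subset_closure subset_union_left ?_) (disjoint_left.2 ?_) (Or.inr (Or.inl rfl))
      (Or.inr (Or.inr rfl))
    · rintro z (h | rfl | rfl)
      exacts [subset_closure h, hu, hv]
    · rintro z (h | rfl | rfl) (h' | h')
      · exact (sQ h).2 h'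
      · have a := mem_ball_zero_iff.1 (sQ h).1
        have b : (1 : ℝ) ≤ ‖z‖ := h'.1
        linarith
      · exact nK _ nu iu.ne' h'
      · exact nE _ nu iu.ne' h'
      · exact nK _ nv iv.ne h'
      · exact nE _ nv iv.ne h'
  have kb : ∀ z ∈ K, ‖z‖ ≤ 1 := by
    intro z h
    rcases sK h with h | h | h
    · exact (mem_ball_zero_iff.1 h).le
    · rw [h]; simp
    · rw [mem_singleton_iff.1 h]; simp
  have l2 : HasLog (fun z => (z - u) / (z - v)) (K ∪ J) := by
    refine Cross.log_disc nu nv ?_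
    rintro z (h | h)
    · exact ⟨kb z h, fun e => nK u nu iu.ne' (e ▸ h), fun e => nK v nv iv.ne (e ▸ h)⟩
    · exact ⟨h.1, fun e => iu.ne' (e ▸ h.2), fun e => iv.ne (e ▸ h.2)⟩
  have e : (K ∪ E) ∩ (K ∪ J) = K := by
    refine Subset.antisymm ?_ (subset_inter subset_union_left subset_union_left)
    rintro z ⟨h | h, h' | h'⟩
    · exact h
    · exact h
    · exact h'
    · rcases Cross.pm (z := z) (le_antisymm h'.1 h.1) h'.2 with rfl | rfl
      exacts [m1, p1]
  have l3 := CA.Jan.glue (hK.isClosed.union cE) (hK.isClosed.union cJ) (e.symm ▸ cK) l1 l2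
  have nA : ∀ w : ℂ, ‖w‖ = 1 → w.im ≠ 0 → w ∉ (K ∪ E) ∪ (K ∪ J) := by
    rintro w hw hi ((h | h) | h | h)
    exacts [nK w hw hi h, nE w hw hi h, nK w hw hi h, hi h.2]
  have bd : Bornology.IsBounded ((K ∪ E) ∪ (K ∪ J))ᶜ := by
    refine (isBounded_ball (x := (0 : ℂ)) (r := 2)).subset fun z hz => ?_
    rw [mem_ball_zero_iff]
    by_contra h
    rw [not_lt] at h
    exact hz (Or.inl (Or.inr ⟨show (1 : ℝ) ≤ ‖z‖ by linarith, Or.inr h⟩))
  obtain ⟨γ, hγ⟩ := CA.s_bc2 CA.s_bconv _ u v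
    ((hK.isClosed.union cE).union (hK.isClosed.union cJ)) (Or.inr bd) (nA u nu iu.ne')
    (nA v nv iv.ne) l3
  have hc : Continuous fun t => (γ t).im := continuous_im.comp γ.continuous
  obtain ⟨t, ht⟩ : (0 : ℝ) ∈ range fun t => (γ t).im :=
    intermediate_value_univ 1 0 hc ⟨by simpa using iv.le, by simpa using iu.le⟩
  rcases le_total 1 ‖γ t‖ with h | h
  · exact hγ t (Or.inl (Or.inr ⟨h, Or.inl ht⟩))
  · exact hγ t (Or.inr (Or.inr ⟨h, ht⟩))

end Vale.Agent.P153.A2
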