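import Vale.Agent.P153.A2.Stm
import Vale.Agent.P153.Wick.Conf
import Vale.Agent.P153.Wick.Emb

/-! The interface seen in the disc is a simple curve with small steps. -/

open Set Filter Topology Metric Complex MeasureTheory
open scoped Real

noncomputable section
namespace Vale.Agent.P153.A2

open Vale.Agent.P164 (Pth HP Zf fi dom)
open Vale.Agent.P153.CA (Cf Full cay icay JLoop inside circ Hyd)
open Vale.Agent.P153.Wick (Fr arcP arcM CS Seq W_bv cc YY Qv cov inv)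
open Vale.Agent.P153.SLE (DC Drv)
open Vale.Agent.P153.Drive (Run Near obsM obsQ)
open Vale.Agent.P071 (Test g0)

namespace Dc

theorem step_le {x y : V} (h : y = x ∨ Adj x y) : ‖emb y - emb x‖ ≤ 1 := by
  rcases h with rfl | h
  · simp
  · rw [← Wick.s_emb.2.1]
    refine (Wick.s_emb.2.2.1 _).1.trans ?_
    have h1 : nrm (y - x) ≤ 1 := by
      rcases h with h | h | h | h | h | h <;> rw [h] <;> decide
    exact_mod_cast h1

theorem mid_le {L : LDom} {ε : ℤ} {h : V → ℤ} (hl : Lat L ε h) {m : ℕ} (hm : m < L.len h) :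
    dist (mid L h m) (mid L h (m + 1)) ≤ 1 := by
  have h1 := step_le (hl.stl m hm)
  have h2 := step_le (hl.str m hm)
  have e : mid L h (m + 1) - mid L h m = ((emb (L.edge h (m + 1)).1 - emb (L.edge h m).1) +
      (emb (L.edge h (m + 1)).2 - emb (L.edge h m).2)) / 2 := by
    simp only [mid]; ring
  rw [dist_comm, dist_eq_norm, e, norm_div, Complex.norm_ofNat]
  have h3 := norm_add_le (emb (L.edge h (m + 1)).1 - emb (L.edge h m).1)
    (emb (L.edge h (m + 1)).2 - emb (L.edge h m).2)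
  linarith

theorem mem_cb {c : ℝ → ℂ} (hc : DC c) {s : ℝ} (hs : s ∈ Icc (0 : ℝ) 1) :
    c s ∈ closedBall (0 : ℂ) 1 := by
  rw [mem_closedBall_zero_iff]
  rcases hs.1.eq_or_lt with rfl | h0
  · simp [hc.c0]
  · rcases hs.2.eq_or_lt with rfl | h1
    · simp [hc.c1]
    · exact (hc.ins s ⟨h0, h1⟩).le

end Dc

theorem s_dc (hp : S_poly) : S_dc := by
  intro L δ Ψ ε h hj hl
  obtain ⟨hc, hi, -⟩ := hp (mid L h) (L.len h) hl.pos
  have hδ : (δ : ℂ) ≠ 0 := by exact_mod_cast hj.pos.ne'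
  have hM : ((L.len h : ℕ) : ℝ) ≠ 0 := by exact_mod_cast hl.pos.ne'
  have hgc : ContinuousOn (gm L δ h) (Icc 0 1) := continuousOn_const.mul hc
  have g0 : gm L δ h 0 = Ψ (-1) := by
    have h0 := hi 0 (Nat.zero_le _)
    rw [Nat.cast_zero, zero_div] at h0
    rw [gm, h0, hj.a]
    rfl
  have g1 : gm L δ h 1 = Ψ 1 := by
    have h0 := hi _ le_rfl
    rw [div_self hM] at h0
    rw [gm, h0, hj.b, mid, hl.last]
  have gi : ∀ s ∈ Ioo (0 : ℝ) 1, gm L δ h s ∈ Ψ '' ball 0 1 := fun s hs => by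
    rw [hj.im, mem_ofPred_eq, gm, mul_div_cancel_left₀ _ hδ]
    exact hl.ins s hs
  have hm : ∀ s ∈ Icc (0 : ℝ) 1, ∃ a ∈ closedBall (0 : ℂ) 1, Ψ a = gm L δ h s := by
    intro s hs
    rcases hs.1.eq_or_lt with rfl | h0
    · exact ⟨-1, by simp, g0.symm⟩
    · rcases hs.2.eq_or_lt with rfl | h1
      · exact ⟨1, by simp, g1.symm⟩
      · exact image_mono ball_subset_closedBall (gi s ⟨h0, h1⟩)
  have he : ∀ s ∈ Icc (0 : ℝ) 1, Ψ (cv Ψ L δ h s) = gm L δ h s := fun s hs =>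
    Function.invFunOn_eq (hm s hs)
  have hb : ∀ s ∈ Icc (0 : ℝ) 1, cv Ψ L δ h s ∈ closedBall (0 : ℂ) 1 := fun s hs =>
    Function.invFunOn_mem (hm s hs)
  refine ⟨⟨?_, fun s hs t ht hst => ?_, ?_, ?_, fun s hs => ?_⟩, hgc, he⟩
  · rw [Metric.continuousOn_iff]
    intro s hs e he0
    obtain ⟨d, hd, hu⟩ := Wick.Conf.unif hj.jm (e / 2) (half_pos he0)
    obtain ⟨r, hr, hr'⟩ := Metric.continuousOn_iff.1 hgc s hs d hd
    refine ⟨r, hr, fun a ha har => ?_⟩
    have h1 := (hu _ (hb a ha) _ (hb s hs)).2 (by rw [he a ha, he s hs]; exact (hr' a ha har).le)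
    linarith
  · have h1 : gm L δ h s = gm L δ h t := by rw [← he s hs, ← he t ht, hst]
    exact hl.inj hs ht (mul_left_cancel₀ hδ h1)
  · exact hj.jm.2.1 (hb 0 (by simp)) (by simp) ((he 0 (by simp)).trans g0)
  · exact hj.jm.2.1 (hb 1 (by simp)) (by simp) ((he 1 (by simp)).trans g1)
  · obtain ⟨a, ha, e⟩ := gi s hs
    have hs' := Ioo_subset_Icc_self hs
    rw [hj.jm.2.1 (hb s hs') (ball_subset_closedBall ha) ((he s hs').trans e.symm)]
    exact mem_ball_zero_iff.1 ha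

theorem s_mesh (hp : S_poly) (hd : S_dc) : S_mesh := by
  intro ψ L δ Ψ hψ hδ hΨ ω hω
  obtain ⟨d, hd0, hu⟩ := Wick.Conf.unif hψ ω hω
  have h3 : 0 < d / 3 := by positivity
  filter_upwards [hΨ.2, Metric.tendstoUniformlyOn_iff.1 hΨ.1 _ h3,
    hδ.eventually (gt_mem_nhds h3)] with n hj hn hδn ε h hl m hm v hv
  obtain ⟨hdc, -, he⟩ := hd _ _ _ _ _ hj hl
  obtain ⟨-, hi, hs, -⟩ := hp (mid (L n) h) ((L n).len h) hl.pos
  have hM : (0 : ℝ) < ((L n).len h : ℕ) := by exact_mod_cast hl.pos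
  have hm1 : ((m : ℝ) + 1) / ((L n).len h : ℕ) ≤ 1 := by
    rw [div_le_one hM]; exact_mod_cast hm
  have hm0 : (0 : ℝ) ≤ (m : ℝ) / ((L n).len h : ℕ) := by positivity
  have hv1 : v ∈ Icc (0 : ℝ) 1 := ⟨hm0.trans hv.1, hv.2.trans hm1⟩
  have hu1 : (m : ℝ) / ((L n).len h : ℕ) ∈ Icc (0 : ℝ) 1 := ⟨hm0, hv.1.trans hv1.2⟩
  have ha := Dc.mem_cb hdc hv1
  have hb := Dc.mem_cb hdc hu1
  have h1 : dist (gm (L n) (δ n) h v) (gm (L n) (δ n) h (m / ((L n).len h : ℕ))) ≤ δ n := by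
    have h2 := dist_add_dist_of_mem_segment (hs m hm v hv)
    have h4 := Dc.mid_le hl hm
    have h5 := dist_nonneg (x := poly (mid (L n) h) ((L n).len h) v) (y := mid (L n) h (m + 1))
    rw [gm, gm, hi m hm.le, dist_eq_norm, ← mul_sub, norm_mul, Complex.norm_real,
      Real.norm_of_nonneg hj.pos.le, ← dist_eq_norm, dist_comm]
    exact mul_le_of_le_one_right hj.pos.le (by linarith)
  rw [← he v hv1, ← he _ hu1] at h1
  rw [← dist_eq_norm]
  have h6 := hn _ ha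
  have h7 := hn _ hb
  rw [dist_comm] at h7
  exact (hu _ ha _ hb).2 ((dist_triangle4 _ _ _ _).trans
    ((add_le_add (add_le_add h6.le h1) h7.le).trans (by linarith)))

end Vale.Agent.P153.A2
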