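import Vale.Agent.P153.A2.Stm
import Vale.Agent.P153.SLE.Fnd

/-! The variation formula of Hadamard. -/

open Set Filter Topology Metric Complex MeasureTheory
open scoped Real

noncomputable section
namespace Vale.Agent.P153.A2

open Vale.Agent.P164 (Pth HP Zf fi dom)
open Vale.Agent.P153.CA (cay icay)
open Vale.Agent.P071 (g0)

namespace Had

theorem ne_I {a : ℂ} (ha : a ∈ HP) : a + I ≠ 0 := fun h => by
  have h1 : 0 < a.im := ha
  have := congrArg Complex.im h
  simp at this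
  linarith

theorem part1 (a : ℂ) (ha : a ∈ HP) (b : ℂ) (hb : b ∈ HP) : g0 (cay a) (cay b) = GH a b := by
  have h1 := ne_I ha
  have h2 := ne_I hb
  have h3 : (starRingEnd ℂ) (b + I) ≠ 0 := (map_ne_zero _).2 h2
  have h4 : cay a - cay b = 2 * I * (a - b) / ((a + I) * (b + I)) := by
    unfold cay
    field_simp
    ring
  have h5 : 1 - cay a * (starRingEnd ℂ) (cay b) =
      -(2 * I) * (a - (starRingEnd ℂ) b) / ((a + I) * (starRingEnd ℂ) (b + I)) := by
    unfold cay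
    rw [map_div₀]
    field_simp
    simp only [map_add, map_sub, conj_I]
    ring
  unfold g0 GH
  rw [h4, h5]
  simp only [norm_div, norm_mul, norm_neg, norm_conj, norm_I, mul_one]
  rw [div_div_div_cancel_right₀ (mul_ne_zero (norm_ne_zero_iff.2 h1) (norm_ne_zero_iff.2 h2)),
    mul_div_mul_left _ _ (by simp)]

theorem der_log {P : ℝ → ℂ} {c : ℂ} {u : ℝ} (h : HasDerivAt P (c * P u) u) (h0 : P u ≠ 0) :
    HasDerivAt (fun v => Real.log ‖P v‖) c.re u := by
  have h1 : ‖P u‖ ^ 2 ≠ 0 := pow_ne_zero _ (norm_ne_zero_iff.2 h0)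
  have h2 := (h.norm_sq.log h1).div_const 2
  have h3 : (fun v => Real.log (‖P v‖ ^ 2) / 2) = fun v => Real.log ‖P v‖ := by
    funext v
    rw [Real.log_pow]
    push_cast
    ring
  have h4 : 2 * inner ℝ (P u) (c * P u) / ‖P u‖ ^ 2 / 2 = c.re := by
    rw [Complex.inner, mul_assoc, mul_conj, normSq_eq_norm_sq, re_mul_ofReal]
    field_simp
  rw [← h3, ← h4]
  exact h2

theorem ne_conj {a b : ℂ} (ha : a ∈ HP) (hb : b ∈ HP) : a - (starRingEnd ℂ) b ≠ 0 := fun h => by
  have h1 : 0 < a.im := ha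
  have h2 : 0 < b.im := hb
  have := congrArg Complex.im h
  simp at this
  linarith

theorem ne_zero {a : ℂ} (ha : a ∈ HP) : a ≠ 0 := fun h => by
  have h1 : 0 < a.im := ha
  simp [h] at h1

theorem GH_eq {a b : ℂ} (ha : a ∈ HP) (hb : b ∈ HP) (h : a ≠ b) : GH a b =
    (2 * π)⁻¹ * (Real.log ‖a - (starRingEnd ℂ) b‖ - Real.log ‖a - b‖) := by
  rw [GH, Real.log_div (norm_ne_zero_iff.2 (ne_conj ha hb)) (norm_ne_zero_iff.2 (sub_ne_zero.2 h))]

theorem part2 (W : Pth) (t : ℝ) (w w' : ℂ) (ht : 0 ≤ t) (hw : w ∈ dom W t) (hw' : w' ∈ dom W t)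
    (hne : w ≠ w') : GH (Zf W t w) (Zf W t w') =
      GH w w' - 2 / π * ∫ u in (0 : ℝ)..t, ((Zf W u w)⁻¹).im * ((Zf W u w')⁻¹).im := by
  have fA := SLE.fA
  have hd : ∀ u ∈ Icc 0 t, w ∈ dom W u ∧ w' ∈ dom W u := fun u hu =>
    ⟨fA.dom_anti W u t hu.1 hu.2 hw, fA.dom_anti W u t hu.1 hu.2 hw'⟩
  have hX : ∀ u ∈ Icc 0 t, Zf W u w ∈ HP := fun u hu => (fA.alive W u w hu.1).1 (hd u hu).1
  have hY : ∀ u ∈ Icc 0 t, Zf W u w' ∈ HP := fun u hu => (fA.alive W u w' hu.1).1 (hd u hu).2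
  have hXY : ∀ u ∈ Icc 0 t, Zf W u w ≠ Zf W u w' := fun u hu h =>
    hne (SLE.cA.inj W u hu.1 (hd u hu).1 (hd u hu).2 h)
  have cX : ContinuousOn (fun u => Zf W u w) (Icc 0 t) := fun u hu =>
    (fA.cont W u w hu.1 (hd u hu).1).1.continuousWithinAt
  have cY : ContinuousOn (fun u => Zf W u w') (Icc 0 t) := fun u hu =>
    (fA.cont W u w' hu.1 (hd u hu).2).1.continuousWithinAt
  have cF : ContinuousOn (fun u => (2 * π)⁻¹ * (Real.log ‖Zf W u w - (starRingEnd ℂ) (Zf W u w')‖ -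
      Real.log ‖Zf W u w - Zf W u w'‖)) (Icc 0 t) :=
    continuousOn_const.mul (((cX.sub (continuous_conj.comp_continuousOn cY)).norm.log fun u hu =>
      norm_ne_zero_iff.2 (ne_conj (hX u hu) (hY u hu))).sub ((cX.sub cY).norm.log fun u hu =>
        norm_ne_zero_iff.2 (sub_ne_zero.2 (hXY u hu))))
  have cG : ContinuousOn (fun u => -(2 / π) * (((Zf W u w)⁻¹).im * ((Zf W u w')⁻¹).im)) (Icc 0 t) :=
    continuousOn_const.mul ((continuous_im.comp_continuousOn (cX.inv₀ fun u hu =>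
      ne_zero (hX u hu))).mul (continuous_im.comp_continuousOn (cY.inv₀ fun u hu =>
        ne_zero (hY u hu))))
  have key := intervalIntegral.integral_eq_sub_of_hasDerivAt_of_le ht cF (fun u hu => ?_)
    (cG.intervalIntegrable_of_Icc ht)
  · have h0 : (0 : ℝ) ∈ Icc 0 t := ⟨le_rfl, ht⟩
    have hw0 : w ∈ HP := (hd 0 h0).1.1
    have hw0' : w' ∈ HP := (hd 0 h0).2.1
    rw [intervalIntegral.integral_const_mul, (fA.init W w hw0).2.1, (fA.init W w' hw0').2.1,
      map_sub, conj_ofReal, sub_sub_sub_cancel_right, sub_sub_sub_cancel_right] at key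
    rw [GH_eq (hX t ⟨ht, le_rfl⟩) (hY t ⟨ht, le_rfl⟩) (hXY t ⟨ht, le_rfl⟩), GH_eq hw0 hw0' hne]
    linarith
  · have hu' : u ∈ Icc 0 t := Ioo_subset_Icc_self hu
    have dX := (fA.der W u w hu.1 (hd u hu').1).1
    have dY := (fA.der W u w' hu.1 (hd u hu').2).1
    have nX := ne_zero (hX u hu')
    have nY := ne_zero (hY u hu')
    have nY' : (starRingEnd ℂ) (Zf W u w') ≠ 0 := (map_ne_zero _).2 nY
    have d1 : HasDerivAt (fun v => Zf W v w - Zf W v w')
        (-2 * ((Zf W u w)⁻¹ * (Zf W u w')⁻¹) * (Zf W u w - Zf W u w')) u := by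
      refine ((dX.sub dY).congr_deriv ?_).congr_of_eventuallyEq (Eventually.of_forall fun v => ?_)
      · field_simp
        ring
      · simp
    have d2 : HasDerivAt (fun v => Zf W v w - (starRingEnd ℂ) (Zf W v w'))
        (-2 * ((Zf W u w)⁻¹ * (starRingEnd ℂ) (Zf W u w')⁻¹) *
          (Zf W u w - (starRingEnd ℂ) (Zf W u w'))) u := by
      refine ((dX.sub dY.star).congr_deriv ?_).congr_of_eventuallyEq
        (Eventually.of_forall fun v => ?_)
      · simp only [star_def, map_div₀, map_inv₀, map_ofNat]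
        field_simp
        ring
      · simp
    refine (((der_log d2 (ne_conj (hX u hu') (hY u hu'))).sub
      (der_log d1 (sub_ne_zero.2 (hXY u hu')))).const_mul (2 * π)⁻¹).congr_deriv ?_
    generalize (Zf W u w)⁻¹ = p
    generalize (Zf W u w')⁻¹ = q
    simp
    ring

end Had

theorem s_had : S_had := ⟨Had.part1, Had.part2⟩

end Vale.Agent.P153.A2
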