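import Vale.Agent.P153.A2.Stm
import Vale.Agent.P153.CA.All

/-! The increments of the capacity and of the driving function. -/

open Set Filter Topology Metric Complex MeasureTheory
open scoped Real

noncomputable section
namespace Vale.Agent.P153.A2

open Vale.Agent.P164 (Pth HP Zf fi dom)
open Vale.Agent.P153.CA (Cf Full cay icay JLoop inside circ Hyd)
open Vale.Agent.P153.SLE (DC Drv)

namespace Incr

variable {c : ℝ → ℂ} {S : ℝ} {τ : ℝ → ℝ} {W : Pth}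

theorem dc_ne (h : DC c) {s : ℝ} (hs : s ∈ Ico (0 : ℝ) 1) : c s ≠ 1 := fun e =>
  hs.2.ne (h.inj ⟨hs.1, hs.2.le⟩ ⟨zero_le_one, le_rfl⟩ (e.trans h.c1.symm))

theorem crv (hc : S_cay) (h : DC c) : CA.Crv (fun v => icay (c v)) 1 where
  cont := hc.2.2.2.2.2.2.1.comp (h.cont.mono Ico_subset_Icc_self) fun _ hs => dc_ne h hs
  inj := fun s hs t ht e => by
    refine h.inj (Ico_subset_Icc_self hs) (Ico_subset_Icc_self ht) ?_
    have e' : icay (c s) = icay (c t) := e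
    rw [← hc.2.2.2.2.1 _ (dc_ne h hs), e', hc.2.2.2.2.1 _ (dc_ne h ht)]
  im0 := by
    show (icay (c 0)).im = 0
    rw [h.c0, hc.2.1]
    rfl
  pos := fun s hs => hc.1.mg (mem_ball_zero_iff.2 (h.ins s hs))

theorem tau_mem (d : Drv c S τ W) {s : ℝ} (hs : s ∈ Icc 0 S) : τ s ∈ Icc 0 (τ S) :=
  ⟨d.t0.ge.trans (d.mono.monotoneOn ⟨le_rfl, d.S0⟩ hs hs.1),
    d.mono.monotoneOn hs ⟨d.S0, le_rfl⟩ hs.2⟩

theorem chain (hc : S_cay) (hw : S_whyd) (hb : SLE.S_bnd) (h : DC c) (d : Drv c S τ W) :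
    CA.Chain (fun v => icay (c v)) S (fun s z => Zf W (τ s) z + W (τ s))
      (fun s z => fi W (τ s) (z - W (τ s))) fun s => 2 * τ s where
  hyd s hs := by
    have hs' : s ∈ Icc 0 S := Ico_subset_Icc_self hs
    have := hw W (τ s) (tau_mem d hs').1
    rwa [d.dom s hs', sdiff_sdiff_cancel_left] at this
    rintro _ ⟨v, hv, rfl⟩
    exact (crv hc h).pos v ⟨hv.1, (hv.2.trans hs'.2).trans_lt d.S1⟩
  bd S' hS := by
    obtain ⟨M, hM⟩ := isCompact_Icc.exists_bound_of_continuousOn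
      (W.continuous.continuousOn (s := Icc 0 (τ S)))
    refine ⟨_, fun s hs z hz => (hb W (τ S) M z hM).1 (τ s) (tau_mem d ⟨hs.1, hs.2.trans hS.le⟩) ?_⟩
    rwa [d.dom s ⟨hs.1, hs.2.trans hS.le⟩]

theorem grow (hc : S_cay) (hs : S_surv) (h : DC c) (d : Drv c S τ W) :
    CA.Grow (fun v => icay (c v)) S (fun s z => Zf W (τ s) z + W (τ s)) fun s => W (τ s) := by
  intro S' hS ε hε
  obtain ⟨δ₁, h1, k1⟩ := Metric.uniformContinuousOn_iff.1 (isCompact_Icc.uniformContinuousOn_of_continuous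
    (W.continuous.continuousOn (s := Icc 0 (τ S)))) (ε / 2) (half_pos hε)
  obtain ⟨δ₂, h2, k2⟩ := Metric.uniformContinuousOn_iff.1
    (isCompact_Icc.uniformContinuousOn_of_continuous d.cont) (min δ₁ ((ε / 6) ^ 2))
    (lt_min h1 (by positivity))
  refine ⟨δ₂ / 2, half_pos h2, fun s hs0 u hsu huS hu => ?_⟩
  have hs' : s ∈ Icc 0 S := ⟨hs0.1, hs0.2.trans hS.le⟩
  have hu' : u ∈ Icc 0 S := ⟨hs0.1.trans hsu.le, huS.le⟩
  have hu1 : u ∈ Ioo (0 : ℝ) 1 := ⟨hs0.1.trans_lt hsu, huS.trans d.S1⟩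
  have hτ : τ s ≤ τ u := d.mono.monotoneOn hs' hu' hsu.le
  have k3 := k2 u hu' s hs' (by rw [Real.dist_eq, abs_of_pos (sub_pos.2 hsu)]; linarith)
  rw [Real.dist_eq, abs_of_nonneg (sub_nonneg.2 hτ), lt_min_iff] at k3
  have k4 : √(τ u - τ s) ≤ ε / 6 := Real.sqrt_le_iff.2 ⟨by positivity, k3.2.le⟩
  show ‖Zf W (τ s) (icay (c u)) + W (τ s) - W (τ s)‖ ≤ ε
  rw [add_sub_cancel_right]
  by_contra hn
  have k5 := hs W (τ s) (τ u) (ε / 2) (icay (c u)) (tau_mem d hs').1 hτ (fun t ht => ?_) ?_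
    (by linarith [not_le.1 hn])
  · rw [d.dom u hu'] at k5
    exact k5.2 ⟨u, ⟨hu1.1, le_rfl⟩, rfl⟩
  · refine (k1 t ⟨(tau_mem d hs').1.trans ht.1, ht.2.trans (tau_mem d hu').2⟩ _
      (tau_mem d hs') ?_).le
    rw [Real.dist_eq, abs_of_nonneg (sub_nonneg.2 ht.1)]
    linarith [ht.2, k3.1]
  · rw [d.dom s hs']
    refine ⟨(crv hc h).pos u hu1, ?_⟩
    rintro ⟨v, hv, e⟩
    have := (crv hc h).inj ⟨hv.1.le, (hv.2.trans_lt hsu).trans hu1.2⟩ ⟨hu1.1.le, hu1.2⟩ e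
    exact (hv.2.trans_lt hsu).ne this

end Incr

theorem s_incr (hc : S_cay) (hw : S_whyd) (hs : S_surv) (hb : SLE.S_bnd) : S_incr := by
  obtain ⟨C, hC, hI⟩ := CA.ch2_all
  refine ⟨C, hC, fun c S τ W s u r h d h0 hsu huS hr hv => ?_⟩
  have hcr := Incr.crv hc h
  have hcr' : CA.Crv (fun v => icay (c v)) S :=
    ⟨hcr.cont.mono (Ico_subset_Ico_right d.S1.le), hcr.inj.mono (Ico_subset_Ico_right d.S1.le),
      hcr.im0, fun v k => hcr.pos v (Ioo_subset_Ioo_right d.S1.le k)⟩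
  have hinc := hI _ _ _ _ _ _ hcr' (Incr.chain hc hw hb h d) (Incr.grow hc hs h d)
  have hsub : Icc s u ⊆ Icc 0 S := Icc_subset_Icc h0 huS
  have k1 : ∀ v ∈ Ico s u, τ v - τ s ≤ C * r ^ 2 ∧ |W (τ v) - W (τ s)| ≤ C * r := by
    intro v k
    rcases k.1.eq_or_lt with rfl | k'
    · simp only [sub_self, abs_zero]
      constructor <;> positivity
    · obtain ⟨e1, e2, e3, -⟩ := hinc s v r h0 k' (k.2.trans_le huS) hr fun w hw' => by
        show ‖Zf W (τ s) (icay (c w)) + W (τ s) - W (τ s)‖ ≤ r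
        rw [add_sub_cancel_right]
        exact hv w ⟨hw'.1, hw'.2.trans k.2.le⟩
      exact ⟨by linarith, e3⟩
  have k2 : τ u - τ s ≤ C * r ^ 2 ∧ |W (τ u) - W (τ s)| ≤ C * r := by
    have := right_nhdsWithin_Ico_neBot hsu
    have t1 : Tendsto τ (𝓝[Ico s u] u) (𝓝 (τ u)) :=
      (d.cont u (hsub ⟨hsu.le, le_rfl⟩)).mono (Ico_subset_Icc_self.trans hsub)
    exact ⟨le_of_tendsto (t1.sub_const _) (eventually_nhdsWithin_of_forall fun v k => (k1 v k).1),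
      le_of_tendsto (((W.continuous.tendsto _).comp t1).sub_const _).abs
        (eventually_nhdsWithin_of_forall fun v k => (k1 v k).2)⟩
  refine ⟨k2.1, fun t ht => ?_⟩
  obtain ⟨v, k, rfl⟩ := intermediate_value_Icc hsu.le (d.cont.mono hsub) ht
  rcases k.2.eq_or_lt with rfl | k'
  · exact k2.2
  · exact (k1 v ⟨k.1, k'⟩).2

end Vale.Agent.P153.A2
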