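import Vale.Agent.P153.A2.Stm
import Vale.Agent.P153.Wick.Ld1
import Vale.Agent.P153.Wick.Ld2

/-! Lattice edges do not cross; the boundary polygon is a Jordan curve. -/

open Set Filter Topology Metric Complex MeasureTheory
open scoped Real

noncomputable section
namespace Vale.Agent.P153.A2

open Vale.Agent.P164 (Pth HP Zf fi dom)
open Vale.Agent.P153.CA (Cf Full cay icay JLoop inside circ Hyd)
open Vale.Agent.P153.Wick (Fr arcP arcM CS Seq W_bv cc YY Qv cov inv)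

namespace Jl

open Vale.Agent.P153.Wick.Ld2

/-- A point of an edge. -/
def pt (x y : V) (s : ℝ) : ℂ := emb x + (s : ℂ) * (emb y - emb x)

theorem pt_zero (x y : V) : pt x y 0 = emb x := by simp [pt]

theorem pt_one (x y : V) : pt x y 1 = emb y := by simp [pt]

theorem mem_seg {x y : V} {z : ℂ} :
    z ∈ segment ℝ (emb x) (emb y) ↔ ∃ s ∈ Icc (0 : ℝ) 1, pt x y s = z := by
  rw [segment_eq_image']
  simp only [mem_image, pt, real_smul]

theorem emb_inj {x y : V} (h : emb x = emb y) : x = y := by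
  obtain ⟨h1, h2⟩ := coord (x := x) (y := x) (b := y) (b' := y) (s := 0) (t := 0) (by simpa using h)
  ext
  · exact_mod_cast (by linarith : (x.1 : ℝ) = y.1)
  · exact_mod_cast (by linarith : (x.2 : ℝ) = y.2)

theorem pt_inj {x y : V} (h : Adj x y) {s t : ℝ} (e : pt x y s = pt x y t) : s = t := by
  have h0 : emb y - emb x ≠ 0 := sub_ne_zero.2 fun h1 => h.ne (emb_inj h1).symm
  exact_mod_cast mul_right_cancel₀ h0 (add_left_cancel e)

theorem plan : S_plan := by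
  intro x y b b' hxy hb z hz hz'
  obtain ⟨s, hs, rfl⟩ := mem_seg.1 hz
  obtain ⟨t, ht, e⟩ := mem_seg.1 hz'
  obtain ⟨h1, h2⟩ := coord e.symm
  rcases cases01 hs with rfl | rfl | hs'
  · exact Or.inl (pt_zero _ _)
  · exact Or.inr (Or.inl (pt_one _ _))
  rcases cases01 ht with rfl | rfl | ht'
  · rw [← e, pt_zero]
    rcases vert (x := b) hxy hs (by linarith) (by linarith) with h | h <;> simp [h]
  · rw [← e, pt_one]
    rcases vert (x := b') hxy hs (by linarith) (by linarith) with h | h <;> simp [h]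
  have a1 := intA (m := b.1 - x.1) (p := y.1 - x.1) (q := b'.1 - b.1) hs' ht'
    (lip_fst _ _ hxy.symm) (lip_fst _ _ hb.symm) (by push_cast; linarith)
  have a2 := intA (m := b.2 - x.2) (p := y.2 - x.2) (q := b'.2 - b.2) hs' ht'
    (lip_snd _ _ hxy.symm) (lip_snd _ _ hb.symm) (by push_cast; linarith)
  have a3 := intA (m := b.1 + b.2 - (x.1 + x.2)) (p := y.1 + y.2 - (x.1 + x.2))
    (q := b'.1 + b'.2 - (b.1 + b.2)) hs' ht'
    (lip_sum _ _ hxy.symm) (lip_sum _ _ hb.symm) (by push_cast; linarith)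
  right; right
  rw [adj_iff] at hxy hb
  simp only [Prod.ext_iff]
  omega

variable (L : LDom)

theorem nxt {i j : ℕ} (hi : i < L.N) (hj : j < L.N) (h : L.β j = L.β (i + 1)) :
    j = i + 1 ∨ (i + 1 = L.N ∧ j = 0) := by
  rcases (Nat.succ_le_of_lt hi).eq_or_lt with e | e
  · right
    have e' : i + 1 = L.N := e
    rw [e', L.closed] at h
    exact ⟨e', L.inj hj (by omega : 0 < L.N) h⟩
  · exact Or.inl (L.inj hj e h)

theorem idx {i j : ℕ} (hi : i < L.N) (hj : j < L.N) {a b : ℝ} (ha : a ∈ Ico (0 : ℝ) 1)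
    (hb : b ∈ Ico (0 : ℝ) 1) (h : pt (L.β i) (L.β (i + 1)) a = pt (L.β j) (L.β (j + 1)) b) :
    i = j := by
  have m1 := mem_seg.2 ⟨a, Ico_subset_Icc_self ha, (rfl : pt (L.β i) (L.β (i + 1)) a = _)⟩
  have m2 := mem_seg.2 ⟨b, Ico_subset_Icc_self hb, h.symm⟩
  have n1 : pt (L.β i) (L.β (i + 1)) a ≠ emb (L.β (i + 1)) := fun e =>
    ha.2.ne (pt_inj (L.adj i hi) (e.trans (pt_one _ _).symm))
  have n2 : pt (L.β i) (L.β (i + 1)) a ≠ emb (L.β (j + 1)) := fun e =>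
    hb.2.ne (pt_inj (L.adj j hj) (h.symm.trans (e.trans (pt_one _ _).symm)))
  have sw : L.β j = L.β (i + 1) → L.β i = L.β (j + 1) → i = j := fun e1 e2 => by
    have := nxt L hi hj e1
    have := nxt L hj hi e2
    have := L.three
    omega
  rcases plan _ _ _ _ (L.adj i hi) (L.adj j hj) _ m1 m2 with r | r | r | r
  · rcases plan _ _ _ _ (L.adj j hj) (L.adj i hi) _ m2 m1 with r' | r' | r' | r'
    · exact L.inj hi hj (emb_inj (r.symm.trans r'))
    · exact (n2 r').elim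
    · exact L.inj hi hj r'.1
    · exact sw r'.2.symm r'.1
  · exact (n1 r).elim
  · exact L.inj hi hj r.1.symm
  · exact sw r.1 r.2.symm

theorem inj : InjOn L.bd (Ico 0 1) := by
  have hN : (0 : ℝ) < L.N := by have := L.three; exact_mod_cast (by omega : 0 < L.N)
  have fl : ∀ s ∈ Ico (0 : ℝ) 1, ⌊(L.N : ℝ) * s⌋₊ < L.N := fun s hs => by
    rw [Nat.floor_lt (mul_nonneg hN.le hs.1)]
    exact mul_lt_of_lt_one_right hN hs.2
  have fr : ∀ u : ℝ, Int.fract u ∈ Ico (0 : ℝ) 1 := fun u =>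
    ⟨Int.fract_nonneg u, Int.fract_lt_one u⟩
  have de : ∀ s ∈ Ico (0 : ℝ) 1, (⌊(L.N : ℝ) * s⌋₊ : ℝ) + Int.fract ((L.N : ℝ) * s) = L.N * s :=
    fun s hs => by
      rw [natCast_floor_eq_intCast_floor (mul_nonneg hN.le hs.1), Int.floor_add_fract]
  intro s hs t ht e
  have e' : pt (L.β ⌊(L.N : ℝ) * s⌋₊) (L.β (⌊(L.N : ℝ) * s⌋₊ + 1)) (Int.fract ((L.N : ℝ) * s)) =
      pt (L.β ⌊(L.N : ℝ) * t⌋₊) (L.β (⌊(L.N : ℝ) * t⌋₊ + 1)) (Int.fract ((L.N : ℝ) * t)) := e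
  have h1 := idx L (fl s hs) (fl t ht) (fr _) (fr _) e'
  rw [h1] at e'
  have h2 := pt_inj (L.adj _ (fl t ht)) e'
  refine mul_left_cancel₀ hN.ne' ?_
  rw [← de s hs, ← de t ht, h1, h2]

theorem ends : L.bd 0 = L.bd 1 := by simp [LDom.bd, poly, L.closed]

theorem half {x y : V} (hx : x ∈ Fr L) (hxy : Adj x y) {s : ℝ} (hs : s ∈ Ico (0 : ℝ) 1) :
    pt x y s ∉ L.bd '' Icc 0 1 := by
  intro hc
  obtain ⟨i, hi, t, ht, e⟩ := curve L hc
  rcases plan _ _ _ _ hxy (L.adj i hi) _ (mem_seg.2 ⟨s, Ico_subset_Icc_self hs, rfl⟩)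
    (mem_seg.2 ⟨t, ht, e.symm⟩) with r | r | r | r
  · exact hx.1 (r ▸ hc)
  · exact hs.2.ne (pt_inj hxy (r.trans (pt_one _ _).symm))
  · exact notFr L Wick.s_ld1 (r.1 ▸ succ_mem L hi.le) hx
  · exact notFr L Wick.s_ld1 (r.2 ▸ succ_mem L (i := i + 1) hi) hx

end Jl

theorem s_plan : S_plan := Jl.plan

theorem s_jl (hp : S_poly) : S_jl := by
  intro L
  have _ := hp
  have hN : (0 : ℝ) < L.N := by have := L.three; exact_mod_cast (by omega : 0 < L.N)
  have fr : ∀ u : ℝ, Int.fract u ∈ Ico (0 : ℝ) 1 := fun u =>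
    ⟨Int.fract_nonneg u, Int.fract_lt_one u⟩
  refine ⟨⟨⟨(Wick.s_ld1 L).1.comp_fract'' (Jl.ends L), fun t => by simp only [Int.fract_add_one]⟩,
    fun s hs t ht e => ?_⟩, ?_, fun i _ => ?_, fun x hx y hxy z hz hy => ?_⟩
  · simp only [Int.fract_eq_self.2 hs, Int.fract_eq_self.2 ht] at e
    exact Jl.inj L hs ht e
  · refine subset_antisymm ?_ ?_
    · rintro _ ⟨t, rfl⟩
      exact ⟨_, Ico_subset_Icc_self (fr t), rfl⟩
    · rintro _ ⟨t, ht, rfl⟩
      rcases ht.2.eq_or_lt with rfl | h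
      · exact ⟨0, by simp only [Int.fract_zero]; exact Jl.ends L⟩
      · exact ⟨t, by simp only [Int.fract_eq_self.2 ⟨ht.1, h⟩]⟩
  · have e : L.bd = fun t => Wick.Ld1.pl (fun i => emb (L.β i)) (L.N * t) := rfl
    rw [e]
    simp only
    rw [mul_div_cancel₀ _ hN.ne', Wick.Ld1.pl_eq _ i ⟨by linarith, by linarith⟩]
    push_cast
    ring
  · obtain ⟨s, hs, rfl⟩ := Jl.mem_seg.1 hz
    have hs' : s ∈ Ico (0 : ℝ) 1 :=
      ⟨hs.1, lt_of_le_of_ne hs.2 fun e => hy (by rw [e, Jl.pt_one])⟩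
    have hc : Jl.pt x y s ∈ connectedComponentIn (L.bd '' Icc 0 1)ᶜ (emb x) :=
      (isPreconnected_Ico.image (Jl.pt x y) (by unfold Jl.pt; fun_prop)).subset_connectedComponentIn
        ⟨0, ⟨le_rfl, zero_lt_one⟩, Jl.pt_zero x y⟩
        (by rintro _ ⟨r, hr, rfl⟩; exact Jl.half L hx hxy hr) ⟨s, hs', rfl⟩
    refine ⟨Jl.half L hx hxy hs', ?_⟩
    rw [← connectedComponentIn_eq hc]
    exact hx.2

end Vale.Agent.P153.A2
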