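import Vale.Agent.P153.A2.Stm

/-! Jordan maps with two marked points. -/

open Set Filter Topology Metric Complex MeasureTheory
open scoped Real

noncomputable section
namespace Vale.Agent.P153.A2

open Vale.Agent.P153.CA (Cf Full cay icay JLoop inside circ Hyd)

namespace Jmap

/-- The automorphisms of the disc that fix `1`. -/
def T (x : ℝ) (z : ℂ) : ℂ := (2 * I * z + x * (1 - z)) / (2 * I + x * (1 - z))

variable {x : ℝ} {z : ℂ}

theorem den (hx : |x| ≤ 1) (hz : ‖z‖ ≤ 1) : 1 ≤ ‖2 * I + x * (1 - z)‖ := by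
  refine le_trans ?_ ((le_abs_self _).trans (abs_im_le_norm _))
  have h1 : |x * z.im| ≤ 1 := by
    rw [abs_mul]
    exact mul_le_one₀ hx (abs_nonneg _) ((abs_im_le_norm z).trans hz)
  simp
  linarith [(abs_le.1 h1).2]

theorem ne (hx : |x| ≤ 1) (hz : ‖z‖ ≤ 1) : 2 * I + x * (1 - z) ≠ 0 :=
  norm_pos_iff.1 (one_pos.trans_le (den hx hz))

theorem nrm (hx : |x| ≤ 1) (hz : ‖z‖ ≤ 1) :
    (1 - ‖T x z‖ ^ 2) * ‖2 * I + x * (1 - z)‖ ^ 2 = 4 * (1 - ‖z‖ ^ 2) := by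
  have := norm_pos_iff.2 (ne hx hz)
  rw [T, norm_div, sub_mul, div_pow, div_mul_cancel₀ _ (by positivity)]
  simp only [Complex.sq_norm, Complex.normSq_apply]
  simp
  ring

theorem lt (hx : |x| ≤ 1) (hz : ‖z‖ < 1) : ‖T x z‖ < 1 := by
  have h1 := nrm hx hz.le
  have h2 : 0 < 4 * (1 - ‖z‖ ^ 2) := by nlinarith [norm_nonneg z]
  have h3 := (pos_iff_pos_of_mul_pos (h1 ▸ h2)).2 (pow_pos (norm_pos_iff.2 (ne hx hz.le)) 2)
  nlinarith [norm_nonneg (T x z)]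

theorem eq (hx : |x| ≤ 1) (hz : ‖z‖ = 1) : ‖T x z‖ = 1 := by
  have h1 := nrm hx hz.le
  rw [hz, one_pow, sub_self, mul_zero, mul_eq_zero] at h1
  have h2 := h1.resolve_right (pow_pos (norm_pos_iff.2 (ne hx hz.le)) 2).ne'
  exact (pow_eq_one_iff_of_nonneg (norm_nonneg _) two_ne_zero).1 (by linarith)

theorem le (hx : |x| ≤ 1) (hz : ‖z‖ ≤ 1) : ‖T x z‖ ≤ 1 :=
  hz.eq_or_lt.elim (fun h => (eq hx h).le) fun h => (lt hx h).le

theorem inv (hx : |x| ≤ 1) (hz : ‖z‖ ≤ 1) : T (-x) (T x z) = z := by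
  have h1 := ne hx hz
  have h2 := ne (x := -x) (by rwa [abs_neg]) (le hx hz)
  rw [T, div_eq_iff h2, T]
  push_cast
  field_simp
  ring

theorem near (hx : |x| ≤ 1) (hz : ‖z‖ ≤ 1) : ‖T x z - z‖ ≤ 4 * |x| := by
  have h1 := ne hx hz
  have h2 : T x z - z = x * (1 - z) ^ 2 / (2 * I + x * (1 - z)) := by
    rw [T]; field_simp; ring
  have h3 : ‖1 - z‖ ≤ 2 := (norm_sub_le _ _).trans (by rw [norm_one]; linarith)
  rw [h2, norm_div, norm_mul, norm_pow, Complex.norm_real, Real.norm_eq_abs]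
  refine (div_le_self (by positivity) (den hx hz)).trans ?_
  nlinarith [abs_nonneg x, mul_le_mul_of_nonneg_left (pow_le_pow_left₀ (norm_nonneg _) h3 2)
    (abs_nonneg x)]

theorem diff (hx : |x| ≤ 1) : DifferentiableOn ℂ (T x) (closedBall 0 1) :=
  DifferentiableOn.div (by fun_prop) (by fun_prop) fun _ hz => ne hx (mem_closedBall_zero_iff.1 hz)

end Jmap

open Jmap in
theorem s_jmap (hy : S_cay) (hc : Wick.S_conf) (hw : CA.S_wind) (ha : CA.S_car) (hr : CA.S_rado) :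
    S_jmap := by
  intro ψ hψ e he
  have hu := (hc ψ hψ).2.2.2.2.2.1
  obtain ⟨d₁, hd₁, u1⟩ := hu (e / 2) (by positivity)
  obtain ⟨d₂, hd₂, u2⟩ := hu (min 1 (d₁ / 4)) (by positivity)
  obtain ⟨ρ₁, h1, r1⟩ := hr ψ hψ (min (e / 2) (d₂ / 2)) (by positivity)
  obtain ⟨ρ₂, h2, r2⟩ := hw ψ {ψ 0} hψ isCompact_singleton
    (singleton_subset_iff.2 ⟨0, by simp, rfl⟩)
  refine ⟨min (min ρ₁ ρ₂) (d₂ / 2), by positivity, fun j a b hj c1 c2 ⟨t, ht⟩ c3 c4 => ?_⟩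
  simp only [le_min_iff] at c1 c3 c4
  obtain ⟨Φ, p1, p2, p3, p4, p5⟩ := ha j (ψ 0) t hj (r2 j hj.toLoop (fun t => (c1 t).1.2) rfl)
  have p6 := r1 j Φ hj (fun t => (c1 t).1.1) p1 p2 p3 p4 (by rw [p5, ht]; exact c4.1.1)
  simp only [le_min_iff] at p6
  obtain ⟨ζ, z1, z2⟩ := p3.ge c2
  have z3 := (u2 ζ (sphere_subset_closedBall z1) (-1) (by simp)).2 (by
    have := norm_sub_le_norm_sub_add_norm_sub (ψ ζ) (Φ ζ) (ψ (-1))
    rw [norm_sub_rev (ψ ζ) (Φ ζ)] at this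
    rw [← z2] at c3
    rw [dist_eq_norm]
    linarith [(p6 ζ (sphere_subset_closedBall z1)).2, c3.2])
  rw [dist_eq_norm, le_min_iff] at z3
  have z4 : 1 ≤ ‖1 - ζ‖ := by
    have := norm_sub_le_norm_sub_add_norm_sub 1 ζ (-1)
    rw [show ‖(1 : ℂ) - -1‖ = 2 by norm_num] at this
    linarith [z3.1]
  have z5 : ζ ≠ 1 := fun h => by simp [h, not_le.2 one_pos] at z4
  have z6 : ((icay ζ).re : ℂ) = icay ζ := (Complex.ext rfl (by
    rw [hy.2.2.2.2.2.2.2.2.2 ζ z5, mem_sphere_zero_iff_norm.1 z1]; simp))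
  have z7 : |(icay ζ).re| ≤ ‖ζ - -1‖ := (abs_re_le_norm _).trans (by
    rw [icay, norm_div, norm_mul, norm_I, one_mul, sub_neg_eq_add, add_comm]
    exact div_le_self (norm_nonneg _) z4)
  set x := (icay ζ).re
  have hx : |x| ≤ 1 := z7.trans z3.1
  have hx' : |-x| ≤ 1 := by rwa [abs_neg]
  have m1 : MapsTo (T x) (closedBall 0 1) (closedBall 0 1) := fun z hz =>
    mem_closedBall_zero_iff.2 (Jmap.le hx (mem_closedBall_zero_iff.1 hz))
  have m2 : T x '' ball 0 1 = ball 0 1 := Subset.antisymm (image_subset_iff.2 fun z hz =>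
    mem_ball_zero_iff.2 (lt hx (mem_ball_zero_iff.1 hz))) fun z hz =>
      ⟨_, mem_ball_zero_iff.2 (lt hx' (mem_ball_zero_iff.1 hz)), by
        simpa using inv hx' (mem_ball_zero_iff.1 hz).le⟩
  have m3 : T x '' sphere 0 1 = sphere 0 1 := Subset.antisymm (image_subset_iff.2 fun z hz =>
    mem_sphere_zero_iff_norm.2 (eq hx (mem_sphere_zero_iff_norm.1 hz))) fun z hz =>
      ⟨_, mem_sphere_zero_iff_norm.2 (eq hx' (mem_sphere_zero_iff_norm.1 hz)), by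
        simpa using inv hx' (mem_sphere_zero_iff_norm.1 hz).le⟩
  refine ⟨Φ ∘ T x, ⟨p1.1.comp (diff hx).continuousOn m1, p1.2.1.comp (LeftInvOn.injOn fun z hz =>
    inv hx (mem_closedBall_zero_iff.1 hz)) m1, p1.2.2.comp ((diff hx).mono ball_subset_closedBall)
      (mapsTo_iff_image_subset.2 m2.le)⟩, by rw [image_comp, m2, p2], by rw [image_comp, m3, p3],
    ?_, ?_, fun z hz => ?_⟩
  · have : T x (-1) = cay x := by
      rw [T, cay, ← mul_div_mul_left _ (x + I) two_ne_zero]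
      congr 1 <;> ring
    rw [Function.comp, this, z6, hy.2.2.2.2.1 ζ z5, z2]
  · rw [Function.comp, show T x 1 = 1 by simp [T], p5, ht]
  · have h3 := (u1 _ (m1 hz) z hz).1 (by
      rw [dist_eq_norm]
      linarith [near hx (mem_closedBall_zero_iff.1 hz), z3.2])
    rw [dist_eq_norm] at h3
    linarith [norm_sub_le_norm_sub_add_norm_sub ((Φ ∘ T x) z) (ψ (T x z)) (ψ z),
      show ‖(Φ ∘ T x) z - ψ (T x z)‖ ≤ e / 2 from (p6 _ (m1 hz)).1]

end Vale.Agent.P153.A2
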