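import Vale.Agent.P153.A2.Stm
import Vale.Agent.P153.CA.Inv
import Vale.Agent.P071.Riemann

/-! The kernel theorem for a sequence of conformal maps of the disc. -/

open Set Filter Topology Metric

namespace Vale.Agent.P153.A2

open CA (Cf)
open P071.Riemann

namespace Ker

variable {Ω : ℕ → Set ℂ} {f φ : ℕ → ℂ → ℂ} {F : ℂ → ℂ}

theorem unif (hl : TendstoLocallyUniformlyOn f F atTop (ball 0 1)) {K : Set ℂ} (hK : IsCompact K)
    (h : K ⊆ ball 0 1) {e : ℝ} (he : 0 < e) : ∀ᶠ j in atTop, ∀ z ∈ K, ‖F z - f j z‖ < e := by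
  simpa only [dist_eq_norm] using Metric.tendstoUniformlyOn_iff.1
    ((tendstoLocallyUniformlyOn_iff_forall_isCompact isOpen_ball).1 hl K h hK) e he

theorem mem (h : ∀ j, Cf (ball 0 1) (Ω j) (f j) (φ j))
    (hl : TendstoLocallyUniformlyOn f F atTop (ball 0 1)) {z : ℂ} {ρ : ℝ} (hρ : ρ < 1)
    (hz : ∃ᶠ j in atTop, z ∈ Ω j ∧ ‖φ j z‖ ≤ ρ) : z ∈ F '' ball 0 1 := by
  have hs : closedBall (0 : ℂ) ρ ⊆ ball 0 1 := closedBall_subset_ball hρ
  have hc := (hl.differentiableOn (.of_forall fun j => (h j).hf) isOpen_ball).continuousOn.mono hs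
  refine image_mono hs (((isCompact_closedBall 0 ρ).image_of_continuousOn hc).isClosed.closure_subset
    (Metric.mem_closure_iff.2 fun e he => ?_))
  obtain ⟨j, ⟨a1, a2⟩, a3⟩ := (hz.and_eventually (unif hl (isCompact_closedBall 0 ρ) hs he)).exists
  have a4 : φ j z ∈ closedBall (0 : ℂ) ρ := mem_closedBall_zero_iff.2 a2
  refine ⟨_, mem_image_of_mem F a4, ?_⟩
  have := a3 _ a4
  rwa [(h j).fg z a1, ← dist_eq_norm, dist_comm] at this

theorem inj (h : ∀ j, Cf (ball 0 1) (Ω j) (f j) (φ j))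
    (hl : TendstoLocallyUniformlyOn f F atTop (ball 0 1))
    (hn : ∃ a ∈ ball (0 : ℂ) 1, ∃ b ∈ ball (0 : ℂ) 1, F a ≠ F b) : InjOn F (ball 0 1) := by
  intro a ha b hb e
  by_contra hab
  have hd := hl.differentiableOn (.of_forall fun j => (h j).hf) isOpen_ball
  have hU : IsOpen (ball (0 : ℂ) 1 \ {a}) := isOpen_ball.sdiff isClosed_singleton
  have h1 : TendstoLocallyUniformlyOn (fun j z => f j z - f j a) (fun z => F z - F a) atTop
      (ball 0 1 \ {a}) :=
    (hl.mono sdiff_subset).sub ((hl.tendsto_at ha).tendstoUniformlyOn_const _).tendstoLocallyUniformlyOn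
  have h2 := hurwitz hU h1 (fun j => ((h j).hf.mono sdiff_subset).sub_const _)
    (fun j z hz e => hz.2 ((h j).inj hz.1 ha (sub_eq_zero.1 e))) (b := b) ⟨hb, Ne.symm hab⟩
    (by rw [e, sub_self])
  have h3 := ((hd.sub_const (F a)).analyticOnNhd isOpen_ball).eqOn_zero_of_preconnected_of_eventuallyEq_zero
    (convex_ball 0 1).isPreconnected hb h2
  obtain ⟨x, hx, y, hy, hxy⟩ := hn
  exact hxy ((sub_eq_zero.1 (h3 hx)).trans (sub_eq_zero.1 (h3 hy)).symm)

theorem inner (h : ∀ j, Cf (ball 0 1) (Ω j) (f j) (φ j))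
    (hl : TendstoLocallyUniformlyOn f F atTop (ball 0 1)) (hi : InjOn F (ball 0 1)) {w : ℂ} {s : ℝ}
    (hs : 0 < s) (hw : closedBall w s ⊆ ball 0 1) : ∃ r : ℝ, 0 < r ∧ ∀ᶠ j in atTop,
      ∀ y ∈ ball (F w) r, y ∈ Ω j ∧ φ j y ∈ closedBall w s := by
  have hc := (hl.differentiableOn (.of_forall fun j => (h j).hf) isOpen_ball).continuousOn
  have w0 := hw (mem_closedBall_self hs.le)
  obtain ⟨m, hm, h1⟩ := (isCompact_sphere w s).exists_forall_le'
    (f := fun z => ‖F z - F w‖) (a := 0)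
    ((hc.mono (sphere_subset_closedBall.trans hw)).sub continuousOn_const).norm fun z hz =>
      norm_pos_iff.2 (sub_ne_zero.2 fun e => by
        have := hi (hw (sphere_subset_closedBall hz)) w0 e
        rw [this, mem_sphere, dist_self] at hz
        exact hs.ne hz)
  refine ⟨m / 8, by positivity, ?_⟩
  filter_upwards [unif hl (isCompact_closedBall w s) hw (show 0 < m / 8 by positivity)]
    with j hj y hy
  have a0 := hj w (mem_closedBall_self hs.le)
  have a1 := DiffContOnCl.ball_subset_image_closedBall (f := f j) (z₀ := w) (r := s) (ε := m / 2)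
    (((h j).hf.mono (closure_ball_subset_closedBall.trans hw)).diffContOnCl) hs (fun z hz => by
      have b1 := h1 z hz
      have b2 := hj z (sphere_subset_closedBall hz)
      have b3 := norm_add₃_le (a := F z - f j z) (b := f j z - f j w) (c := f j w - F w)
      rw [sub_add_sub_cancel, sub_add_sub_cancel, norm_sub_rev (f j w)] at b3
      linarith)
    (((eventually_nhdsWithin_of_eventually_nhds (isOpen_ball.mem_nhds w0)).and
      (self_mem_nhdsWithin (s := {w}ᶜ))).mono (fun z hz e => hz.2 ((h j).inj hz.1 w0 e))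
      |>.frequently.filter_mono nhdsWithin_le_nhds)
  obtain ⟨z, hz, rfl⟩ := a1 (show y ∈ ball (f j w) (m / 2 / 2) by
    have b1 := dist_triangle y (F w) (f j w)
    rw [dist_eq_norm (F w)] at b1
    rw [mem_ball] at hy ⊢
    linarith)
  exact ⟨(h j).mf (hw hz), by rwa [(h j).gf z (hw hz)]⟩

theorem pk {Ω : Set ℂ} {φ : ℂ → ℂ} (hd : DifferentiableOn ℂ φ Ω) (hm : MapsTo φ Ω (ball 0 1))
    {x z : ℂ} {r ρ : ℝ} (hr : 0 < r) (hx : ball x (3 * r) ⊆ Ω) (hz : dist z x ≤ r)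
    (hρ : ‖φ x‖ ≤ ρ) (h1 : ρ < 1) : ‖φ z‖ ^ 2 ≤ 1 - (1 - ρ) ^ 2 / 2 := by
  have n : ∀ y ∈ ball x (3 * r), ‖φ y‖ < 1 := fun y hy => mem_ball_zero_iff.1 (hm (hx hy))
  have x0 := n x (mem_ball_self (by positivity))
  have z0 : z ∈ ball x (3 * r) := mem_ball.2 (by linarith)
  have e0 : mob (φ x) (φ x) = 0 := by simp [mob]
  have a1 := Complex.dist_le_div_mul_dist_of_mapsTo_ball (f := fun y => mob (φ x) (φ y)) (R₂ := 1)
    (fun y hy => (mob_deriv x0 (n y hy)).differentiableAt.comp_differentiableWithinAt y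
      (hd.mono hx y hy))
    (fun y hy => by rw [e0]; exact mem_closedBall_zero_iff.2 (mob_norm x0 (n y hy)).le) z0
  have a2 : 1 / (3 * r) * dist z x ≤ 1 / 3 :=
    (mul_le_mul_of_nonneg_left hz (by positivity)).trans_eq (by field_simp)
  have hd := norm_pos_iff.2 (den_ne x0 (n z z0))
  simp only [e0, dist_zero_right] at a1
  have a3 := a1.trans a2
  rw [mob, norm_div, div_le_iff₀ hd] at a3
  have b1 := n z z0
  generalize φ z = b at *
  generalize φ x = a at *
  have a4 : ‖1 - (starRingEnd ℂ) a * b‖ ^ 2 - ‖b - a‖ ^ 2 = (1 - ‖a‖ ^ 2) * (1 - ‖b‖ ^ 2) := by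
    simp only [Complex.sq_norm, Complex.normSq_apply, Complex.sub_re, Complex.sub_im,
      Complex.mul_re, Complex.mul_im, Complex.conj_re, Complex.conj_im, Complex.one_re,
      Complex.one_im]
    ring
  have a5 : 1 - ρ ≤ ‖1 - (starRingEnd ℂ) a * b‖ := by
    have c1 := norm_sub_norm_le (1 : ℂ) ((starRingEnd ℂ) a * b)
    rw [norm_one, norm_mul, Complex.norm_conj] at c1
    nlinarith [norm_nonneg a, norm_nonneg b]
  have a6 := pow_le_pow_left₀ (norm_nonneg _) a3 2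
  have a7 := pow_le_pow_left₀ (by linarith) a5 2
  have a8 : 0 ≤ ‖a‖ ^ 2 * (1 - ‖b‖ ^ 2) :=
    mul_nonneg (sq_nonneg _) (by nlinarith [norm_nonneg b])
  nlinarith

theorem loc {D : Set ℂ} {Φ : ℂ → ℂ} (h : Kc D F Φ Ω f φ) : ∀ x ∈ D, ∀ e : ℝ, 0 < e →
    ∃ r : ℝ, 0 < r ∧ ∀ᶠ j in atTop, ∀ y ∈ ball x r, y ∈ Ω j ∧ dist (φ j y) (Φ x) ≤ e := by
  rw [← h.cf.image]
  rintro _ ⟨w, hw, rfl⟩ e he
  obtain ⟨s, hs, hs'⟩ := nhds_basis_closedBall.mem_iff.1 (isOpen_ball.mem_nhds hw)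
  obtain ⟨r, hr, h1⟩ := inner h.cfk h.lim h.cf.inj (lt_min hs he)
    ((closedBall_subset_closedBall (min_le_left _ _)).trans hs')
  refine ⟨r, hr, h1.mono fun j hj y hy => ⟨(hj y hy).1, ?_⟩⟩
  rw [h.cf.gf w hw]
  exact (mem_closedBall.1 (hj y hy).2).trans (min_le_right _ _)

theorem lim {D : Set ℂ} {Φ : ℂ → ℂ} (h : Kc D F Φ Ω f φ) :
    TendstoLocallyUniformlyOn φ Φ atTop D := by
  refine Metric.tendstoLocallyUniformlyOn_iff.2 fun e he x hx => ?_
  obtain ⟨r, hr, h1⟩ := loc h x hx (e / 2) (by positivity)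
  refine ⟨_, inter_mem (mem_nhdsWithin_of_mem_nhds (ball_mem_nhds x hr))
    (Metric.tendsto_nhds.1 (h.cf.hg.continuousOn x hx) (e / 2) (by positivity)),
    h1.mono fun j hj y hy => ?_⟩
  have a1 := (hj y hy.1).2
  have a2 : dist _ _ < _ := hy.2
  linarith [dist_triangle_right (Φ y) (φ j y) (Φ x)]

end Ker

open Ker

theorem s_ker1 : S_ker1 := by
  intro D ψ φ Ω f g h K hK hKD
  refine ⟨?_, (tendstoLocallyUniformlyOn_iff_forall_isCompact h.cf.oV).1 (lim h) K hKD hK⟩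
  refine hK.induction_on (p := fun A => ∀ᶠ j in atTop, A ⊆ Ω j) (by simp)
    (fun s t hst ht => ht.mono fun j hj => hst.trans hj)
    (fun s t hs ht => (hs.and ht).mono fun j hj => union_subset hj.1 hj.2) fun x hx => ?_
  obtain ⟨r, hr, h1⟩ := loc h x (hKD hx) 1 one_pos
  exact ⟨_, mem_nhdsWithin_of_mem_nhds (ball_mem_nhds x hr), h1.mono fun j hj y hy => (hj y hy).1⟩

theorem s_ker2 : S_ker2 := by
  intro D ψ φ Ω f g h z hz e he
  by_contra hc
  rw [not_eventually] at hc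
  simp only [not_not] at hc
  obtain ⟨x, hx, hxz⟩ := Metric.mem_closure_iff.1 hz.1 (e / 4) (by positivity)
  obtain ⟨ρ, a1, a2⟩ := exists_between (mem_ball_zero_iff.1 (h.cf.mg hx))
  refine hz.2 (h.cf.oV.interior_eq.symm ▸ h.cf.image ▸ mem h.cfk h.lim
    (ρ := √(1 - (1 - ρ) ^ 2 / 2))
    ((Real.sqrt_lt' one_pos).2 (by nlinarith [pow_pos (sub_pos.2 a2) 2]))
    ((hc.and_eventually (((lim h).tendsto_at hx).norm.eventually_le_const a1)).mono fun j hj =>
      ⟨hj.1 (mem_ball_self he), Real.le_sqrt_of_sq_le (pk (h.cfk j).hg (h.cfk j).mg (x := x)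
        (r := e / 4) (by positivity) ((ball_subset_ball' ?_).trans hj.1) hxz.le hj.2 a2)⟩))
  rw [dist_comm]
  linarith

theorem s_ker3 : S_ker3 := by
  intro D ψ φ Ω f g h K a a₀ r hr ha hg
  have hs : closedBall (0 : ℂ) r ⊆ ball 0 1 := closedBall_subset_ball hr
  have hC := (isCompact_closedBall 0 r).image_of_continuousOn (h.cf.hf.continuousOn.mono hs)
  have hCD : ψ '' closedBall 0 r ⊆ D := h.cf.image ▸ image_mono hs
  have k1 : ∀ e : ℝ, 0 < e → ∀ᶠ k in atTop, ∀ w ∈ K, g k (a k w) ∈ closedBall (0 : ℂ) r ∧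
      dist (a₀ w) (ψ (g k (a k w))) < e := fun e he => by
    filter_upwards [hg, Metric.tendstoUniformlyOn_iff.1 ha _ (half_pos he),
      unif h.lim (isCompact_closedBall 0 r) hs (half_pos he)] with k b1 b2 b3 w hw
    have b4 := mem_closedBall_zero_iff.2 (b1 w hw).2
    have b5 := b3 _ b4
    rw [(h.cfk k).fg _ (b1 w hw).1, ← dist_eq_norm] at b5
    exact ⟨b4, by linarith [dist_triangle_right (a₀ w) (ψ (g k (a k w))) (a k w), b2 w hw]⟩
  have k2 : ∀ w ∈ K, a₀ w ∈ ψ '' closedBall 0 r := fun w hw =>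
    hC.isClosed.closure_subset (Metric.mem_closure_iff.2 fun e he =>
      let ⟨_, hk⟩ := (k1 e he).exists
      ⟨_, mem_image_of_mem ψ (hk w hw).1, (hk w hw).2⟩)
  refine ⟨fun w hw => hCD (k2 w hw), Metric.tendstoUniformlyOn_iff.2 fun e he => ?_⟩
  obtain ⟨d, hd, hu⟩ := Metric.uniformContinuousOn_iff.1
    (hC.uniformContinuousOn_of_continuous (h.cf.hg.continuousOn.mono hCD)) e he
  filter_upwards [k1 d hd] with k hk w hw
  have := hu _ (k2 w hw) _ (mem_image_of_mem ψ (hk w hw).1) (hk w hw).2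
  rwa [h.cf.gf _ (hs (hk w hw).1)] at this

theorem s_mon : S_mon := by
  intro Ω f g R c p q h hR hc hp hq hpq
  have R0 : 0 < R := pos_of_mem_ball (hR 0 ((h 0).mf hp))
  have Rc : (R : ℂ) ≠ 0 := Complex.ofReal_ne_zero.2 R0.ne'
  have nR : ‖(R : ℂ)‖ = R := by rw [Complex.norm_real, Real.norm_of_nonneg R0.le]
  obtain ⟨G, hG⟩ := montel (Ultrafilter.of atTop) (F := fun j z => f j z / R) isOpen_ball
    (fun j => (h j).hf.div_const _) fun j z hz => mem_ball_zero_iff.2 (by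
      rw [norm_div, nR, div_lt_one R0]
      exact mem_ball_zero_iff.1 (hR j ((h j).mf hz)))
  obtain ⟨m, hm, hm'⟩ := extraction_forall_of_frequently
    (P := fun k j => ∀ z ∈ closedBall (0 : ℂ) (1 - 1 / (k + 1)),
      dist (G z) (f j z / R) < 1 / (k + 1)) fun k =>
    (Metric.tendstoUniformlyOn_iff.1 ((tendstoLocallyUniformlyOn_iff_forall_isCompact
      isOpen_ball).1 hG _ (closedBall_subset_ball (sub_lt_self _ (by positivity)))
      (isCompact_closedBall _ _)) _ (by positivity)).frequently.filter_mono (Ultrafilter.of_le _)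
  have hl : TendstoLocallyUniformlyOn (fun k => f (m k)) (fun z => R * G z) atTop (ball 0 1) := by
    refine Metric.tendstoLocallyUniformlyOn_iff.2 fun e he x hx => ?_
    obtain ⟨s, a1, a2⟩ := exists_between (mem_ball_zero_iff.1 hx)
    refine ⟨ball 0 s, mem_nhdsWithin_of_mem_nhds (isOpen_ball.mem_nhds (mem_ball_zero_iff.2 a1)), ?_⟩
    filter_upwards [tendsto_one_div_add_atTop_nhds_zero_nat.eventually_lt_const
      (lt_min (sub_pos.2 a2) (div_pos he R0))] with k hk y hy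
    rw [lt_min_iff] at hk
    have a3 := (hm' k y (ball_subset_closedBall (ball_subset_ball (by linarith [hk.1]) hy))).trans
      hk.2
    rw [lt_div_iff₀' R0, dist_eq_norm] at a3
    rwa [dist_eq_norm, ← mul_div_cancel₀ (f (m k) y) Rc, ← mul_sub, norm_mul, nR]
  have hi := inj (fun k => h (m k)) hl ⟨p, hp, q, hq, fun e => by
    have := ge_of_tendsto' ((hl.tendsto_at hp).sub (hl.tendsto_at hq)).norm fun k => hpq (m k)
    rw [e, sub_self, norm_zero] at this
    linarith⟩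
  refine ⟨m, _, _, _, hm, CA.s_inv _ _ isOpen_ball
    (hl.differentiableOn (.of_forall fun k => (h (m k)).hf) isOpen_ball) hi, ?_, hl⟩
  rintro _ ⟨w, hw, rfl⟩
  exact isClosed_closedBall.mem_of_tendsto (hl.tendsto_at hw)
    (.of_forall fun j => ball_subset_closedBall (hR _ ((h _).mf hw)))

end Vale.Agent.P153.A2
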