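import Vale.Agent.P153.A2.Stm
import Vale.Agent.P153.CA.Inv
import Vale.Agent.P153.SLE.Fnd

/-! Convergence of the variance observable. -/

open Set Filter Topology Metric Complex MeasureTheory
open scoped Real

noncomputable section
namespace Vale.Agent.P153.A2

open Vale.Agent.P164 (Pth HP Zf fi dom)
open Vale.Agent.P153.CA (Cf cay icay)
open Vale.Agent.P153.Wick (Qv inv)
open Vale.Agent.P153.Drive (obsQ co1)
open Vale.Agent.P071 (Test g0)

namespace Lim2

theorem off : ∀ᵐ p : ℂ × ℂ, p.1 ≠ p.2 := by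
  refine (Measure.ae_prod_iff_ae_ae (measurableSet_eq_fun measurable_fst measurable_snd).compl).2
    (Eventually.of_forall fun x => ?_)
  filter_upwards [Measure.ae_ne volume x] with y hy using hy.symm

theorem g0_cont {a b : ℂ} (ha : a ∈ ball (0 : ℂ) 1) (hb : b ∈ ball (0 : ℂ) 1) (h : a ≠ b) :
    ContinuousAt (fun p : ℂ × ℂ => g0 p.1 p.2) (a, b) := by
  have h1 : ‖a - b‖ ≠ 0 := norm_ne_zero_iff.2 (sub_ne_zero.2 h)
  have h2 : ‖1 - a * (starRingEnd ℂ) b‖ ≠ 0 := by
    refine norm_ne_zero_iff.2 (sub_ne_zero.2 fun e => ?_)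
    have h3 := congrArg norm e
    rw [norm_one, norm_mul, norm_conj] at h3
    have := mul_lt_one_of_nonneg_of_lt_one_left (norm_nonneg a) (mem_ball_zero_iff.1 ha)
      (mem_ball_zero_iff.1 hb).le
    linarith
  unfold g0
  exact continuousAt_const.mul (ContinuousAt.log (ContinuousAt.div (by fun_prop) (by fun_prop) h1)
    (div_ne_zero h2 h1))

theorem whole {D : Set ℂ} {g : ℂ → ℝ} (hg : tsupport g ⊆ D) (A : ℂ × ℂ → ℝ) :
    ∀ p : ℂ × ℂ, p ∉ D ×ˢ D → g p.1 * A p * g p.2 = 0 := fun p hp => by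
  by_contra h
  exact hp ⟨hg (subset_tsupport g (left_ne_zero_of_mul (left_ne_zero_of_mul h))),
    hg (subset_tsupport g (right_ne_zero_of_mul h))⟩

theorem sqr {a : ℝ × ℂ → ℝ} {g : ℂ → ℝ} {t : ℝ} (ht : 0 ≤ t) (ha : Measurable a)
    (hg : Integrable g) (hb : ∀ u ∈ Icc 0 t, ∀ z, |a (u, z)| ≤ |g z|) :
    Integrable (fun p : ℂ × ℂ => ∫ u in (0 : ℝ)..t, a (u, p.1) * a (u, p.2)) ∧
    (∀ p : ℂ × ℂ, |∫ u in (0 : ℝ)..t, a (u, p.1) * a (u, p.2)| ≤ |g p.1| * |g p.2| * t) ∧
    ∫ u in (0 : ℝ)..t, (∫ z, a (u, z)) ^ 2 =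
      ∫ p : ℂ × ℂ, ∫ u in (0 : ℝ)..t, a (u, p.1) * a (u, p.2) := by
  have hm : ∀ u ∈ Icc 0 t, ∀ p : ℂ × ℂ, ‖a (u, p.1) * a (u, p.2)‖ ≤ |g p.1| * |g p.2| :=
    fun u hu p => by
      rw [Real.norm_eq_abs, abs_mul]
      exact mul_le_mul (hb u hu _) (hb u hu _) (abs_nonneg _) (abs_nonneg _)
  have hi : Integrable (Function.uncurry fun (u : ℝ) (p : ℂ × ℂ) => a (u, p.1) * a (u, p.2))
      ((volume.restrict (Ioc 0 t)).prod volume) := by
    have h1 : Integrable (fun q : ℝ × ℂ × ℂ => (1 : ℝ) * (|g q.2.1| * |g q.2.2|))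
        ((volume.restrict (Ioc 0 t)).prod volume) :=
      (integrable_const (1 : ℝ)).mul_prod (hg.abs.mul_prod hg.abs)
    refine h1.mono' (Measurable.aestronglyMeasurable (by
      unfold Function.uncurry
      fun_prop)) ?_
    have h2 : ∀ᵐ q ∂((volume.restrict (Ioc 0 t)).prod (volume : Measure (ℂ × ℂ))),
        q.1 ∈ Ioc 0 t :=
      Measure.quasiMeasurePreserving_fst.ae (ae_restrict_mem measurableSet_Ioc)
    filter_upwards [h2] with q hq
    rw [one_mul]
    exact hm q.1 (Ioc_subset_Icc_self hq) q.2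
  simp only [intervalIntegral.integral_of_le ht]
  refine ⟨hi.integral_prod_right, fun p => ?_, ?_⟩
  · rw [← intervalIntegral.integral_of_le ht]
    have := intervalIntegral.norm_integral_le_of_norm_le_const (a := 0) (b := t)
      (f := fun u => a (u, p.1) * a (u, p.2)) (C := |g p.1| * |g p.2|) fun u hu =>
        hm u (Ioc_subset_Icc_self (by rwa [uIoc_of_le ht] at hu)) p
    rwa [sub_zero, abs_of_nonneg ht] at this
  · rw [← integral_integral_swap hi]
    refine integral_congr_ae (Eventually.of_forall fun u => ?_)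
    beta_reduce
    rw [pow_two, ← integral_prod_mul]
    rfl

end Lim2

theorem s_lim2 (hc : S_cay) (hh : S_had) (hq : S_qint) : S_lim2 := by
  classical
  intro ψ w₀ D ψ' φ W t T g ν hF hN
  have hHP : closedBall w₀ 1 ⊆ HP := fun w hw => by
    have h1 := (abs_im_le_norm (w - w₀)).trans (mem_closedBall_iff_norm.1 hw)
    rw [sub_im, abs_le] at h1
    change 0 < w.im
    linarith [h1.1, hF.im]
  have hs : ball w₀ 1 ⊆ HP := ball_subset_closedBall.trans hHP
  have h0 := CA.s_inv _ ψ isOpen_ball hF.jm.2.2 (hF.jm.2.1.mono ball_subset_closedBall)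
  have h1 := hc.1.restrict isOpen_ball hs
  have hsub := (hc.1.mf.mono_left hs).image_subset
  have h3 := h1.trans (h0.restrict h1.oV hsub)
  obtain ⟨Q, hQ, hQK, hQP⟩ : ∃ Q : ℂ → ℂ, Measurable Q ∧ (∀ z, Q z ∈ closedBall w₀ 1) ∧
      ∀ z, g z ≠ 0 → Q z = icay (inv ψ z) ∧ ψ (cay (Q z)) = z ∧ inv ψ z = cay (Q z) := by
    refine ⟨(ψ '' (cay '' ball w₀ 1)).piecewise (fun z => icay (inv ψ z)) fun _ => w₀,
      h3.hg.continuousOn.measurable_piecewise continuousOn_const h3.oV.measurableSet,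
      fun z => ?_, fun z hz => ?_⟩
    · by_cases hz : z ∈ ψ '' (cay '' ball w₀ 1)
      · rw [piecewise_eq_of_mem _ _ _ hz]
        exact ball_subset_closedBall (h3.mg hz)
      · rw [piecewise_eq_of_notMem _ _ _ hz]
        exact mem_closedBall_self zero_le_one
    · have hz' := hN.test.2.2 (subset_tsupport g hz)
      rw [piecewise_eq_of_mem _ _ _ hz']
      exact ⟨rfl, h3.fg z hz', (hc.1.fg _ (h0.mg (image_mono hsub hz'))).symm⟩
  have hgc : Continuous g := hN.test.1.continuous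
  have hgi : Integrable g := hgc.integrable_of_hasCompactSupport hN.test.2.1
  have hD0 : tsupport g ⊆ ψ '' ball 0 1 := hN.test.2.2.trans (image_mono hsub)
  have hD : tsupport g ⊆ D := fun z hz => by
    obtain ⟨_, ⟨w, hw, rfl⟩, rfl⟩ := hN.test.2.2 hz
    exact hF.maps (ball_subset_closedBall hw)
  have hI := (hq _ ψ (inv ψ) g h0.oV ⟨h0.hf, h0.hg, h0.mf, h0.mg, h0.gf, h0.fg⟩
    ⟨hN.test.1, hN.test.2.1, hD0⟩).integrable_of_forall_notMem_eq_zero
      (Lim2.whole hD0 fun p => g0 (inv ψ p.1) (inv ψ p.2))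
  have key := fun k => Lim2.sqr (a := fun q => ((Zf (W k) q.1 (Q q.2))⁻¹).im * g q.2) (hF.tT k).1
    ((measurable_im.comp (SLE.fM.Z_meas.comp ((hQ.comp measurable_snd).prodMk
      ((measurable_const (a := W k)).prodMk measurable_fst))).inv).mul
        (hgc.measurable.comp measurable_snd)) hgi fun u hu z => by
      have h4 := (hF.far k u hu _ (hQK z)).2
      rw [abs_mul]
      refine mul_le_of_le_one_left (abs_nonneg _) ((abs_im_le_norm _).trans ?_)
      rw [norm_inv]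
      exact inv_le_one_of_one_le₀ (h4.trans (im_le_norm _))
  have hco : ∀ k, obsQ ν (W k) (t k) = ∫ p : ℂ × ℂ, 2 / π * ∫ u in (0 : ℝ)..t k,
      ((Zf (W k) u (Q p.1))⁻¹).im * g p.1 * (((Zf (W k) u (Q p.2))⁻¹).im * g p.2) := fun k => by
    rw [integral_const_mul, ← (key k).2.2, obsQ]
    congr 1
    refine intervalIntegral.integral_congr fun u hu => ?_
    rw [uIcc_of_le (hF.tT k).1] at hu
    have h4 : ContinuousOn (fun w => ((Zf (W k) u w)⁻¹).im) (closedBall w₀ 1) :=
      continuous_im.comp_continuousOn (((SLE.fM.Z_cont _ u hu.1).mono fun w hw =>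
        (hF.far k u hu w hw).1).inv₀ fun w hw e => by
          have := (hF.far k u hu w hw).2
          rw [e, zero_im] at this
          linarith)
    rw [co1, hN.rep _ h4]
    congr 2
    funext z
    by_cases hz : g z = 0
    · simp [hz]
    · rw [(hQP z hz).1]
  unfold Qv
  rw [setIntegral_eq_integral_of_forall_compl_eq_zero
      (Lim2.whole hD0 fun p => g0 (inv ψ p.1) (inv ψ p.2)),
    setIntegral_eq_integral_of_forall_compl_eq_zero (Lim2.whole hD fun p => g0 (φ p.1) (φ p.2))]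
  simp only [hco, fun k => (integral_sub hI ((key k).1.const_mul (2 / π))).symm]
  refine tendsto_integral_filter_of_dominated_convergence
    (fun p => ‖g p.1 * g0 (inv ψ p.1) (inv ψ p.2) * g p.2‖ + 2 / π * (|g p.1| * |g p.2| * T))
    (Eventually.of_forall fun k => (hI.sub ((key k).1.const_mul (2 / π))).aestronglyMeasurable)
    (Eventually.of_forall fun k => Eventually.of_forall fun p => ?_)
    (hI.norm.add (((hgi.abs.mul_prod hgi.abs).mul_const T).const_mul _)) ?_
  · refine (norm_sub_le _ _).trans (add_le_add_right ?_ _)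
    have hp : 0 ≤ 2 / π := by positivity
    rw [Real.norm_eq_abs, abs_mul, abs_of_nonneg hp]
    exact mul_le_mul_of_nonneg_left (((key k).2.1 p).trans
      (mul_le_mul_of_nonneg_left (hF.tT k).2 (by positivity))) hp
  · filter_upwards [Lim2.off] with p hp
    by_cases h4 : g p.1 = 0
    · simp [h4]
    by_cases h5 : g p.2 = 0
    · simp [h5]
    obtain ⟨-, a2, a3⟩ := hQP _ h4
    obtain ⟨-, b2, b3⟩ := hQP _ h5
    have hne : Q p.1 ≠ Q p.2 := fun e => hp (by rw [← a2, e, b2])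
    have m1 := hF.maps (hQK p.1)
    have m2 := hF.maps (hQK p.2)
    have l1 := hF.lim.tendsto_at (hQK p.1)
    have l2 := hF.lim.tendsto_at (hQK p.2)
    simp only [a2, b2] at m1 m2 l1 l2
    have h6 := (Lim2.g0_cont (hF.conf.mapsφ m1) (hF.conf.mapsφ m2) fun e => hp (by
      rw [← hF.conf.right _ m1, e, hF.conf.right _ m2])).tendsto.comp (l1.prodMk_nhds l2)
    refine ((h6.const_mul (g p.1)).mul_const (g p.2)).congr fun k => ?_
    have f1 := hF.far k (t k) ⟨(hF.tT k).1, le_rfl⟩ _ (hQK p.1)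
    have f2 := hF.far k (t k) ⟨(hF.tT k).1, le_rfl⟩ _ (hQK p.2)
    have e : ∀ u, ((Zf (W k) u (Q p.1))⁻¹).im * g p.1 * (((Zf (W k) u (Q p.2))⁻¹).im * g p.2) =
        g p.1 * g p.2 * (((Zf (W k) u (Q p.1))⁻¹).im * ((Zf (W k) u (Q p.2))⁻¹).im) :=
      fun u => by ring
    simp only [Function.comp_apply, e, intervalIntegral.integral_const_mul]
    rw [hh.1 _ (one_pos.trans_le f1.2) _ (one_pos.trans_le f2.2),
      hh.2 _ _ _ _ (hF.tT k).1 f1.1 f2.1 hne, a3, b3, hh.1 _ (hHP (hQK _)) _ (hHP (hQK _))]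
    ring

end Vale.Agent.P153.A2
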