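import Vale.Agent.P153.A2.Stm
import Vale.Agent.P153.Wick.Emb

/-! Free sites next to a wall are attached to the corresponding half circle. -/

open Set Filter Topology Metric Complex MeasureTheory
open scoped Real

noncomputable section
namespace Vale.Agent.P153.A2

open Vale.Agent.P164 (Pth HP Zf fi dom)
open Vale.Agent.P153.CA (Cf Full cay icay JLoop inside circ Hyd)
open Vale.Agent.P153.Wick (Fr arcP arcM CS Seq W_bv cc YY Qv cov inv)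
open Vale.Agent.P153.SLE (DC Drv)

namespace Lr

/-- A parametrized segment at mesh `δ`. -/
def ph (δ : ℝ) (a b : ℂ) (t : ℝ) : ℂ := δ * (a + t • (b - a))

theorem ph_cont (δ : ℝ) (a b : ℂ) : Continuous (ph δ a b) := by unfold ph; fun_prop

theorem ph_zero (δ : ℝ) (a b : ℂ) : ph δ a b 0 = δ * a := by simp [ph]

theorem ph_one (δ : ℝ) (a b : ℂ) : ph δ a b 1 = δ * b := by simp [ph]

theorem ph_half (δ : ℝ) (a b : ℂ) : ph δ a b (1 / 2) = δ * ((a + b) / 2) := by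
  simp only [ph, real_smul]
  push_cast
  ring

theorem seg (a b : ℂ) {t : ℝ} (h0 : 0 ≤ t) (h1 : t ≤ 1) : a + t • (b - a) ∈ segment ℝ a b := by
  rw [segment_eq_image']
  exact ⟨t, ⟨h0, h1⟩, rfl⟩

theorem ph_inj {δ : ℝ} {a b : ℂ} (hδ : 0 < δ) (h : a ≠ b) {t t' : ℝ}
    (e : ph δ a b t = ph δ a b t') : t = t' :=
  smul_left_injective ℝ (sub_ne_zero.2 h.symm)
    (add_left_cancel (mul_left_cancel₀ (ofReal_ne_zero.2 hδ.ne') e))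

theorem ph_cl (δ : ℝ) (a b : ℂ) {T : ℝ} (hT : 0 < T) :
    ph δ a b T ∈ closure (ph δ a b '' Ico 0 T) :=
  image_closure_subset_closure_image (ph_cont δ a b)
    ⟨T, by rw [closure_Ico hT.ne]; exact ⟨hT.le, le_rfl⟩, rfl⟩

theorem adj_norm {x y : V} (h : Adj x y) : ‖emb y - emb x‖ ≤ 1 := by
  rw [← Wick.Emb.emb_sub]
  simpa [adj_iff_nrm.1 h] using Wick.Emb.norm_le (y - x)

theorem adj_ne {x y : V} (h : Adj x y) : emb x ≠ emb y := fun e => by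
  have h1 := Wick.Emb.le_norm (y - x)
  rw [Wick.Emb.emb_sub, e, sub_self, adj_iff_nrm.1 h] at h1
  norm_num at h1

theorem ball_of {δ : ℝ} (hδ : 0 < δ) {a b c w : ℂ} (ha : ‖a - c‖ ≤ 1) (hb : ‖b - c‖ ≤ 1)
    (hw : w ∈ segment ℝ a b) : δ * w ∈ closedBall (δ * c) δ := by
  have h := (convex_closedBall c 1).segment_subset (mem_closedBall_iff_norm.2 ha)
    (mem_closedBall_iff_norm.2 hb) hw
  rw [mem_closedBall_iff_norm] at h ⊢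
  rw [← mul_sub, Wick.Emb.scale hδ]
  exact mul_le_of_le_one_right hδ.le h

/-- The limit at an end point outside the domain. -/
theorem fin {Ω P Q T : Set ℂ} {f g : ℂ → ℂ} {e : ℂ} (hC : Cf (ball 0 1) Ω f g) (he : e ∉ Ω)
    (hQ : e ∈ closure Q) (hP : Q ⊆ P) (hΩ : Q ⊆ Ω) (hT : ∀ᶠ z in 𝓝[Q] e, g z ∈ T) :
    ∃ v ∈ closure (g '' P), ‖v‖ = 1 ∧ v ∈ closure T := by
  have := mem_closure_iff_nhdsWithin_neBot.1 hQ
  have hle : (Ultrafilter.of (𝓝[Q] e) : Filter ℂ) ≤ 𝓝[Q] e := Ultrafilter.of_le _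
  have hU : ∀ᶠ z in (Ultrafilter.of (𝓝[Q] e) : Filter ℂ), z ∈ Q := hle self_mem_nhdsWithin
  obtain ⟨v, hv, hl⟩ := (isCompact_closedBall (0 : ℂ) 1).ultrafilter_le_nhds
    ((Ultrafilter.of (𝓝[Q] e)).map g)
    (le_principal_iff.2 (hU.mono fun z hz => ball_subset_closedBall (hC.mg (hΩ hz))))
  have hl' : Tendsto g (Ultrafilter.of (𝓝[Q] e) : Filter ℂ) (𝓝 v) := hl
  refine ⟨v, mem_closure_of_tendsto hl' (hU.mono fun z hz => mem_image_of_mem g (hP hz)), ?_,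
    mem_closure_of_tendsto hl' (hle hT)⟩
  refine le_antisymm (mem_closedBall_zero_iff.1 hv) (not_lt.1 fun h => he ?_)
  exact (hC.symm.proper (z := id) (hU.mono fun z hz => hΩ hz) (hle.trans nhdsWithin_le_nhds) hl'
    (mem_ball_zero_iff.2 h)).1

variable {L : LDom} {δ : ℝ} {Ψ : ℂ → ℂ} {ε : ℤ} {h : V → ℤ}

theorem memD (hJ : JM L δ Ψ) {w : ℂ} : δ * w ∈ Ψ '' ball 0 1 ↔ w ∈ L.dom := by
  rw [hJ.im, mem_ofPred_eq, mul_div_cancel_left₀ _ (ofReal_ne_zero.2 hJ.pos.ne')]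

theorem notFr (hJ : JM L δ Ψ) {y : V} {ζ : ℂ} (h1 : ζ ∈ sphere (0 : ℂ) 1) (h2 : Ψ ζ = δ * emb y) :
    y ∉ Fr L := fun hy => by
  obtain ⟨w, hw, e⟩ := (memD hJ).2 hy
  have := hJ.jm.2.1 (ball_subset_closedBall hw) (sphere_subset_closedBall h1) (e.trans h2.symm)
  rw [this, mem_ball_zero_iff, mem_sphere_zero_iff_norm.1 h1] at hw
  exact lt_irrefl _ hw

theorem cut (hJ : JM L δ Ψ) (hL : Lat L ε h) {x y : V} (hxy : Adj x y) {t v : ℝ} (h0 : 0 ≤ t)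
    (h1 : t ≤ 1) (hv : v ∈ Icc (0 : ℝ) 1) (e : gm L δ h v = ph δ (emb x) (emb y) t) :
    ∃ i ≤ L.len h, v = i / L.len h ∧ (L.edge h i = (x, y) ∨ L.edge h i = (y, x)) :=
  hL.cut x y hxy v hv (by
    rw [mul_left_cancel₀ (ofReal_ne_zero.2 hJ.pos.ne') e]
    exact seg _ _ h0 h1)

theorem gm_mid (hp : S_poly) (hL : Lat L ε h) {x y : V} {i : ℕ} (hi : i ≤ L.len h)
    (e : L.edge h i = (x, y) ∨ L.edge h i = (y, x)) :
    gm L δ h (i / L.len h) = ph δ (emb x) (emb y) (1 / 2) := by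
  rw [gm, (hp _ _ hL.pos).2.1 i hi, ph_half, mid]
  rcases e with e | e <;> rw [e]
  rw [add_comm]

theorem inD (hj : S_jl) (hJ : JM L δ Ψ) {x y : V} (hx : x ∈ Fr L) (hxy : Adj x y) {t : ℝ}
    (h0 : 0 ≤ t) (h1 : t < 1) : ph δ (emb x) (emb y) t ∈ Ψ '' ball 0 1 :=
  (memD hJ).2 ((hj L).2.2.2 x hx y hxy _ (seg _ _ h0 h1.le) fun e => h1.ne
    (ph_inj hJ.pos (adj_ne hxy) ((congrArg ((δ : ℂ) * ·) e).trans (ph_one δ _ _).symm)))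

theorem main (hj : S_jl) (hp : S_poly) (hd : S_dc) (hf : S_cf) (h0 : S_lr0) (h1 : S_lr1)
    (hs : S_side) {S : ℝ} {τ : ℝ → ℝ} {W : Pth} {m : ℕ} (hJ : JM L δ Ψ) (hL : Lat L ε h)
    (hD : Drv (cv Ψ L δ h) S τ W) (hm : (m : ℝ) / L.len h ≤ S) {σ : ℝ} {A : Set V}
    (hA : ∀ y ∈ A, (σ = 1 ∧ y ∈ lA L h (L.len h) ∨ σ = -1 ∧ y ∈ rB L h (L.len h)) ∧
      (y ∈ Fr L → ∃ i ≤ m, ∃ y', Adj y y' ∧ (L.edge h i = (y, y') ∨ L.edge h i = (y', y)))) :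
    Att δ σ (Fm L h m) A (om Ψ (cv Ψ L δ h) (m / L.len h)) (pm Ψ W (τ (m / L.len h))) := by
  intro x hx y hy hxy
  obtain ⟨hy1, hy2⟩ := hA y hy
  have hσ : σ = 1 ∨ σ = -1 := hy1.imp And.left And.left
  have hM : (0 : ℝ) < L.len h := Nat.cast_pos.2 hL.pos
  have hs0 : (m : ℝ) / L.len h ∈ Icc 0 S := ⟨by positivity, hm⟩
  have hs1 : (m : ℝ) / L.len h < 1 := hm.trans_lt hD.S1
  have hmM : m < L.len h := Nat.cast_lt.1 ((div_lt_one hM).1 hs1)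
  obtain ⟨hc, -, hg⟩ := hd L δ Ψ ε h hJ hL
  obtain ⟨-, hC2, hC3, hom, -⟩ := hf Ψ _ S τ W hJ.jm hc hD _ hs0
  have hsub : Icc 0 ((m : ℝ) / L.len h) ⊆ Icc 0 1 := Icc_subset_Icc_right hs1.le
  have hΩ : ∀ z, z ∈ om Ψ (cv Ψ L δ h) (m / L.len h) ↔
      z ∈ Ψ '' ball 0 1 ∧ ∀ v ∈ Icc 0 ((m : ℝ) / L.len h), gm L δ h v ≠ z := fun z => by
    rw [hom, Set.mem_sdiff]
    exact and_congr_right fun _ => ⟨fun k v hv e => k ⟨v, hv, (hg v (hsub hv)).trans e⟩,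
      fun k ⟨v, hv, e⟩ => k v hv ((hg v (hsub hv)).symm.trans e)⟩
  have hedge : ∀ t ∈ Icc (0 : ℝ) 1, ∀ v ∈ Icc 0 ((m : ℝ) / L.len h),
      gm L δ h v ≠ ph δ (emb x) (emb y) t := fun t ht v hv e => by
    obtain ⟨i, -, rfl, k⟩ := cut hJ hL hxy ht.1 ht.2 (hsub hv) e
    have hi : i ≤ m := Nat.cast_le.1 ((div_le_div_iff_of_pos_right hM).1 hv.2)
    rcases k with k | k
    · exact hx.2 (Or.inl (Or.inr ⟨i, hi, congrArg Prod.fst k⟩))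
    · exact hx.2 (Or.inr (Or.inr ⟨i, hi, congrArg Prod.snd k⟩))
  have hball : ∀ t ∈ Icc (0 : ℝ) 1, ph δ (emb x) (emb y) t ∈ closedBall (δ * emb y) δ :=
    fun t ht => ball_of hJ.pos (adj_norm hxy.symm) (by simp) (seg _ _ ht.1 ht.2)
  have hside := h1 L δ Ψ ε h hJ hL σ y hy1
  have hend : ∀ (P Q : Set ℂ) (e : ℂ), e ∉ om Ψ (cv Ψ L δ h) (m / L.len h) → e ∈ closure Q →
      Q ⊆ P → Q ⊆ om Ψ (cv Ψ L δ h) (m / L.len h) →
      (∀ᶠ z in 𝓝[Q] e, inv Ψ z ∈ side (cv Ψ L δ h) σ) →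
      ∃ v ∈ closure (pm Ψ W (τ (m / L.len h)) '' P), ‖v‖ = 1 ∧ 0 ≤ σ * v.im := by
    intro P Q e k1 k2 k3 k4 k5
    obtain ⟨v, hv1, hv2, hv3⟩ := fin (T := zm W (τ (m / L.len h)) '' side (cv Ψ L δ h) σ) hC3 k1
      k2 k3 k4 (k5.mono fun z hz => mem_image_of_mem _ hz)
    exact ⟨v, hv1, hv2, h0 _ S τ W σ hc hD hσ _ hs0 v hv3 hv2⟩
  by_cases hyF : y ∈ Fr L
  · obtain ⟨i, hi, y', hyy, he⟩ := hy2 hyF
    have hP2 : ∀ t ∈ Ico (0 : ℝ) (1 / 2), ph δ (emb y) (emb y') t ∈ Ψ '' ball 0 1 ∧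
        ∀ v ∈ Icc (0 : ℝ) 1, gm L δ h v ≠ ph δ (emb y) (emb y') t := fun t ht =>
      ⟨inD hj hJ hyF hyy ht.1 (by linarith [ht.2]), fun v hv e => by
        obtain ⟨j, hjM, rfl, k⟩ := cut hJ hL hyy ht.1 (by linarith [ht.2]) hv e
        exact ht.2.ne' (ph_inj hJ.pos (adj_ne hyy) ((gm_mid hp hL hjM k).symm.trans e))⟩
    have hQ : ph δ (emb y) (emb y') '' Ico 0 (1 / 2) ⊆ om Ψ (cv Ψ L δ h) (m / L.len h) := by
      rintro _ ⟨t, ht, rfl⟩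
      exact (hΩ _).2 ⟨(hP2 t ht).1, fun v hv => (hP2 t ht).2 v (hsub hv)⟩
    have hc2 : IsPreconnected (ph δ (emb y) (emb y') '' Ico 0 (1 / 2)) :=
      isPreconnected_Ico.image _ (ph_cont _ _ _).continuousOn
    have hy0 : δ * emb y ∈ ph δ (emb y) (emb y') '' Ico 0 (1 / 2) :=
      ⟨0, ⟨le_rfl, by norm_num⟩, ph_zero _ _ _⟩
    have hin : inv Ψ '' (ph δ (emb y) (emb y') '' Ico 0 (1 / 2)) ⊆ side (cv Ψ L δ h) σ := by
      refine (hs _ σ hc hσ).2.2.2 _ (hc2.image _ (hC2.hg.continuousOn.mono ?_)) ?_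
        ⟨_, mem_image_of_mem _ hy0, hside.self_of_nhdsWithin ((memD hJ).2 hyF)⟩
      · rintro _ ⟨t, ht, rfl⟩
        exact (hP2 t ht).1
      · rintro _ ⟨_, ⟨t, ht, rfl⟩, rfl⟩
        refine ⟨hC2.mg (hP2 t ht).1, fun ⟨v, hv, e⟩ => (hP2 t ht).2 v hv ?_⟩
        rw [← hg v hv, e, hC2.fg _ (hP2 t ht).1]
    refine ⟨ph δ (emb x) (emb y) '' Icc 0 1 ∪ ph δ (emb y) (emb y') '' Ico 0 (1 / 2),
      IsPreconnected.union (δ * emb y) ⟨1, ⟨zero_le_one, le_rfl⟩, ph_one _ _ _⟩ hy0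
        (isPreconnected_Icc.image _ (ph_cont _ _ _).continuousOn) hc2, ?_,
      Or.inl ⟨0, ⟨le_rfl, zero_le_one⟩, ph_zero _ _ _⟩,
      hend _ _ _ (fun k => ?_) (ph_cl δ _ _ one_half_pos) subset_union_right hQ
        (eventually_nhdsWithin_of_forall fun z hz => hin (mem_image_of_mem _ hz))⟩
    · rintro _ (⟨t, ht, rfl⟩ | ⟨t, ht, rfl⟩)
      · refine ⟨(hΩ _).2 ⟨?_, hedge t ht⟩, hball t ht⟩
        rcases ht.2.eq_or_lt with rfl | k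
        · rw [ph_one]
          exact (memD hJ).2 hyF
        · exact inD hj hJ hx.1 hxy ht.1 k
      · exact ⟨hQ ⟨t, ht, rfl⟩, ball_of hJ.pos (by simp) (adj_norm hyy)
          (seg _ _ ht.1 (by linarith [ht.2]))⟩
    · exact ((hΩ _).1 k).2 (i / L.len h) ⟨by positivity, by gcongr⟩
        (gm_mid hp hL (hi.trans hmM.le) he)
  · have hQ : ph δ (emb x) (emb y) '' Ico 0 1 ⊆ om Ψ (cv Ψ L δ h) (m / L.len h) := by
      rintro _ ⟨t, ht, rfl⟩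
      exact (hΩ _).2 ⟨inD hj hJ hx.1 hxy ht.1 ht.2, hedge t (Ico_subset_Icc_self ht)⟩
    refine ⟨ph δ (emb x) (emb y) '' Ico 0 1,
      isPreconnected_Ico.image _ (ph_cont _ _ _).continuousOn, ?_,
      ⟨0, ⟨le_rfl, zero_lt_one⟩, ph_zero _ _ _⟩,
      hend _ _ (δ * emb y) (fun k => hyF ((memD hJ).1 ((hΩ _).1 k).1))
        (ph_one δ (emb x) (emb y) ▸ ph_cl δ _ _ one_pos) Subset.rfl hQ
        (hside.filter_mono (nhdsWithin_mono _ fun z hz => ((hΩ z).1 (hQ hz)).1))⟩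
    rintro _ ⟨t, ht, rfl⟩
    exact ⟨hQ ⟨t, ht, rfl⟩, hball t (Ico_subset_Icc_self ht)⟩

end Lr

theorem s_lr (hj : S_jl) (hp : S_poly) (hd : S_dc) (hf : S_cf) (h0 : S_lr0) (h1 : S_lr1)
    (hs : S_side) : S_lr := by
  intro L δ Ψ ε h S τ W m hJ hL hD hm
  have hmM : m ≤ L.len h :=
    (Nat.cast_lt.1 ((div_lt_one (Nat.cast_pos.2 hL.pos)).1 (hm.trans_lt hD.S1))).le
  refine ⟨Lr.main hj hp hd hf h0 h1 hs hJ hL hD hm ?_, Lr.main hj hp hd hf h0 h1 hs hJ hL hD hm ?_⟩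
  · rintro y (hy | ⟨i, hi, rfl⟩)
    · obtain ⟨ζ, k1, -, k2⟩ := hJ.up y hy
      exact ⟨Or.inl ⟨rfl, Or.inl hy⟩, fun k => absurd k (Lr.notFr hJ k1 k2)⟩
    · exact ⟨Or.inl ⟨rfl, Or.inr ⟨i, le_trans hi hmM, rfl⟩⟩, fun _ =>
        ⟨i, hi, _, hL.adj i (le_trans hi hmM), Or.inl rfl⟩⟩
  · rintro y (hy | ⟨i, hi, rfl⟩)
    · obtain ⟨ζ, k1, -, k2⟩ := hJ.lo y hy
      exact ⟨Or.inr ⟨rfl, Or.inl hy⟩, fun k => absurd k (Lr.notFr hJ k1 k2)⟩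
    · exact ⟨Or.inr ⟨rfl, Or.inr ⟨i, le_trans hi hmM, rfl⟩⟩, fun _ =>
        ⟨i, hi, _, (hL.adj i (le_trans hi hmM)).symm, Or.inr rfl⟩⟩

end Vale.Agent.P153.A2
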