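import Vale.Agent.P153.A2.Stm
import Vale.Agent.P153.SLE.Basic

/-! The two sides of the curve are mapped to the two half circles. -/

open Set Filter Topology Metric Complex MeasureTheory
open scoped Real

noncomputable section
namespace Vale.Agent.P153.A2

open Vale.Agent.P164 (Pth HP Zf fi dom)
open Vale.Agent.P153.CA (Cf Full cay icay JLoop inside circ Hyd)
open Vale.Agent.P153.SLE (DC Drv)

namespace Lr0

theorem norm_cay_real {z : ℂ} (h : z.im = 0) : ‖cay z‖ = 1 := by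
  have h1 := SLE.normSq_add_I z
  rw [h, mul_zero, add_zero, sq_eq_sq₀ (norm_nonneg _) (norm_nonneg _)] at h1
  rw [cay, norm_div, ← h1, div_self (norm_ne_zero_iff.2 (SLE.add_I_ne h.ge))]

theorem im_pos (hc : S_cay) {z : ℂ} {σ : ℝ} (h : z.im = 0) (h1 : σ * z.re < 0) :
    0 < σ * (cay z).im := by
  rw [(hc.2.2.2.2.2.2.2.2.1 z h.ge).2, ← mul_div_assoc]
  exact div_pos (by linarith) (pow_pos (norm_pos_iff.2 (SLE.add_I_ne h.ge)) 2)

/-- A point of the boundary on the right side that is a limit of images. -/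
theorem anchor (hc : S_cay) {W : Pth} {t C σ : ℝ} {A : Set ℂ} (hσ : σ = 1 ∨ σ = -1) (ht : 0 ≤ t)
    (C0 : 0 ≤ C) (hC : ∀ w ∈ dom W t, ‖Zf W t w - w‖ ≤ C)
    (hA : ∀ ζ : ℂ, ‖ζ‖ = 1 → 0 < σ * ζ.im → ∀ᶠ w in 𝓝[ball 0 1] ζ, w ∈ A)
    (hd : ∀ w : ℂ, 0 < w.im → cay w ∈ A → w ∈ dom W t) :
    ∃ u ∈ closure (zm W t '' A), ‖u‖ = 1 ∧ 0 < σ * u.im := by
  have s2 : σ * σ = 1 := by rcases hσ with rfl | rfl <;> norm_num
  have s1 : |σ| = 1 := by rcases hσ with rfl | rfl <;> norm_num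
  set x : ℝ := -σ * (C + 1) with hx
  have sx : σ * x = -(C + 1) := by rw [hx]; linear_combination -(C + 1) * s2
  let w : ℝ → ℂ := fun y => x + y * I
  have wi : ∀ y, (w y).im = y := fun y => by simp [w]
  have wr : ∀ y, (w y).re = x := fun y => by simp [w]
  have wt : Tendsto w (𝓝[>] 0) (𝓝 x) := by
    have : Continuous w := by fun_prop
    simpa [w] using (this.tendsto 0).mono_left nhdsWithin_le_nhds
  have e1 : ∀ᶠ y in 𝓝[>] (0 : ℝ), cay (w y) ∈ A := by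
    refine Tendsto.eventually (tendsto_nhdsWithin_iff.2
      ⟨(SLE.continuousAt_cay (ofReal_im x).ge).tendsto.comp wt, ?_⟩)
      (hA _ (norm_cay_real (ofReal_im x)) (im_pos hc (ofReal_im x) (by rw [ofReal_re]; linarith)))
    filter_upwards [self_mem_nhdsWithin] with y hy
    exact mem_ball_zero_iff.2 (SLE.norm_cay_lt ((wi y).symm ▸ hy))
  have e2 : ∀ᶠ y in 𝓝[>] (0 : ℝ), cay (Zf W t (w y)) ∈ zm W t '' A ∧
      Zf W t (w y) ∈ closedBall (x : ℂ) (C + 1) ∧ 0 ≤ (Zf W t (w y)).im ∧ (Zf W t (w y)).im ≤ y ∧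
      σ * (Zf W t (w y)).re ≤ -1 := by
    filter_upwards [e1, Ioc_mem_nhdsGT one_pos] with y h1 h2
    have hy : 0 < (w y).im := (wi y).symm ▸ h2.1
    have h3 := hC _ (hd _ hy h1)
    refine ⟨⟨_, h1, by rw [zm, SLE.icay_cay hy.le]⟩, ?_, SLE.fA.Y_nonneg W t _, ?_, ?_⟩
    · have : ‖w y - x‖ ≤ 1 := by simpa [w, abs_of_pos h2.1] using h2.2
      rw [mem_closedBall_iff_norm]
      exact (norm_sub_le_norm_sub_add_norm_sub _ (w y) _).trans (add_le_add h3 this)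
    · refine (SLE.fA.Y_anti W (w y) ht).trans_eq ?_
      simp only [P164.Yf, (SLE.fA.init W _ hy).2.1, sub_im, ofReal_im, sub_zero, wi]
    · have h4 := (abs_re_le_norm _).trans h3
      rw [sub_re, wr, ← one_mul |_|, ← s1, ← abs_mul] at h4
      linarith [le_abs_self (σ * ((Zf W t (w y)).re - x))]
  have hU := Ultrafilter.of_le (𝓝[>] (0 : ℝ))
  obtain ⟨ξ, -, hξ⟩ := (isCompact_closedBall (x : ℂ) (C + 1)).ultrafilter_le_nhds
    ((Ultrafilter.of (𝓝[>] (0 : ℝ))).map fun y => Zf W t (w y))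
    (le_principal_iff.2 ((e2.filter_mono hU).mono fun y h => h.2.1))
  replace hξ : Tendsto (fun y => Zf W t (w y)) (Ultrafilter.of (𝓝[>] (0 : ℝ))) (𝓝 ξ) := hξ
  have e3 := e2.filter_mono hU
  have i0 : ξ.im = 0 := tendsto_nhds_unique ((continuous_im.tendsto ξ).comp hξ)
    (squeeze_zero' (e3.mono fun y h => h.2.2.1) (e3.mono fun y h => h.2.2.2.1)
      (tendsto_id.mono_left (hU.trans nhdsWithin_le_nhds)))
  have r0 : σ * ξ.re ≤ -1 := le_of_tendsto (((continuous_re.tendsto ξ).comp hξ).const_mul σ)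
    (e3.mono fun y h => h.2.2.2.2)
  exact ⟨cay ξ, mem_closure_of_tendsto ((SLE.continuousAt_cay i0.ge).tendsto.comp hξ)
    (e3.mono fun y h => h.1), norm_cay_real i0, im_pos hc i0 (by linarith)⟩

/-- The image of the curve ends at `1`. -/
theorem tend_one {c : ℝ → ℂ} (h : DC c) {W : Pth} {t C s : ℝ} (s0 : 0 ≤ s) (s1 : s < 1)
    (hC : ∀ w ∈ dom W t, ‖Zf W t w - w‖ ≤ C) (hd : ∀ v ∈ Ioo s 1, icay (c v) ∈ dom W t) :
    Tendsto (fun v => zm W t (c v)) (𝓝[<] 1) (𝓝 1) := by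
  have ev : ∀ᶠ v in 𝓝[<] (1 : ℝ), v ∈ Ioo s 1 := Ioo_mem_nhdsLT s1
  have h1 : Tendsto (fun v => ‖c v - 1‖) (𝓝[<] 1) (𝓝[>] 0) := by
    refine tendsto_nhdsWithin_iff.2 ⟨tendsto_iff_norm_sub_tendsto_zero.1 ?_, ev.mono fun v hv =>
      norm_pos_iff.2 (sub_ne_zero.2 (SLE.ne_one_of_lt (h.ins v ⟨s0.trans_lt hv.1, hv.2⟩)))⟩
    have := (h.cont 1 ⟨zero_le_one, le_rfl⟩).tendsto
    rw [h.c1] at this
    exact this.mono_left (nhdsWithin_le_of_mem (Icc_mem_nhdsLT one_pos))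
  have h2 : Tendsto (fun v => ‖Zf W t (icay (c v)) + I‖) (𝓝[<] 1) atTop := by
    refine tendsto_atTop_mono' _ (ev.mono fun v hv => ?_) (tendsto_atTop_add_const_right _ (-C)
      ((tendsto_inv_nhdsGT_zero.comp h1).const_mul_atTop two_pos))
    have hv' : v ∈ Ioo (0 : ℝ) 1 := ⟨s0.trans_lt hv.1, hv.2⟩
    have a := SLE.norm_cay_sub_one (h.pos hv').le
    rw [h.cay_icay hv'] at a
    have b := hC _ (hd v hv)
    have d := norm_sub_le (Zf W t (icay (c v)) + I) (Zf W t (icay (c v)) - icay (c v))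
    rw [show Zf W t (icay (c v)) + I - (Zf W t (icay (c v)) - icay (c v)) = icay (c v) + I by ring]
      at d
    simp only [Function.comp, a, inv_div]
    linarith
  refine tendsto_iff_norm_sub_tendsto_zero.2 ((h2.const_div_atTop 2).congr fun v => ?_)
  exact (SLE.norm_cay_sub_one (SLE.fA.Y_nonneg W t _)).symm

end Lr0

open Lr0 in
theorem s_lr0 (hc : S_cay) (hf : S_cf) (hx : S_cross) (hs : S_side) (ht : S_tipz)
    (hb : SLE.S_bnd) : S_lr0 := by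
  intro c S τ W σ h hd hσ s hsS v hv v1
  have t0 := hd.nonneg hsS
  have s1 : s < 1 := hsS.2.trans_lt hd.S1
  obtain ⟨M, M0, hM, -⟩ := SLE.exists_bound W (τ s)
  have hC : ∀ w ∈ dom W (τ s), ‖Zf W (τ s) w - w‖ ≤ 2 * τ s + 2 * M + 2 + M := fun w hw => by
    have a := (hb W (τ s) M w hM).1 _ ⟨t0, le_rfl⟩ hw
    have b := norm_sub_le (Zf W (τ s) w + W (τ s) - w) (W (τ s))
    rw [show Zf W (τ s) w + W (τ s) - w - W (τ s) = Zf W (τ s) w - w by ring, norm_real,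
      Real.norm_eq_abs] at b
    linarith [hM _ ⟨t0, le_rfl⟩]
  have cf := (hf id c S τ W ⟨continuousOn_id, injOn_id _, differentiableOn_id⟩ h hd s hsS).1
  obtain ⟨a1, a2, a3, -⟩ := hs c σ h hσ
  obtain ⟨b1, b2⟩ := ht c S τ W h hd s hsS
  have sub : side c σ ⊆ ball 0 1 \ c '' Icc 0 s := fun w hw =>
    ⟨(a1 hw).1, fun k => (a1 hw).2 (image_mono (Icc_subset_Icc_right s1.le) k)⟩
  have cm : ∀ r ∈ Ioo s 1, c r ∈ ball 0 1 \ c '' Icc 0 s := fun r hr =>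
    ⟨mem_ball_zero_iff.2 (h.ins r ⟨hsS.1.trans_lt hr.1, hr.2⟩), fun ⟨q, hq, e⟩ => by
      have := h.inj ⟨hq.1, hq.2.trans s1.le⟩ ⟨hsS.1.trans hr.1.le, hr.2.le⟩ e
      linarith [hq.2, hr.1]⟩
  have gc : ContinuousOn (fun r => zm W (τ s) (c r)) (Ioo s 1) :=
    cf.hg.continuousOn.comp (h.cont.mono fun r hr => ⟨hsS.1.trans hr.1.le, hr.2.le⟩) cm
  have g0 : Tendsto (fun r => zm W (τ s) (c r)) (𝓝[>] s) (𝓝 (-1)) :=
    SLE.cay_zero ▸ (SLE.continuousAt_cay (z := 0) le_rfl).tendsto.comp b2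
  have g1 := tend_one h hsS.1 s1 hC b1
  have Kc := continuousOn_Icc_extendFrom_Ioo gc g0 g1
  have K0 := eq_lim_at_left_extendFrom_Ioo s1 g0
  have K1 := eq_lim_at_right_extendFrom_Ioo s1 g1
  have Km : ∀ z ∈ extendFrom (Ioo s 1) (fun r => zm W (τ s) (c r)) '' Icc s 1,
      z = -1 ∨ z = 1 ∨ ∃ r ∈ Ioo s 1, z = zm W (τ s) (c r) := by
    rintro _ ⟨r, hr, rfl⟩
    rcases hr.1.eq_or_lt with rfl | r0
    · exact Or.inl K0
    rcases hr.2.eq_or_lt with rfl | r1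
    · exact Or.inr (Or.inl K1)
    exact Or.inr (Or.inr ⟨r, ⟨r0, r1⟩, extendFrom_extends gc r ⟨r0, r1⟩⟩)
  have key := fun u v => hx _ (zm W (τ s) '' side c σ) u v
    (isCompact_Icc.image_of_continuousOn Kc) (isPreconnected_Icc.image _ Kc)
    (fun z hz => by
      rcases Km z hz with rfl | rfl | ⟨r, hr, rfl⟩
      · exact Or.inr (Or.inl rfl)
      · exact Or.inr (Or.inr rfl)
      · exact Or.inl (cf.mg (cm r hr)))
    ⟨s, ⟨le_rfl, s1.le⟩, K0⟩ ⟨1, ⟨s1.le, le_rfl⟩, K1⟩ (a2.image _ (cf.hg.continuousOn.mono sub))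
    (by
      rintro _ ⟨w, hw, rfl⟩
      have k := cf.mg (sub hw)
      refine ⟨k, fun hz => ?_⟩
      rw [mem_ball_zero_iff] at k
      rcases Km _ hz with e | e | ⟨r, hr, e⟩
      · simp [e] at k
      · simp [e] at k
      · refine (a1 hw).2 ⟨r, ⟨hsS.1.trans hr.1.le, hr.2.le⟩, ?_⟩
        rw [← cf.fg _ (sub hw), e, cf.fg _ (cm r hr)])
  obtain ⟨u, u0, u1, u2⟩ := anchor hc hσ t0 (by positivity) hC a3 fun w hw k => by
    rw [hd.dom s hsS]
    refine ⟨hw, fun ⟨r, hr, e⟩ => (a1 k).2 ⟨r, ⟨hr.1.le, hr.2.trans s1.le⟩, ?_⟩⟩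
    rw [← e, h.cay_icay ⟨hr.1, hr.2.trans_lt s1⟩]
  rcases hσ with rfl | rfl
  · rw [one_mul] at u2 ⊢
    exact key u v u0 hv u1 v1 u2
  · by_contra k
    linarith [key v u hv u0 v1 u1 (by linarith)]

end Vale.Agent.P153.A2
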