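import Vale.Agent.P153.A2.Stm
import Vale.Agent.P153.CA.Inv

/-! The walls lie on the two sides of the interface. -/

open Set Filter Topology Metric Complex MeasureTheory
open scoped Real

noncomputable section
namespace Vale.Agent.P153.A2

open Vale.Agent.P164 (Pth HP Zf fi dom)
open Vale.Agent.P153.CA (Cf Full cay icay JLoop inside circ Hyd)
open Vale.Agent.P153.Wick (Fr arcP arcM CS Seq W_bv cc YY Qv cov inv)
open Vale.Agent.P153.SLE (DC Drv)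

namespace Lr1

theorem cf {Ψ : ℂ → ℂ} (h : IsJordanMap Ψ) : Cf (ball 0 1) (Ψ '' ball 0 1) Ψ (inv Ψ) :=
  CA.s_inv _ Ψ isOpen_ball h.2.2 (h.2.1.mono ball_subset_closedBall)

theorem base {Ψ : ℂ → ℂ} (h : IsJordanMap Ψ) {ζ : ℂ} (hζ : ζ ∈ sphere (0 : ℂ) 1) :
    Tendsto (inv Ψ) (𝓝[Ψ '' ball 0 1] (Ψ ζ)) (𝓝[ball 0 1] ζ) := by
  refine tendsto_nhdsWithin_iff.2 ⟨Metric.tendsto_nhds.2 fun e he => ?_,
    eventually_mem_nhdsWithin.mono fun z hz => (cf h).mg hz⟩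
  have hK : IsCompact (Ψ '' (closedBall 0 1 \ ball ζ e)) :=
    ((isCompact_closedBall 0 1).diff isOpen_ball).image_of_continuousOn (h.1.mono sdiff_subset)
  have hn : Ψ ζ ∉ Ψ '' (closedBall 0 1 \ ball ζ e) := by
    rintro ⟨w, hw, e1⟩
    exact hw.2 (h.2.1 hw.1 (sphere_subset_closedBall hζ) e1 ▸ mem_ball_self he)
  filter_upwards [nhdsWithin_le_nhds (hK.isClosed.isOpen_compl.mem_nhds hn),
    self_mem_nhdsWithin] with z z1 z2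
  by_contra k
  exact z1 ⟨_, ⟨ball_subset_closedBall ((cf h).mg z2), k⟩, (cf h).fg z z2⟩

theorem step (hj : S_jl) {L : LDom} {δ : ℝ} {Ψ : ℂ → ℂ} (J : JM L δ Ψ) {c q : ℝ → ℂ} (hc : DC c)
    (hq : ∀ s ∈ Icc (0 : ℝ) 1, Ψ (c s) = δ * q s) {X : Set ℂ}
    (hX : ∀ Q, IsPreconnected Q → Q ⊆ ball 0 1 \ c '' Icc 0 1 → (Q ∩ X).Nonempty → Q ⊆ X)
    {x y : V} (hx : x ∈ Fr L) (a : Adj x y)
    (no : ∀ s ∈ Icc (0 : ℝ) 1, q s ∉ segment ℝ (emb x) (emb y))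
    (hy : ∀ᶠ z in 𝓝[Ψ '' ball 0 1] (δ * emb y), inv Ψ z ∈ X) :
    ∀ᶠ z in 𝓝[Ψ '' ball 0 1] (δ * emb x), inv Ψ z ∈ X := by
  have d0 : (δ : ℂ) ≠ 0 := ofReal_ne_zero.2 J.pos.ne'
  let p : ℝ → ℂ := fun r => δ * (emb x + r • (emb y - emb x))
  have pc : Continuous p := by fun_prop
  have sg : ∀ r ∈ Ico (0 : ℝ) 1, emb x + r • (emb y - emb x) ∈ segment ℝ (emb x) (emb y) :=
    fun r hr => by
      rw [segment_eq_image']
      exact ⟨r, Ico_subset_Icc_self hr, rfl⟩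
  have pD : ∀ r ∈ Ico (0 : ℝ) 1, p r ∈ Ψ '' ball 0 1 := fun r hr => by
    rw [J.im]
    change δ * (emb x + r • (emb y - emb x)) / δ ∈ L.dom
    rw [mul_div_cancel_left₀ _ d0]
    by_cases e : emb x + r • (emb y - emb x) = emb y
    · have e1 : (1 - r) • (emb y - emb x) = 0 := by
        rw [sub_smul, one_smul, sub_sub, e, sub_self]
      rw [(smul_eq_zero.1 e1).resolve_left (sub_pos.2 hr.2).ne', smul_zero, add_zero]
      exact hx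
    · exact (hj L).2.2.2 x hx y a _ (sg r hr) e
  have sub : inv Ψ '' (p '' Ico 0 1) ⊆ ball 0 1 \ c '' Icc 0 1 := by
    rintro _ ⟨_, ⟨r, hr, rfl⟩, rfl⟩
    refine ⟨(cf J.jm).mg (pD r hr), ?_⟩
    rintro ⟨s, hs, e⟩
    have e1 := hq s hs
    rw [e, (cf J.jm).fg _ (pD r hr)] at e1
    exact no s hs (mul_left_cancel₀ d0 e1 ▸ sg r hr)
  have pre : IsPreconnected (inv Ψ '' (p '' Ico 0 1)) :=
    (isPreconnected_Ico.image p pc.continuousOn).image _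
      ((cf J.jm).hg.continuousOn.mono (image_subset_iff.2 pD))
  have tp : Tendsto p (𝓝[<] 1) (𝓝[Ψ '' ball 0 1] (δ * emb y)) := by
    refine tendsto_nhdsWithin_iff.2 ⟨?_, mem_of_superset (Ico_mem_nhdsLT one_pos) pD⟩
    have := (pc.tendsto 1).mono_left (nhdsWithin_le_nhds (s := Iio 1))
    simpa [p] using this
  obtain ⟨r, r1, r2⟩ := ((tp.eventually hy).and (Ico_mem_nhdsLT (zero_lt_one' ℝ))).exists
  have hsub := hX _ pre sub ⟨_, ⟨_, ⟨r, r2, rfl⟩, rfl⟩, r1⟩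
  have z0 : (0 : ℝ) ∈ Ico (0 : ℝ) 1 := ⟨le_rfl, one_pos⟩
  have p0 : p 0 = δ * emb x := by simp [p]
  have m : inv Ψ (δ * emb x) ∈ inv Ψ '' (p '' Ico 0 1) := ⟨_, ⟨0, z0, p0⟩, rfl⟩
  have hO : IsOpen (ball 0 1 \ c '' Icc 0 1) :=
    isOpen_ball.sdiff (isCompact_Icc.image_of_continuousOn hc.cont).isClosed
  obtain ⟨e, he, hb⟩ := Metric.isOpen_iff.1 hO _ (sub m)
  have hb' := hX _ (convex_ball _ _).isPreconnected hb ⟨_, mem_ball_self he, hsub m⟩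
  exact ((cf J.jm).hg.continuousOn _ (p0 ▸ pD 0 z0)).tendsto
    (mem_of_superset (ball_mem_nhds _ he) hb')

theorem main (hj : S_jl) (hs : S_side) {L : LDom} {δ : ℝ} {Ψ : ℂ → ℂ} (J : JM L δ Ψ)
    {c q : ℝ → ℂ} (hc : DC c) (hq : ∀ s ∈ Icc (0 : ℝ) 1, Ψ (c s) = δ * q s) {σ : ℝ}
    (hσ : σ = 1 ∨ σ = -1) (e : ℕ → V) (A : Set V) (n : ℕ)
    (hA : ∀ y ∈ A, ∃ ζ ∈ sphere (0 : ℂ) 1, 0 < σ * ζ.im ∧ Ψ ζ = δ * emb y) (e0 : e 0 ∈ A)
    (st : ∀ i < n, e (i + 1) = e i ∨ Adj (e i) (e (i + 1))) (inn : ∀ i ≤ n, e i ∈ Fr L ∪ A)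
    (no : ∀ x ∈ e '' Iic n, ∀ y ∈ e '' Iic n, Adj x y → ∀ s ∈ Icc (0 : ℝ) 1,
      q s ∉ segment ℝ (emb x) (emb y)) :
    ∀ y ∈ A ∪ e '' Iic n, ∀ᶠ z in 𝓝[Ψ '' ball 0 1] (δ * emb y), inv Ψ z ∈ side c σ := by
  have b : ∀ y ∈ A, ∀ᶠ z in 𝓝[Ψ '' ball 0 1] (δ * emb y), inv Ψ z ∈ side c σ := fun y hy => by
    obtain ⟨ζ, h1, h2, h3⟩ := hA y hy
    rw [← h3]
    exact (base J.jm h1).eventually ((hs c σ hc hσ).2.2.1 ζ (by simpa using h1) h2)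
  rintro y (hy | ⟨i, hi, rfl⟩)
  · exact b y hy
  induction i with
  | zero => exact b _ e0
  | succ i ih =>
    have hi' : i ≤ n := (Nat.le_succ i).trans hi
    rcases st i hi with h | h
    · rw [h]
      exact ih hi'
    rcases inn _ hi with k | k
    · exact step hj J hc hq (hs c σ hc hσ).2.2.2 k h.symm
        (no _ ⟨_, hi, rfl⟩ _ ⟨_, hi', rfl⟩ h.symm) (ih hi')
    · exact b _ k

end Lr1

theorem s_lr1 (hj : S_jl) (hd : S_dc) (hs : S_side) : S_lr1 := by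
  intro L δ Ψ ε h J T σ y hy
  obtain ⟨hc, -, hq⟩ := hd L δ Ψ ε h J T
  have dis := disjoint_left.1 T.dis
  rcases hy with ⟨rfl, hy⟩ | ⟨rfl, hy⟩
  · refine Lr1.main hj hs J hc hq (Or.inl rfl) (fun i => (L.edge h i).1) (arcP L) _
      (fun y hy => by simpa using J.up y hy) ⟨0, L.k_pos, rfl⟩ T.stl T.inl ?_ y hy
    intro x hx y hy a s hs k
    obtain ⟨i, hi, -, e | e⟩ := T.cut x y a s hs k
    · exact dis (Or.inr hy) (Or.inr ⟨i, hi, congrArg Prod.snd e⟩)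
    · exact dis (Or.inr hx) (Or.inr ⟨i, hi, congrArg Prod.snd e⟩)
  · refine Lr1.main hj hs J hc hq (Or.inr rfl) (fun i => (L.edge h i).2) (arcM L) _
      (fun y hy => by simpa using J.lo y hy)
      ⟨L.N - 1, ⟨Nat.le_sub_one_of_lt L.k_lt, by have := L.three; omega⟩, rfl⟩ T.str T.inr ?_ y hy
    intro x hx y hy a s hs k
    obtain ⟨i, hi, -, e | e⟩ := T.cut x y a s hs k
    · exact dis (Or.inr ⟨i, hi, congrArg Prod.fst e⟩) (Or.inr hx)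
    · exact dis (Or.inr ⟨i, hi, congrArg Prod.fst e⟩) (Or.inr hy)

end Vale.Agent.P153.A2
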