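import Vale.Agent.P153.A2.Stm

/-! The input of the martingale argument. -/

open Set Filter Topology Metric Complex MeasureTheory
open scoped Real

noncomputable section
namespace Vale.Agent.P153.A2

open Vale.Agent.P164 (Pth HP Zf fi dom)
open Vale.Agent.P153.Wick (Fr arcP arcM CS Seq W_bv cc YY Qv cov inv)
open Vale.Agent.P153.SLE (DC Drv)
open Vale.Agent.P153.Drive (Run Near obsM obsQ)

namespace Main

theorem par {N : ℕ} (h : 0 < N) {m : ℕ} (hm : m ≤ N - 1) :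
    (m : ℝ) / N ∈ Icc 0 (((N - 1 : ℕ) : ℝ) / N) :=
  ⟨by positivity, by gcongr⟩

theorem lt_one {N : ℕ} (h : 0 < N) : ((N - 1 : ℕ) : ℝ) / N ∈ Ico (0 : ℝ) 1 :=
  ⟨by positivity, (div_lt_one (by positivity)).2 (by exact_mod_cast Nat.sub_lt h one_pos)⟩

theorem len_le {L : LDom} {ε : ℤ} {h h' : V → ℤ} {m : ℕ} (a : Lat L ε h)
    (e : ∀ i ≤ m, L.edge h' i = L.edge h i) (hm : L.len h ≤ m) : L.len h' ≤ L.len h :=
  Nat.sInf_le ((e _ hm).trans a.last)

end Main

open Main in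
theorem out_of (hb : Wick.S_bij) (hl : Wick.S_loc) (h2 : Wick.S_ld2) (hlat : S_lat) (hp : S_poly)
    (hdc : S_dc) (hdrv : S_drv) (hu : S_uniq) (hfin : S_fin) (hst : S_step) (hme : S_mesh)
    (hnu : S_nu) (hobs : S_obs) : Out := by
  intro ψ L δ ε Ψ K hψ hA hε hM hK
  have ex : ∀ n h, ∃ (τ : ℝ → ℝ) (W : Pth), JM (L n) (δ n) (Ψ n) → Lat (L n) ε h →
      Drv (cv (Ψ n) (L n) (δ n) h) ((((L n).len h - 1 : ℕ) : ℝ) / (L n).len h) τ W ∧
        ∀ t ≤ 0, W t = 0 := fun n h => by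
    by_cases a : JM (L n) (δ n) (Ψ n) ∧ Lat (L n) ε h
    · obtain ⟨τ, W, b⟩ := hdrv _ (hdc _ _ _ _ _ a.1 a.2).1 _ (lt_one a.2.pos)
      exact ⟨τ, W, fun _ _ => b⟩
    · exact ⟨0, 0, fun a1 a2 => (a ⟨a1, a2⟩).elim⟩
  choose τ W hW using ex
  have ev : ∀ᶠ n in atTop, ∀ h ∈ (L n).Hts ε, Lat (L n) ε h ∧ DC (cv (Ψ n) (L n) (δ n) h) ∧
      Drv (cv (Ψ n) (L n) (δ n) h) ((((L n).len h - 1 : ℕ) : ℝ) / (L n).len h) (τ n h) (W n h) ∧
      ∀ t ≤ 0, W n h t = 0 := by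
    filter_upwards [hM.2, hlat ψ L δ ε hψ hA hε] with n a b h hh
    exact ⟨b h hh, (hdc _ _ _ _ _ a (b h hh)).1, hW n h a (b h hh)⟩
  have fin : ∀ T R : ℝ, ∀ᶠ n in atTop, ∀ h ∈ (L n).Hts ε,
      ¬ Run T R (τ n h ((((L n).len h - 1 : ℕ) : ℝ) / (L n).len h)) (W n h) := fun T R => by
    obtain ⟨k, hk, hf⟩ := hfin T R
    filter_upwards [ev, hme ψ L δ Ψ hψ hA.2.1 hM (k / 2) (by positivity)] with n a b h hh r
    obtain ⟨a1, a2, a3, -⟩ := a h hh
    have e : ((((L n).len h - 1 : ℕ) : ℝ) + 1) / (L n).len h = 1 := by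
      rw [Nat.cast_pred a1.pos, sub_add_cancel, div_self (Nat.cast_pos.2 a1.pos).ne']
    have b1 := b ε h a1 _ (Nat.sub_lt a1.pos one_pos) 1 ⟨a3.S1.le, e.ge⟩
    have b2 := hf _ _ _ _ a2 a3 _ ⟨a3.S0, le_rfl⟩ r
    rw [a2.c1, norm_sub_rev] at b1
    linarith
  refine ⟨fun n h => (((L n).len h - 1 : ℕ) : ℝ) / (L n).len h, τ, W,
    fun n m h => τ n h ((min m ((L n).len h - 1) : ℕ) / (L n).len h),
    ev.mono fun n a h hh => ?_, fun n => ?_, hK.1, .of_forall fun n m h _ h' _ e => ?_,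
    ev.mono fun n a h hh => ?_, ev.mono fun n a m h hh h' hh' e => ?_,
    fun e he => ev.mono fun n a h hh => ?_, fun T R => (fin T R).mono fun n a h hh => ?_,
    fun T R e he => ?_, fun T R => ?_⟩
  · obtain ⟨a1, a2, a3, a4⟩ := a h hh
    exact ⟨a2, a3, a4, fun m => a3.mono.monotoneOn (par a1.pos (min_le_right _ _))
      ⟨a3.S0, le_rfl⟩ (par a1.pos (min_le_right _ _)).2⟩
  · obtain ⟨e, he, -⟩ := hb (L n) ε hε
    have := hl.1 _ (Wick.Sp (L n) ε) (h2 (L n)).1.1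
    exact he.image_eq ▸ ⟨this.1.image e, this.2.image e⟩
  · funext i
    have := congrFun e (min i m)
    simpa only [lab, min_eq_left ((min_le_right i m).trans m.le_succ)] using this
  · obtain ⟨a1, a2, a3, a4⟩ := a h hh
    refine ⟨by simpa using a3.t0, fun m => a3.mono.monotoneOn (par a1.pos (min_le_right _ _))
      (par a1.pos (min_le_right _ _)) ?_⟩
    gcongr
    omega
  · obtain ⟨a1, a2, a3, -⟩ := a h hh
    obtain ⟨b1, b2, b3, -⟩ := a h' hh'
    have e1 : ∀ i ≤ m, (L n).edge h' i = (L n).edge h i := fun i hi => by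
      simpa only [lab, min_eq_left hi] using congrFun e i
    have e2 := len_le a1 e1
    have e3 := len_le b1 fun i hi => (e1 i hi).symm
    have e4 : min m ((L n).len h' - 1) = min m ((L n).len h - 1) := by omega
    have p1 : (0 : ℝ) < (L n).len h := Nat.cast_pos.2 a1.pos
    have p2 : (0 : ℝ) < (L n).len h' := Nat.cast_pos.2 b1.pos
    have e5 : ((L n).len h : ℝ) / (L n).len h' * ((min m ((L n).len h - 1) : ℕ) / (L n).len h) =
        (min m ((L n).len h' - 1) : ℕ) / (L n).len h' := by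
      rw [e4]; field_simp
    have := hu _ _ _ _ _ _ _ _ _ _ a2 a3 b2 b3 (div_pos p1 p2) (par a1.pos (min_le_right m _))
      (e5 ▸ (par b1.pos (min_le_right m _)).2) fun v hv => by
        rw [cv, cv, gm, gm, (hp (mid (L n) h) _ a1.pos).2.2.2.2 (mid (L n) h') _ _ b1.pos (fun i hi => by
          rw [mid, mid, e1 i (hi.trans (min_le_left _ _))]) v hv]
    rwa [e5] at this
  · rw [(a h hh).2.2.1.W0, abs_zero]
    exact he.le
  · exact ⟨(L n).len h - 1, by simpa only [min_self] using a h hh⟩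
  · obtain ⟨ω, hω, hs⟩ := hst T R e he
    filter_upwards [ev, hme ψ L δ Ψ hψ hA.2.1 hM ω hω] with n a b h hh m r
    obtain ⟨a1, a2, a3, -⟩ := a h hh
    by_cases hm : m + 1 ≤ (L n).len h - 1
    · have p1 : (0 : ℝ) < (L n).len h := Nat.cast_pos.2 a1.pos
      simp only [min_eq_left hm, min_eq_left (m.le_succ.trans hm)] at r ⊢
      refine hs _ _ _ _ _ _ a2 a3 (by positivity) ?_ (par a1.pos hm).2 r fun v hv =>
        b ε h a1 m (by omega) v (by simpa using hv)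
      gcongr
      omega
    · have e1 : min (m + 1) ((L n).len h - 1) = min m ((L n).len h - 1) := by omega
      simp only [e1]
      exact ⟨by linarith, fun u hu => by
        rw [le_antisymm hu.2 hu.1, sub_self, abs_zero]; exact he.le⟩
  · obtain ⟨A, hA'⟩ := hobs ψ L δ ε Ψ K hψ hA hM hK T R
    refine ⟨A, fun w₀ w1 w2 => ?_⟩
    obtain ⟨w3, w4⟩ := hA' w₀ w1 w2
    obtain ⟨g, ν, hν⟩ := hnu ψ w₀ hψ w3
    refine ⟨ν, fun n h => Yo ε δ g n (toH h), Qv (ψ '' ball 0 1) (inv ψ) g, hν.near,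
      fun e he => ?_⟩
    filter_upwards [ev, fin T R, w4 g ν hν e he] with n a b c h hh m r
    obtain ⟨a1, a2, a3, -⟩ := a h hh
    have hm : m ≤ (L n).len h - 1 := le_of_not_ge fun x => b h hh (by
      simpa only [min_eq_right x] using r)
    simp only [min_eq_left hm] at r ⊢
    rw [Drive.cvar, a1.mark m (by omega) fun H => Yo ε δ g n H ^ 2, a1.mark m (by omega)]
    simpa only [cov, sq] using c h _ _ _ m a1 a3 (par a1.pos hm).2 r

end Vale.Agent.P153.A2
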