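import Vale.Agent.P153.A2.Stm

/-! The Jordan maps of the polygons. -/

open Set Filter Topology Metric Complex MeasureTheory
open scoped Real

noncomputable section
namespace Vale.Agent.P153.A2

open Vale.Agent.P153.CA (Cf Full cay icay JLoop inside circ Hyd)
open Vale.Agent.P153.Wick (Fr arcP arcM CS)

namespace Maps0

theorem scale {c : ℂ} (hc : c ≠ 0) {J : Set ℂ} {z : ℂ} (h : c * z ∈ inside J) :
    z ∈ inside {w | c * w ∈ J} := by
  refine ⟨h.1, ((h.2.smul₀ c⁻¹).subset fun w hw => ⟨c * w, ?_, by simp [hc]⟩)⟩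
  refine IsPreconnected.subset_connectedComponentIn
    (isPreconnected_connectedComponentIn.image (c * ·) (by fun_prop))
    ⟨_, mem_connectedComponentIn h.1, rfl⟩ ?_ ⟨w, hw, rfl⟩
  rintro _ ⟨u, hu, rfl⟩
  exact connectedComponentIn_subset {w | c * w ∈ J}ᶜ _ hu

theorem ins {c : ℂ} (hc : c ≠ 0) (J : Set ℂ) :
    inside {w | w / c ∈ J} = {w | w / c ∈ inside J} := by
  ext z
  refine ⟨fun h => ?_, fun h => ?_⟩
  · have := scale hc (J := {w | w / c ∈ J}) (z := z / c) (by rwa [mul_div_cancel₀ _ hc])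
    simpa only [mem_ofPred_eq, mul_div_cancel_left₀ _ hc, ofPred_mem_eq] using this
  · have := scale (inv_ne_zero hc) (J := J) (z := z) (by rwa [← div_eq_inv_mul])
    simpa only [← div_eq_inv_mul] using this

theorem half (he : Wick.S_emb) {x y : V} (h : Adj x y) {δ : ℝ} (hδ : 0 < δ) :
    ‖δ * ((emb x + emb y) / 2) - δ * emb y‖ ≤ δ := by
  have h1 : ‖emb (x - y)‖ ≤ 1 := (he.2.2.1 _).1.trans (by
    have : nrm (x - y) = 1 := by
      rw [adj_iff] at h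
      simp only [nrm, Prod.fst_sub, Prod.snd_sub]
      omega
    simp [this])
  have : (δ : ℂ) * ((emb x + emb y) / 2) - δ * emb y = δ * (emb (x - y) / 2) := by
    rw [he.2.1]; ring
  rw [this, norm_mul, norm_div, Complex.norm_real, Real.norm_of_nonneg hδ.le, Complex.norm_ofNat]
  nlinarith

theorem loop (hl : S_jl) (L : LDom) {δ : ℝ} (hδ : 0 < δ) (ρ : unitInterval ≃o unitInterval) :
    JLoop (fun t => δ * L.bd (ρ (projIcc 0 1 zero_le_one (Int.fract t)))) ∧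
    range (fun t => δ * L.bd (ρ (projIcc 0 1 zero_le_one (Int.fract t)))) =
      {z : ℂ | z / δ ∈ L.bd '' Icc 0 1} := by
  obtain ⟨h1, h2, -⟩ := hl L
  have hc : (δ : ℂ) ≠ 0 := by exact_mod_cast hδ.ne'
  have lt : ∀ t : ℝ, ((ρ (projIcc 0 1 zero_le_one (Int.fract t)) : unitInterval) : ℝ) ∈ Ico 0 1 :=
    fun t => ⟨(ρ _).2.1, by
      have : ρ (projIcc 0 1 zero_le_one (Int.fract t)) < ρ 1 := ρ.strictMono (by
        rw [projIcc_of_mem _ ⟨Int.fract_nonneg t, (Int.fract_lt_one t).le⟩]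
        exact Int.fract_lt_one t)
      rwa [show ρ 1 = 1 from ρ.map_top] at this⟩
  have e : (fun t => δ * L.bd (ρ (projIcc 0 1 zero_le_one (Int.fract t)))) =
      (fun s => δ * L.bd (Int.fract (ρ (projIcc 0 1 zero_le_one s) : ℝ))) ∘ Int.fract :=
    funext fun t => by simp only [Function.comp, Int.fract_eq_self.2 (lt t)]
  refine ⟨⟨⟨?_, fun t => by simp only [Int.fract_add_one]⟩, fun s hs t ht h => ?_⟩, ?_⟩
  · rw [e]
    refine ContinuousOn.comp_fract'' (Continuous.continuousOn (continuous_const.mul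
      (h1.cont.comp (continuous_subtype_val.comp (ρ.continuous.comp continuous_projIcc))))) ?_
    simp [show ρ 1 = 1 from ρ.map_top, show ρ 0 = 0 from ρ.map_bot]
  · have := h1.inj (lt s) (lt t) (by
      simpa only [Int.fract_eq_self.2 (lt _)] using mul_left_cancel₀ hc h)
    have := ρ.injective (Subtype.ext this)
    rwa [Int.fract_eq_self.2 hs, Int.fract_eq_self.2 ht, projIcc_of_mem _ (Ico_subset_Icc_self hs),
      projIcc_of_mem _ (Ico_subset_Icc_self ht), Subtype.mk.injEq] at this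
  · ext z
    refine ⟨?_, fun h => ?_⟩
    · rintro ⟨t, rfl⟩
      exact ⟨_, Ico_subset_Icc_self (lt t), by simp only [mul_div_cancel_left₀ _ hc]⟩
    · obtain ⟨t, ht⟩ := h2.ge h
      obtain ⟨u, hu⟩ := ρ.surjective ⟨Int.fract t, Int.fract_nonneg t, (Int.fract_lt_one t).le⟩
      have h3 : ((ρ u : unitInterval) : ℝ) = Int.fract t := congrArg Subtype.val hu
      have h4 : (u : ℝ) < 1 := ρ.lt_iff_lt.1 (show ρ u < ρ 1 by
        rw [show ρ 1 = 1 from ρ.map_top]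
        exact h3.trans_lt (Int.fract_lt_one t))
      refine ⟨u, ?_⟩
      simp only [Int.fract_eq_self.2 ⟨u.2.1, h4⟩, projIcc_val, h3]
      rw [show L.bd (Int.fract t) = z / δ from ht, mul_div_cancel₀ _ hc]

end Maps0

open Maps0 in
theorem s_maps0 (he : Wick.S_emb) (hs : Wick.S_arc) (hj : S_jmap) (hl : S_jl) : S_maps0 := by
  intro ψ L δ hψ hA e he0
  obtain ⟨ρ, hρ, H⟩ := hj ψ hψ e he0
  filter_upwards [hA.2.2.2 ρ hρ, hA.2.1.eventually (ge_mem_nhds (half_pos hρ)),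
    Metric.tendsto_nhds.1 (hs ψ L δ hψ hA).1 _ (half_pos hρ),
    Metric.tendsto_nhds.1 hA.2.2.1 _ (half_pos hρ)] with n ⟨r, hr⟩ b1 b2 b3
  have hδ := hA.1 n
  have hc : (δ n : ℂ) ≠ 0 := by exact_mod_cast hδ.ne'
  obtain ⟨l1, l2⟩ := loop hl (L n) hδ r
  have hk := (L n).k_pos
  have hN := (L n).k_lt
  have mem : ∀ i < (L n).N, δ n * ((emb ((L n).β i) + emb ((L n).β (i + 1))) / 2) ∈
      {z : ℂ | z / δ n ∈ (L n).bd '' Icc 0 1} := fun i hi => by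
    have : (i : ℝ) + 1 ≤ (L n).N := by exact_mod_cast hi
    refine ⟨(i + 1 / 2) / (L n).N, ⟨by positivity, div_le_one_of_le₀ (by linarith) (by positivity)⟩,
      ?_⟩
    rw [(hl (L n)).2.2.1 i hi, mul_div_cancel_left₀ _ hc]
  have m1 := mem ((L n).N - 1) (by omega)
  have m2 := mem ((L n).k - 1) (by omega)
  have a1 := half he ((L n).adj ((L n).N - 1) (by omega)) hδ
  have a2 := half he ((L n).adj ((L n).k - 1) (by omega)) hδ
  rw [Nat.sub_add_cancel (by omega), (L n).closed] at m1 a1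
  rw [Nat.sub_add_cancel hk] at m2 a2
  rw [dist_eq_norm] at b2 b3
  obtain ⟨Ψ, p1, p2, p3, p4, p5, p6⟩ := H _ _ _ l1 (fun t => by
    have := hr (projIcc 0 1 zero_le_one (Int.fract t))
    rw [projIcc_of_mem _ ⟨Int.fract_nonneg t, (Int.fract_lt_one t).le⟩, dist_eq_norm] at this
    have e1 := (CA.jloop_circ.per.sub_zsmul_eq (x := t) ⌊t⌋)
    rw [zsmul_eq_mul, mul_one] at e1
    rw [projIcc_of_mem _ ⟨Int.fract_nonneg t, (Int.fract_lt_one t).le⟩, ← e1]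
    exact this) (l2.ge m1) (l2.ge m2)
    (by linarith [norm_sub_le_norm_sub_add_norm_sub (δ n * ((emb ((L n).β ((L n).N - 1)) +
      emb ((L n).β 0)) / 2)) (δ n * emb ((L n).β 0)) (ψ (-1))])
    (by linarith [norm_sub_le_norm_sub_add_norm_sub (δ n * ((emb ((L n).β ((L n).k - 1)) +
      emb ((L n).β (L n).k)) / 2)) (δ n * emb ((L n).β (L n).k)) (ψ 1)])
  exact ⟨Ψ, p1, by rw [p2, l2, ins hc]; rfl, p3.trans l2, by rw [p4, add_comm], p5, p6⟩

theorem s_maps (h1 : Wick.S_ld1) (hs : Wick.S_arc) (hc : Wick.S_conf) (h0 : S_maps0)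
    (ha : S_arcs) : S_maps := by
  classical
  intro ψ L δ hψ hA
  obtain ⟨-, a2, a3⟩ := hs ψ L δ hψ hA
  obtain ⟨ρ, hρ, a3⟩ := a3 1 one_pos
  obtain ⟨d, hd, hu⟩ := (hc ψ hψ).2.2.2.2.2.1 (1 / 2) (by norm_num)
  obtain ⟨P, hP⟩ : ∃ P : ℕ → ℕ → (ℂ → ℂ) → Prop, P = fun n (j : ℕ) Ψ => IsJordanMap Ψ ∧
      Ψ '' ball 0 1 = {z : ℂ | z / δ n ∈ (L n).dom} ∧
      Ψ '' sphere 0 1 = {z : ℂ | z / δ n ∈ (L n).bd '' Icc 0 1} ∧
      Ψ (-1) = δ n * ((emb ((L n).β 0) + emb ((L n).β ((L n).N - 1))) / 2) ∧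
      Ψ 1 = δ n * ((emb ((L n).β ((L n).k - 1)) + emb ((L n).β (L n).k)) / 2) ∧
      ∀ z ∈ closedBall (0 : ℂ) 1, ‖Ψ z - ψ z‖ ≤ 1 / ((j : ℝ) + 1) := ⟨_, rfl⟩
  have ex : ∀ n, ∃ Ψ, ∀ j ≤ n, (∃ Φ, P n j Φ) → P n j Ψ := fun n => by
    by_cases h : ∃ j ≤ n, ∃ Φ, P n j Φ
    · obtain ⟨i, hi, h⟩ := h
      obtain ⟨Φ, hΦ⟩ := Nat.findGreatest_spec (P := fun j => ∃ Φ, P n j Φ) hi h
      refine ⟨Φ, fun j hj hj' => ?_⟩
      have := Nat.le_findGreatest (P := fun j => ∃ Φ, P n j Φ) hj hj'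
      generalize Nat.findGreatest (fun j => ∃ Φ, P n j Φ) n = l at hΦ this
      rw [hP] at hΦ ⊢
      exact ⟨hΦ.1, hΦ.2.1, hΦ.2.2.1, hΦ.2.2.2.1, hΦ.2.2.2.2.1, fun z hz =>
        (hΦ.2.2.2.2.2 z hz).trans (Nat.one_div_le_one_div this)⟩
    · exact ⟨id, fun j hj hj' => (h ⟨j, hj, hj'⟩).elim⟩
  choose Ψ hΨ using ex
  have ev : ∀ j, ∀ᶠ n in atTop, P n j (Ψ n) := fun j => by
    filter_upwards [h0 ψ L δ hψ hA _ (Nat.one_div_pos_of_nat (n := j)), eventually_ge_atTop j]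
      with n b1 b2
    exact hΨ n j b2 (hP ▸ b1)
  rw [hP] at ev
  refine ⟨Ψ, Metric.tendstoUniformlyOn_iff.2 fun e he => ?_, ?_⟩
  · obtain ⟨j, hj⟩ := exists_nat_one_div_lt he
    refine (ev j).mono fun n b z hz => ?_
    rw [dist_comm, dist_eq_norm]
    exact (b.2.2.2.2.2 z hz).trans_lt hj
  obtain ⟨j, hj⟩ := exists_nat_one_div_lt (half_pos hd)
  filter_upwards [ev j, a3, a2 (min ρ (d / 2)) (by positivity)] with n ⟨b1, b2, b3, b4, b5, b6⟩ c1 c2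
  have hδ := hA.1 n
  have hc : (δ n : ℂ) ≠ 0 := by exact_mod_cast hδ.ne'
  have key : ∀ σ : ℝ, σ = 1 ∨ σ = -1 → ∃ i < (L n).N, (i < (L n).k ↔ 0 < σ) ∧
      ∃ ζ ∈ sphere (0 : ℂ) 1, 0 < σ * ζ.im ∧ Ψ n ζ = δ n * emb ((L n).β i) := fun σ hσ => by
    have s0 : σ * σ = 1 := by rcases hσ with rfl | rfl <;> norm_num
    have s1 : (σ * I : ℂ) ∈ sphere (0 : ℂ) 1 := by rcases hσ with rfl | rfl <;> simp
    obtain ⟨i, hi, d1⟩ := c2 _ s1
    obtain ⟨ζ, z1, z2⟩ := b3.ge (show (δ n * emb ((L n).β i) : ℂ) ∈ _ from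
      ⟨i / (L n).N, ⟨by positivity, div_le_one_of_le₀ (by exact_mod_cast hi.le) (by positivity)⟩, by
        rw [(h1 (L n)).2.1 i hi.le, mul_div_cancel_left₀ _ hc]⟩)
    refine ⟨i, hi, by
      simpa using c1 _ s1 (by simpa using abs_re_le_norm (σ * I - 1))
        (by simpa using abs_re_le_norm (σ * I + 1)) i hi (d1.trans (min_le_left _ _)), ζ, z1, ?_, z2⟩
    have d2 := (hu ζ (sphere_subset_closedBall z1) _ (sphere_subset_closedBall s1)).2 (by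
      have := b6 ζ (sphere_subset_closedBall z1)
      have := norm_sub_le_norm_sub_add_norm_sub (ψ ζ) (Ψ n ζ) (ψ (σ * I))
      rw [norm_sub_rev (ψ ζ) (Ψ n ζ)] at this
      rw [← z2] at d1
      rw [dist_eq_norm]
      linarith [min_le_right ρ (d / 2)])
    have d3 := abs_le.1 ((abs_im_le_norm _).trans (dist_eq_norm ζ _ ▸ d2))
    simp only [sub_im, mul_im, ofReal_re, I_im, mul_one, ofReal_im, I_re, mul_zero, add_zero] at d3
    rcases hσ with rfl | rfl <;> linarith [d3.1, d3.2]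
  obtain ⟨i, i1, i2, i3⟩ := key 1 (.inl rfl)
  obtain ⟨i', i1', i2', i3'⟩ := key (-1) (.inr rfl)
  refine ⟨hδ, b1, b2, b3, b4, b5, fun y hy => ?_, fun y hy => ?_⟩
  · simpa only [one_mul] using ha _ _ _ hδ b1 b3 b4 b5 _ 1 (.inl rfl)
      ⟨_, ⟨i, i2.2 one_pos, rfl⟩, i3⟩ y hy
  · simpa only [neg_mul, one_mul, neg_pos] using ha _ _ _ hδ b1 b3 b4 b5 _ (-1) (.inr rfl)
      ⟨_, ⟨i', ⟨not_lt.1 fun h => by linarith [i2'.1 h], i1'⟩, rfl⟩, i3'⟩ y hy

end Vale.Agent.P153.A2
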