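import Vale.Agent.P153.A2.Stm
import Vale.Agent.P153.Wick.Emb
import Vale.Agent.P153.Wick.Ld1
import Vale.Agent.P153.Wick.Ld2

/-! The geometry of the slit domains at one mesh. -/

open Set Filter Topology Metric Complex MeasureTheory
open scoped Real

noncomputable section
namespace Vale.Agent.P153.A2

open Vale.Agent.P164 (Pth HP Zf fi dom)
open Vale.Agent.P153.CA (Cf Full cay icay JLoop inside circ Hyd)
open Vale.Agent.P153.Wick (Fr arcP arcM CS Seq W_bv cc YY Qv cov inv)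
open Vale.Agent.P153.SLE (DC Drv)
open Vale.Agent.P153.Drive (Run Near obsM obsQ)
open Vale.Agent.P071 (Test g0)

namespace Ms

theorem adj_le {x y : V} (h : Adj x y) : ‖emb y - emb x‖ ≤ 1 := by
  have := Wick.Emb.norm_le (y - x)
  rwa [Wick.Emb.emb_sub, adj_iff_nrm.1 h, Nat.cast_one] at this

theorem mid_le {x y : V} (h : Adj x y) : ‖(emb x + emb y) / 2 - emb x‖ ≤ 1 / 2 := by
  rw [show (emb x + emb y) / 2 - emb x = (emb y - emb x) / 2 by ring, norm_div, Complex.norm_two]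
  linarith [adj_le h]

theorem mid_le' {x y : V} (h : Adj x y) : ‖(emb x + emb y) / 2 - emb y‖ ≤ 1 / 2 := by
  rw [add_comm]
  exact mid_le h.symm

theorem sc {δ r : ℝ} (hδ : 0 < δ) {a b : ℂ} (h : ‖a - b‖ ≤ r) : ‖δ * a - δ * b‖ ≤ r * δ := by
  rw [← mul_sub, Wick.Emb.scale hδ, mul_comm]
  exact mul_le_mul_of_nonneg_right h hδ.le

theorem big {δ d : ℝ} (hδ : 0 < δ) {a b u v : ℂ} (p : ℂ) (h1 : ‖a - u‖ ≤ 1 / 2 * δ)
    (h2 : ‖b - v‖ ≤ 1 / 2 * δ) (h : 2 * d + 2 * δ ≤ ‖b - a‖) : d ≤ ‖u - p‖ ∨ d ≤ ‖v - p‖ := by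
  by_contra hc
  push Not at hc
  have e : b - a = (b - v) + (v - p) - ((a - u) + (u - p)) := by ring
  have := norm_sub_le ((b - v) + (v - p)) ((a - u) + (u - p))
  rw [← e] at this
  linarith [norm_add_le (b - v) (v - p), norm_add_le (a - u) (u - p), hc.1, hc.2]

end Ms

open Ms in
theorem s_ms (hj : S_jl) (hp : S_poly) (hw : S_walls) (hd : S_dc) (hf : S_cf) (hu : S_full)
    (hl : S_lr) : S_ms := by
  intro L δ Ψ ε h S τ W m R d J hL hD hm hR hb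
  have hδ := J.pos
  have hδ' : (δ : ℂ) ≠ 0 := ofReal_ne_zero.2 hδ.ne'
  have hn : (0 : ℝ) < L.len h := Nat.cast_pos.2 hL.pos
  obtain ⟨dc, -, hc⟩ := hd L δ Ψ ε h J hL
  have s0 : (0 : ℝ) ≤ m / L.len h := by positivity
  have s1 : (m : ℝ) / L.len h < 1 := hm.trans_lt hD.S1
  have hmn : m < L.len h := by exact_mod_cast (div_lt_one hn).1 s1
  obtain ⟨-, -, f3, f4, f5⟩ := hf Ψ _ S τ W J.jm dc hD _ ⟨s0, hm⟩
  obtain ⟨-, p2, p3, p4, -⟩ := hp (mid L h) (L.len h) hL.pos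
  obtain ⟨-, -, a1, a2, -⟩ := Wick.s_ld2 Wick.s_emb Wick.s_ld1 L
  have hle : ∀ i : ℕ, (i : ℝ) / L.len h ≤ m / L.len h ↔ i ≤ m := fun i => by
    rw [div_le_div_iff_of_pos_right hn, Nat.cast_le]
  have hc' : ∀ v ∈ Icc (0 : ℝ) (m / L.len h),
      Ψ (cv Ψ L δ h v) = δ * poly (mid L h) (L.len h) v :=
    fun v hv => hc v ⟨hv.1, hv.2.trans s1.le⟩
  have hΩ : ∀ w : ℂ, δ * w ∈ om Ψ (cv Ψ L δ h) (m / L.len h) ↔
      w ∈ L.dom ∧ ∀ v ∈ Icc (0 : ℝ) (m / L.len h), poly (mid L h) (L.len h) v ≠ w := fun w => by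
    rw [f4, J.im, Set.mem_sdiff, mem_ofPred_eq, mul_div_cancel_left₀ _ hδ']
    refine and_congr_right fun _ => ⟨fun k v hv e => k ⟨v, hv, (hc' v hv).trans (by rw [e])⟩, ?_⟩
    rintro k ⟨v, hv, e⟩
    exact k v hv (mul_left_cancel₀ hδ' ((hc' v hv).symm.trans e))
  have nl : ∀ i ≤ m, (L.edge h i).1 ∉ Fm L h m := fun i hi k => k.2 (.inl (.inr ⟨i, hi, rfl⟩))
  have nr : ∀ i ≤ m, (L.edge h i).2 ∉ Fm L h m := fun i hi k => k.2 (.inr (.inr ⟨i, hi, rfl⟩))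
  have miss : ∀ x ∈ Fm L h m, ∀ y, Adj x y → ∀ w ∈ segment ℝ (emb x) (emb y),
      ∀ v ∈ Icc (0 : ℝ) (m / L.len h), poly (mid L h) (L.len h) v ≠ w := by
    rintro x hx y hxy w hw v hv rfl
    obtain ⟨i, -, rfl, e | e⟩ := hL.cut x y hxy v ⟨hv.1, hv.2.trans s1.le⟩ hw
    · exact nl i ((hle i).1 hv.2) (by rwa [e])
    · exact nr i ((hle i).1 hv.2) (by rwa [e])
  have nm : ∀ i ≤ m, δ * mid L h i ∉ om Ψ (cv Ψ L δ h) (m / L.len h) := fun i hi k =>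
    ((hΩ _).1 k).2 (i / L.len h) ⟨by positivity, (hle i).2 hi⟩ (p2 i (by omega))
  have k0 := L.k_pos
  have k1 := L.k_lt
  have b0 : Adj (L.β 0) (L.β (L.N - 1)) := by
    have := L.adj (L.N - 1) (by omega)
    rw [Nat.sub_add_cancel (by omega), L.closed] at this
    exact this.symm
  have b1 : Adj (L.β (L.k - 1)) (L.β L.k) := by
    have := L.adj (L.k - 1) (by omega)
    rwa [Nat.sub_add_cancel k0] at this
  rw [J.a, J.b] at hb
  obtain ⟨t1, t2⟩ := hl L δ Ψ ε h S τ W m J hL hD hm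
  refine ⟨hw L ε h hL m hmn.le, f3, hu Ψ _ _ J.jm dc ⟨s0, s1.le⟩,
    (image_mono sdiff_subset).trans hR, fun p => ?_, fun p => ?_, fun x hx => ?_,
    fun x hx y hy hxy => ?_, fun x hx => ?_, fun w hw => ?_, t1, t2⟩
  · rcases big hδ p (sc hδ (mid_le b0)) (sc hδ (mid_le b1)) hb with k | k
    · exact ⟨_, .inl ⟨0, k0, rfl⟩, k⟩
    · exact ⟨_, .inl ⟨L.k - 1, Nat.sub_lt k0 one_pos, rfl⟩, k⟩
  · rcases big hδ p (sc hδ (mid_le' b0)) (sc hδ (mid_le' b1)) hb with k | k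
    · exact ⟨_, .inl ⟨L.N - 1, ⟨by omega, by omega⟩, rfl⟩, k⟩
    · exact ⟨_, .inl ⟨L.k, ⟨le_rfl, k1⟩, rfl⟩, k⟩
  · exact (hΩ _).2 ⟨hx.1, miss x hx (x + (1, 0)) (by simp [Adj]) _ (left_mem_segment _ _ _)⟩
  · rintro z ⟨a, b, ha, hb, hab, rfl⟩
    have hs : a • emb x + b • emb y ∈ segment ℝ (emb x) (emb y) := ⟨a, b, ha, hb, hab, rfl⟩
    rw [← mul_smul_comm, ← mul_smul_comm, ← mul_add]
    refine (hΩ _).2 ⟨?_, miss x hx y hxy _ hs⟩
    by_cases e : a • emb x + b • emb y = emb y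
    · rw [e]
      exact hy.1
    · exact (hj L).2.2.2 x hx.1 y hxy _ hs e
  · by_cases hF : x ∈ Fr L
    · have hx' : x ∈ lA L h m ∪ rB L h m := by_contra fun k => hx ⟨hF, k⟩
      rcases hx' with (k | ⟨i, hi, rfl⟩) | k | ⟨i, hi, rfl⟩
      · exact absurd hF (a1 k)
      · exact ⟨_, nm i hi, (sc hδ (mid_le (hL.adj i (hi.trans hmn.le)))).trans (by linarith)⟩
      · exact absurd hF (a2 k)
      · exact ⟨_, nm i hi, (sc hδ (mid_le' (hL.adj i (hi.trans hmn.le)))).trans (by linarith)⟩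
    · exact ⟨_, fun k => hF ((hΩ _).1 k).1, by simpa using hδ.le⟩
  · rcases f5 hw with k | ⟨v, hv, rfl⟩
    · rw [J.bd] at k
      obtain ⟨t, ht, e⟩ := k
      obtain ⟨i, hi, k⟩ := (Wick.s_ld1 L).2.2.1 t ht
      refine ⟨L.β i, fun q => ?_, ?_⟩
      · rcases lt_or_ge i L.k with r | r
        exacts [a1 ⟨i, r, rfl⟩ q.1, a2 ⟨i, ⟨r, hi⟩, rfl⟩ q.1]
      · have := sc hδ k
        rw [e, mul_div_cancel₀ _ hδ'] at this
        linarith
    · obtain ⟨i, hi, k⟩ := p4 v ⟨hv.1, hv.2.trans s1.le⟩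
      refine ⟨_, nl i ((hle i).1 (k.1.trans hv.2)), ?_⟩
      simp only [hc' v hv]
      refine sc hδ (mem_closedBall_iff_norm.1 ((convex_closedBall _ _).segment_subset
        (mem_closedBall_iff_norm.2 ((mid_le (hL.adj i hi.le)).trans (by norm_num)))
        (mem_closedBall_iff_norm.2 ?_) (p3 i hi v k)))
      have q1 := mid_le (hL.adj (i + 1) hi)
      have q2 : ‖emb (L.edge h (i + 1)).1 - emb (L.edge h i).1‖ ≤ 1 := by
        rcases hL.stl i hi with e | e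
        · simp [e]
        · exact adj_le e
      exact (norm_sub_le_norm_sub_add_norm_sub _ _ _).trans ((add_le_add q1 q2).trans (by norm_num))

end Vale.Agent.P153.A2
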