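import Vale.Agent.P153.A2.Stm

/-! The limit of the conformal maps is not constant. -/

open Set Filter Topology Metric Complex

noncomputable section
namespace Vale.Agent.P153.A2

open Vale.Agent.P164 (Pth HP Zf fi dom)
open Vale.Agent.P153.CA (cay icay)

theorem s_nd2 (hA : P164.FlowAStmt) (hB : P164.ConfBStmt) (hc : S_cay) (hb : SLE.S_bnd) : S_nd := by
  intro ψ T R hψ
  obtain ⟨C, hC0, hC⟩ : ∃ C : ℝ, 0 ≤ C ∧ 2 * T + 3 * R + 2 ≤ C := ⟨_, abs_nonneg _, le_abs_self _⟩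
  let K : Set ℂ := closedBall 0 (3 * C + 2) ∩ {z | 1 ≤ z.im}
  have hK : IsCompact K := (isCompact_closedBall _ _).inter_right
    (isClosed_le continuous_const continuous_im)
  have hP : K ⊆ HP := fun z hz => lt_of_lt_of_le (one_pos : (0 : ℝ) < 1) (show 1 ≤ z.im from hz.2)
  have m : MapsTo cay K (closedBall 0 1) := fun z hz => ball_subset_closedBall (hc.1.mf (hP hz))
  have c1 : ContinuousOn (fun z => ψ (cay z)) K := hψ.1.comp (hc.1.hf.continuousOn.mono hP) m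
  have c2 : ContinuousOn (fun p : ℂ × ℂ => ‖ψ (cay p.1) - ψ (cay p.2)‖) (K ×ˢ K) :=
    ((c1.comp continuousOn_fst fun p hp => hp.1).sub (c1.comp continuousOn_snd fun p hp => hp.2)).norm
  have c3 : IsCompact (K ×ˢ K ∩ {p : ℂ × ℂ | 1 ≤ ‖p.1 - p.2‖}) :=
    (hK.prod hK).inter_right (isClosed_le continuous_const (by fun_prop))
  obtain ⟨c, c0, h⟩ := c3.exists_forall_le' (a := 0) (c2.mono inter_subset_left) fun p hp =>
    norm_pos_iff.2 (sub_ne_zero.2 fun e => by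
      have := hc.1.inj (hP hp.1.1) (hP hp.1.2) (hψ.2.1 (m hp.1.1) (m hp.1.2) e)
      have h1 : 1 ≤ ‖p.1 - p.2‖ := hp.2
      rw [this, sub_self, norm_zero] at h1
      linarith)
  have hy : ∀ y : ℝ, 1 ≤ y → (y * I : ℂ) ∈ HP := fun y h => by
    simpa [HP] using lt_of_lt_of_le one_pos h
  refine ⟨_, hc.1.mf (hy 1 le_rfl), _, hc.1.mf (hy (2 * C + 2) (by linarith)), c / 3,
    by positivity, fun Ψ W t h1 h2 h3 => ?_⟩
  have key : ∀ y : ℝ, 1 ≤ y → y ≤ 2 * C + 2 →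
      fi W t (y * I) ∈ K ∧ ‖fi W t (y * I) - y * I‖ ≤ C := fun y y1 y2 => by
    obtain ⟨a1, a2⟩ := hB.right W t _ h2 (hy y y1)
    have a3 := (hb W t R _ h3.2).1 t ⟨h2, le_rfl⟩ a1
    have a4 := h3.2 t ⟨h2, le_rfl⟩
    have a5 := hA.Y_anti W (fi W t (y * I)) h2
    simp only [P164.Yf, a2, (hA.init W _ a1.1).2.1] at a5
    rw [a2] at a3
    have a6 : ‖fi W t (y * I) - y * I‖ ≤ C := by
      have := norm_sub_le ((W t : ℝ) : ℂ) (y * I + W t - fi W t (y * I))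
      rw [show ((W t : ℝ) : ℂ) - (y * I + W t - fi W t (y * I)) = fi W t (y * I) - y * I by ring,
        Complex.norm_real, Real.norm_eq_abs] at this
      linarith [h3.1]
    refine ⟨⟨mem_closedBall_zero_iff.2 ?_, y1.trans (by simpa using a5)⟩, a6⟩
    have := norm_sub_norm_le (fi W t (y * I)) (y * I)
    rw [norm_mul, norm_I, mul_one, Complex.norm_real, Real.norm_of_nonneg (by linarith)] at this
    linarith
  obtain ⟨k1, k2⟩ := key 1 le_rfl (by linarith)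
  obtain ⟨k3, k4⟩ := key (2 * C + 2) (by linarith) le_rfl
  rw [fm, fm, hc.1.gf _ (hy 1 le_rfl), hc.1.gf _ (hy _ (by linarith))]
  generalize fi W t ((1 : ℝ) * I) = a at *
  generalize fi W t ((2 * C + 2 : ℝ) * I) = b at *
  have h4 : c ≤ ‖ψ (cay a) - ψ (cay b)‖ := h (a, b) ⟨⟨k1, k3⟩, show 1 ≤ ‖a - b‖ by
    have b1 := (abs_le.1 ((abs_im_le_norm _).trans k2)).2
    have b2 := (abs_le.1 ((abs_im_le_norm _).trans k4)).1
    refine le_trans ?_ ((neg_le_abs _).trans (abs_im_le_norm _))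
    simp only [sub_im, mul_im, ofReal_re, I_im, mul_one, ofReal_im, I_re, mul_zero,
      add_zero] at b1 b2 ⊢
    linarith⟩
  have h5 := dist_triangle4 (ψ (cay a)) (Ψ (cay a)) (Ψ (cay b)) (ψ (cay b))
  rw [dist_comm (ψ _) (Ψ _)] at h5
  simp only [dist_eq_norm] at h5
  linarith [h1 _ (m k1), h1 _ (m k3)]

end Vale.Agent.P153.A2
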