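import Vale.Agent.P153.A2.Stm
import Vale.Agent.P153.CA.Inv

/-! A test function and its image measure in the half plane. -/

open Set Filter Topology Metric Complex MeasureTheory
open scoped Real

noncomputable section
namespace Vale.Agent.P153.A2

open Vale.Agent.P164 (Pth HP Zf fi dom)
open Vale.Agent.P153.CA (Cf Full cay icay JLoop inside circ Hyd)
open Vale.Agent.P153.Wick (Fr arcP arcM CS Seq W_bv cc YY Qv cov inv)
open Vale.Agent.P153.SLE (DC Drv)
open Vale.Agent.P153.Drive (Run Near obsM obsQ)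
open Vale.Agent.P071 (Test g0)

namespace Nu

theorem bump {U : Set ℂ} (hU : IsOpen U) {x : ℂ} (hx : x ∈ U) :
    ∃ g : ℂ → ℝ, Test U g ∧ (∀ z, 0 ≤ g z) ∧ ∫ z, g z = 1 := by
  obtain ⟨r, hr, h⟩ := Metric.isOpen_iff.1 hU x hx
  let b : ContDiffBump x := ⟨r / 4, r / 2, by positivity, by linarith⟩
  refine ⟨b.normed volume, ⟨b.contDiff_normed, b.hasCompactSupport_normed, ?_⟩,
    b.nonneg_normed, b.integral_normed⟩
  rw [b.tsupport_normed_eq]
  exact (closedBall_subset_ball (half_lt_self hr)).trans h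

theorem push {U K : Set ℂ} (hU : IsOpen U) (hK : IsClosed K) {P : ℂ → ℂ} (hP : ContinuousOn P U)
    (hm : MapsTo P U K) {w : ℂ} (hw : w ∈ K) {g : ℂ → ℝ} (hg : Test U g) (h0 : ∀ z, 0 ≤ g z)
    (h1 : ∫ z, g z = 1) : ∃ ν : Measure ℂ, IsProbabilityMeasure ν ∧ (∀ᵐ z ∂ν, z ∈ K) ∧
      ∀ G : ℂ → ℝ, ContinuousOn G K → ∫ w, G w ∂ν = ∫ z, G (P z) * g z := by
  classical
  have hc : Continuous g := hg.1.continuous
  have hQ : Measurable (U.piecewise P fun _ => w) :=
    hP.measurable_piecewise continuousOn_const hU.measurableSet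
  have hQK : ∀ z, U.piecewise P (fun _ => w) z ∈ K := fun z => by
    by_cases hz : z ∈ U
    · rw [piecewise_eq_of_mem _ _ _ hz]
      exact hm hz
    · rwa [piecewise_eq_of_notMem _ _ _ hz]
  have hd : Measurable fun z => (g z).toNNReal := hc.measurable.real_toNNReal
  have hμ : IsProbabilityMeasure (volume.withDensity fun z => ((g z).toNNReal : ENNReal)) := by
    constructor
    rw [withDensity_apply _ MeasurableSet.univ, Measure.restrict_univ]
    have := ofReal_integral_eq_lintegral_ofReal (μ := volume)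
      (hc.integrable_of_hasCompactSupport hg.2.1) (Eventually.of_forall h0)
    rw [h1, ENNReal.ofReal_one] at this
    exact this.symm
  have ha : ∀ᵐ z ∂(Measure.map (U.piecewise P fun _ => w)
      (volume.withDensity fun z => ((g z).toNNReal : ENNReal))), z ∈ K :=
    (ae_map_iff hQ.aemeasurable hK.measurableSet).2 (Eventually.of_forall hQK)
  refine ⟨_, Measure.isProbabilityMeasure_map hQ.aemeasurable, ha, fun G hG => ?_⟩
  have h2 := hG.aestronglyMeasurable (μ := Measure.map (U.piecewise P fun _ => w)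
    (volume.withDensity fun z => ((g z).toNNReal : ENNReal))) hK.measurableSet
  rw [Measure.restrict_eq_self_of_ae_mem ha] at h2
  rw [integral_map hQ.aemeasurable h2, integral_withDensity_eq_integral_smul hd]
  refine integral_congr_ae (Eventually.of_forall fun z => ?_)
  beta_reduce
  rw [NNReal.smul_def, Real.coe_toNNReal _ (h0 z), smul_eq_mul, mul_comm]
  by_cases hz : z ∈ U
  · rw [piecewise_eq_of_mem _ _ _ hz]
  · rw [image_eq_zero_of_notMem_tsupport fun h => hz (hg.2.2 h), mul_zero, mul_zero]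

end Nu

theorem s_nu (hc : S_cay) : S_nu := by
  intro ψ w₀ hψ hw
  have hs : ball w₀ 1 ⊆ HP := fun z hz => by
    have h1 := (abs_im_le_norm (z - w₀)).trans_lt (mem_ball_iff_norm.1 hz)
    rw [sub_im, abs_lt] at h1
    change 0 < z.im
    linarith [h1.1]
  have h1 := hc.1.restrict isOpen_ball hs
  have h2 := (CA.s_inv _ ψ isOpen_ball hψ.2.2 (hψ.2.1.mono ball_subset_closedBall)).restrict h1.oV
    (hc.1.mf.mono_left hs).image_subset
  have h3 := h1.trans h2
  obtain ⟨g, hg, h0, hi⟩ := Nu.bump h3.oV (h3.mf (mem_ball_self one_pos))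
  obtain ⟨ν, k1, k2, k3⟩ := Nu.push h3.oV isClosed_closedBall h3.hg.continuousOn
    (h3.mg.mono_right ball_subset_closedBall) (mem_closedBall_self zero_le_one) hg h0 hi
  exact ⟨g, ν, hg, h0, hi, ⟨k1, k2.mono fun z hz => mem_closedBall_iff_norm.1 hz⟩, k3⟩

end Vale.Agent.P153.A2
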