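import Vale.Agent.P153.A2.Stm

/-! The observables in the slit domains. -/

open Set Filter Topology Metric Complex MeasureTheory
open scoped Real

noncomputable section
namespace Vale.Agent.P153.A2

open Vale.Agent.P164 (Pth HP Zf fi dom)
open Vale.Agent.P153.CA (Cf Full cay icay JLoop inside circ Hyd)
open Vale.Agent.P153.Wick (Fr arcP arcM CS Seq W_bv cc YY Qv cov inv)
open Vale.Agent.P153.SLE (DC Drv)
open Vale.Agent.P153.Drive (Run Near obsM obsQ)
open Vale.Agent.P071 (Test g0)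

namespace Obs

theorem cov_flip {S : Set Cfg} (h : Good S) (Y : Cfg → ℝ) :
    cov S (fun H => 1 - Y H) (fun H => 1 - Y H) = cov S Y Y := by
  have : (fun H => (1 - Y H) * (1 - Y H)) = fun H => (1 - 2 * Y H) + Y H * Y H := by
    ext; ring
  simp only [cov, this, Ex_add, Ex_sub, Ex_mul_left, Ex_const h]
  ring

theorem int_uu (hc : S_cay) {D : Set ℂ} {ψ φ : ℂ → ℂ} (h : Cf (ball 0 1) D ψ φ) {g : ℂ → ℝ}
    (hg : Test D g) : Integrable fun z => uu (φ z) * g z := by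
  have h1 : ContinuousOn (fun z => uu (φ z)) D := fun z hz =>
    (((continuousAt_arg (Or.inr (ne_of_gt (hc.1.mg (h.mg hz))))).comp_of_eq
      ((hc.1.cg (h.mg hz)).comp (h.cg hz)) rfl).div_const _).continuousWithinAt
  refine (integrableOn_iff_integrable_of_support_subset (s := tsupport g) fun z hz =>
    subset_tsupport _ (right_ne_zero_of_mul hz)).1 ?_
  exact ((h1.mono hg.2.2).mul hg.1.continuous.continuousOn).integrableOn_compact hg.2.1

theorem slit (hc : S_cay) {Ψ : ℂ → ℂ} {c : ℝ → ℂ} {S s : ℝ} {τ : ℝ → ℝ} {W : Pth}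
    (hΨ : IsJordanMap Ψ) (hd : DC c) (h : Drv c S τ W) (hs : s ∈ Icc 0 S) {w : ℂ}
    (hw : w ∈ dom W (τ s)) : Ψ (cay w) ∈ om Ψ c s ∧ pm Ψ W (τ s) (Ψ (cay w)) = cay (Zf W (τ s) w) := by
  rw [h.dom s hs] at hw
  have h1 := hc.1.mf hw.1
  have h2 := hc.1.gf w hw.1
  refine ⟨⟨_, ⟨h1, fun ⟨v, hv, e⟩ => ?_⟩, rfl⟩, ?_⟩
  · rcases hv.1.eq_or_lt with rfl | h3
    · rw [← e, hd.c0] at h1
      simp at h1
    · exact hw.2 ⟨v, ⟨h3, hv.2⟩, by simp only [e, h2]⟩
  · rw [pm, inv, (hΨ.2.1.mono ball_subset_closedBall).leftInvOn_invFunOn h1, zm, h2]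

end Obs

open Obs in
theorem s_obs (hm : UM) (hl : Wick.S_loc) (hfar : Drive.S_far) (hc : S_cay) (hdc : S_dc)
    (hms : S_ms) (hmon : S_mon) (hk3 : S_ker3) (hseq : S_seq) (hbv : S_bv) (hnd : S_nd)
    (h1 : S_lim1) (h2 : S_lim2) : S_obs := by
  intro ψ L δ ε Ψ K hψ hA hM hK T R
  obtain ⟨C, hC1, hC⟩ := hfar T R
  refine ⟨8 * C, fun w₀ w1 w2 => ⟨by linarith, fun g ν hν e he => ?_⟩⟩
  obtain ⟨p, hp, q, hq, c, hc0, hpq⟩ := hnd ψ T R hψ
  obtain ⟨R₀, hR₀⟩ := ((isCompact_closedBall (0 : ℂ) 1).image_of_continuousOn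
    hψ.1).isBounded.subset_ball 0
  have hd : 0 < ‖ψ 1 - ψ (-1)‖ := norm_pos_iff.2 (sub_ne_zero.2 fun h => by
    have := hψ.2.1 (by simp) (by simp) h
    norm_num at this)
  set d := ‖ψ 1 - ψ (-1)‖ / 8 with hdd
  by_contra hn
  have ev := (hM.2.and (Metric.tendstoUniformlyOn_iff.1 hM.1 (min c (min 1 d))
    (by positivity))).and (hA.2.1.eventually (ge_mem_nhds (show 0 < d by positivity)))
  obtain ⟨n, hn1, hn2⟩ := extraction_of_frequently_atTop ((not_eventually.1 hn).and_eventually ev)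
  simp only [not_forall] at hn2
  choose b1 b2 using hn2
  choose h S τ W m a1 a2 a3 a4 a5 using b1
  have jm := fun k => (b2 k).1.1
  have cl : ∀ k, ∀ z ∈ closedBall (0 : ℂ) 1, ‖Ψ (n k) z - ψ z‖ ≤ min c (min 1 d) := fun k z hz => by
    rw [← dist_eq_norm, dist_comm]; exact ((b2 k).1.2 z hz).le
  have s0 : ∀ k, (m k : ℝ) / (L (n k)).len (h k) ∈ Icc 0 (S k) := fun k => ⟨by positivity, a3 k⟩
  have t0 : ∀ k, 0 ≤ τ k (m k / (L (n k)).len (h k)) := fun k =>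
    (a2 k).t0.ge.trans ((a2 k).mono.monotoneOn ⟨le_rfl, (a2 k).S0⟩ (s0 k) (s0 k).1)
  have ms := fun k => hms _ _ _ _ _ _ _ _ _ (R₀ + 1) d (jm k) (a1 k) (a2 k) (a3 k) (by
    rintro _ ⟨z, hz, rfl⟩
    have e1 := (cl k z (ball_subset_closedBall hz)).trans ((min_le_right _ _).trans (min_le_left _ _))
    have e2 := mem_ball_zero_iff.1 (hR₀ ⟨z, ball_subset_closedBall hz, rfl⟩)
    have := norm_sub_norm_le (Ψ (n k) z) (ψ z)
    rw [mem_ball_zero_iff]
    linarith) (by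
    have e1 := (cl k 1 (by simp)).trans ((min_le_right _ _).trans (min_le_right _ _))
    have e2 := (cl k (-1) (by simp)).trans ((min_le_right _ _).trans (min_le_right _ _))
    have e3 := dist_triangle4 (ψ 1) (Ψ (n k) 1) (Ψ (n k) (-1)) (ψ (-1))
    rw [dist_comm (ψ 1) (Ψ (n k) 1)] at e3
    simp only [dist_eq_norm] at e3
    linarith [(b2 k).2])
  obtain ⟨j, D, ψ', φ, hj, cf, bd, lim⟩ := hmon _ _ _ _ c p q (fun k => (ms k).cf)
    (fun k => (ms k).bd) hc0 hp hq fun k => hpq _ _ _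
      (fun z hz => (cl k z hz).trans (min_le_left _ _)) (t0 k) (a4 k)
  have hnj : Tendsto (fun k => n (j k)) atTop atTop := (hn1.comp hj).tendsto_atTop
  have kc : Kc D ψ' φ _ _ _ := ⟨cf, fun k => (ms (j k)).cf, lim⟩
  have sq : Sq D ψ' φ _ _ _ (δ ∘ fun k => n (j k)) _ d _ _ _ :=
    ⟨kc, bd, fun k => hA.1 _, hA.2.1.comp hnj, by positivity, fun k => ms (j k)⟩
  obtain ⟨q1, q2⟩ := hseq _ _ _ _ _ _ _ _ _ _ _ _ sq
  have q3 := hbv _ _ _ _ _ _ _ _ _ _ _ _ ε sq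
  have fr := fun k w (hw : w ∈ closedBall w₀ 1) =>
    hC w₀ w _ _ w1 w2 (mem_closedBall_iff_norm.1 hw) (a4 k)
  have im : ∀ z ∈ closedBall w₀ C, 1 ≤ z.im := fun z hz => by
    have := (abs_le.1 ((abs_im_le_norm _).trans (mem_closedBall_iff_norm.1 hz))).1
    rw [sub_im] at this
    linarith
  have hp' : closedBall w₀ C ⊆ HP := fun z hz => lt_of_lt_of_le one_pos (im z hz)
  obtain ⟨r, hr, hr'⟩ := exists_lt_subset_ball (((isCompact_closedBall w₀ C).image_of_continuousOn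
    (hc.1.hf.continuousOn.mono hp')).isClosed) ((hc.1.mf.mono_left hp').image_subset)
  have sl := fun k w (hw : w ∈ closedBall w₀ 1) => slit hc (jm k).jm (hdc _ _ _ _ _ (jm k) (a1 k)).1
    (a2 k) (s0 k) (fr k w hw _ ⟨t0 k, le_rfl⟩).1
  obtain ⟨k1, k2⟩ := hk3 _ _ _ _ _ _ kc (closedBall w₀ 1) (fun k w => Ψ (n (j k)) (cay w))
    (fun w => ψ (cay w)) r hr
    (((hM.1.seq_tendstoUniformlyOn _ hnj).comp cay).mono fun w hw => ball_subset_closedBall
      (hc.1.mf (hp' (closedBall_subset_closedBall hC1 hw))))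
    (Eventually.of_forall fun k w hw => ⟨(sl _ w hw).1, by
      rw [(sl _ w hw).2]
      exact (mem_ball_zero_iff.1 (hr' ⟨_, mem_closedBall_iff_norm.2
        (fr _ w hw _ ⟨t0 _, le_rfl⟩).2, rfl⟩)).le⟩)
  have fl : Fl ψ w₀ D ψ' φ (fun k => W (j k)) (fun k => τ (j k) (m (j k) / (L (n (j k))).len (h (j k))))
      T := ⟨hψ, by linarith, cf.oV, q2, fun k => ⟨t0 _, (a4 _).1⟩, fun k u hu w hw =>
        ⟨(fr _ w hw u hu).1, im _ (mem_closedBall_iff_norm.2 (fr _ w hw u hu).2)⟩, k1,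
      k2.congr (Eventually.of_forall fun k w hw => (sl _ w hw).2)⟩
  have tg : Test D g := ⟨hν.test.1, hν.test.2.1, hν.test.2.2.trans (by
    rintro _ ⟨_, ⟨w, hw, rfl⟩, rfl⟩
    exact k1 (ball_subset_closedBall hw))⟩
  have gd := fun k => hl.1 _ (pick ε (lA (L (n (j k))) (h (j k)) (m (j k)))
    (rB (L (n (j k))) (h (j k)) (m (j k)))) (q1.dom k).1
  have m1 := hm _ _ _ _ _ _ ε q1 q2 q3 g tg
  have m2 := hK.2 _ _ _ _ _ _ _ hnj q1 q2 q3 g tg
  have l1 := h1 _ _ _ _ _ _ _ _ _ _ fl hν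
  have l2 := h2 _ _ _ _ _ _ _ _ _ _ fl hν
  obtain ⟨b, hb⟩ := hK.1
  have l3 : Tendsto (fun k => K (n (j k)) * (Qv D φ g - (Qv (ψ '' ball 0 1) (inv ψ) g -
      obsQ ν (W (j k)) (τ (j k) (m (j k) / (L (n (j k))).len (h (j k))))))) atTop (𝓝 0) :=
    bdd_le_mul_tendsto_zero' b (Eventually.of_forall fun k => hb _)
      (by simpa using l2.const_sub (Qv D φ g))
  have f2 := Metric.tendsto_nhds.1 (m2.add l3) e he
  have m3 : Tendsto (fun k => Ex (dob (Fm (L (n (j k))) (h (j k)) (m (j k)))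
      (pick ε (lA (L (n (j k))) (h (j k)) (m (j k))) (rB (L (n (j k))) (h (j k)) (m (j k)))))
      (Yo ε δ g (n (j k)))) atTop (𝓝 (∫ z, uu (φ z) * g z)) := by
    unfold Yo
    split_ifs at m1 ⊢
    · exact m1
    · have i1 := hν.test.1.continuous.integrable_of_hasCompactSupport (μ := volume) hν.test.2.1
      simp only [sub_mul, one_mul, integral_sub i1 (int_uu hc cf tg), hν.one] at m1
      simp only [Ex_sub, Ex_const (gd _)]
      have := m1.const_sub 1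
      rwa [sub_sub_cancel] at this
  obtain ⟨k, g1, g2⟩ := ((Metric.tendsto_nhds.1 (m3.sub l1) e he).and f2).exists
  rw [sub_self, Real.dist_0_eq_abs] at g1
  rw [add_zero, Real.dist_0_eq_abs] at g2
  refine a5 (j k) ⟨g1.le, le_trans (le_of_eq ?_) g2.le⟩
  have id : ∀ a b x y : ℝ, a - b * y = a - b * x + b * (x - y) := fun _ _ _ _ => by ring
  congr 1
  unfold Yo
  split_ifs
  · exact id _ _ _ _
  · rw [cov_flip (gd k)]
    exact id _ _ _ _

end Vale.Agent.P153.A2
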