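import Vale.Agent.P153.A2.Stm
import Vale.Agent.P153.Wick.Emb
import Vale.Agent.P153.Wick.Ld1
import Vale.Agent.P153.Wick.Ld2

/-! Polygonal lines and the walls of the exploration. -/

open Set Filter Topology Metric Complex MeasureTheory
open scoped Real

noncomputable section
namespace Vale.Agent.P153.A2

open Vale.Agent.P153.Wick (Fr arcP arcM CS)
open Vale.Agent.P153.Wick.Ld1 (pl pl_nat pl_eq pl_cont piece)

namespace Poly

theorem mem_iff {M i : ℕ} (hM : 0 < M) {s : ℝ} :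
    s ∈ Icc ((i : ℝ) / M) ((i + 1) / M) ↔ (M : ℝ) * s ∈ Icc (i : ℝ) (i + 1) := by
  have h : (0 : ℝ) < M := Nat.cast_pos.2 hM
  rw [mem_Icc, mem_Icc, div_le_iff₀' h, le_div_iff₀' h]

theorem pl_congr {p p' : ℕ → ℂ} {m : ℕ} (h : ∀ i ≤ m, p' i = p i) {u : ℝ}
    (hu : u ∈ Icc (0 : ℝ) m) : pl p' u = pl p u := by
  rcases Nat.eq_zero_or_pos m with rfl | hm
  · have e : u = ((0 : ℕ) : ℝ) := le_antisymm hu.2 (by simpa using hu.1)
    rw [e, pl_nat, pl_nat, h 0 le_rfl]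
  · obtain ⟨i, hi, hu'⟩ := piece hm hu
    rw [pl_eq _ i hu', pl_eq _ i hu', h i hi.le, h (i + 1) hi]

theorem wall {A : Set V} {e : ℕ → V} {m : ℕ} (hA : CS A) (h0 : e 0 ∈ A)
    (hs : ∀ i < m, e (i + 1) = e i ∨ Adj (e i) (e (i + 1))) : CS (A ∪ e '' Iic m) := by
  have k : ∀ i ≤ m, Conn (fun _ _ => True) (A ∪ e '' Iic m) (e 0) (e i) := fun i hi => by
    induction i with
    | zero => exact Conn.rfl
    | succ i ih =>
      rcases hs i hi with h | h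
      · rw [h]; exact ih (Nat.le_of_succ_le hi)
      · exact (ih (Nat.le_of_succ_le hi)).tail h trivial
          (Or.inr ⟨i, Nat.le_of_succ_le hi, rfl⟩) (Or.inr ⟨i + 1, hi, rfl⟩)
  refine Cn.of_base (E := fun _ _ => True) (x := e 0) ?_
  rintro a (ha | ⟨i, hi, rfl⟩)
  exacts [(hA _ h0 a ha).monoA subset_union_left, k i hi]

end Poly

theorem s_poly : S_poly := by
  intro p M hM
  have hM' : (0 : ℝ) < M := Nat.cast_pos.2 hM
  have e : ∀ (p : ℕ → ℂ) (M : ℕ) (t : ℝ), poly p M t = pl p (M * t) := fun _ _ _ => rfl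
  have hm : ∀ t ∈ Icc (0 : ℝ) 1, (M : ℝ) * t ∈ Icc (0 : ℝ) M := fun t ht =>
    ⟨mul_nonneg hM'.le ht.1, mul_le_of_le_one_right hM'.le ht.2⟩
  refine ⟨(pl_cont p M).comp (by fun_prop) hm, fun i _ => ?_, fun i _ s hs => ?_, fun s hs => ?_,
    fun p' M' m hM1 h s hs => ?_⟩
  · rw [e, mul_div_cancel₀ _ hM'.ne', pl_nat]
  · have hu := (Poly.mem_iff hM).1 hs
    rw [e, pl_eq p i hu, segment_eq_image']
    exact ⟨M * s - i, ⟨by linarith [hu.1], by linarith [hu.2]⟩, rfl⟩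
  · exact (piece hM (hm s hs)).imp fun i hi => ⟨hi.1, (Poly.mem_iff hM).2 hi.2⟩
  · have h1 : (0 : ℝ) < M' := Nat.cast_pos.2 hM1
    rw [e, e, ← mul_assoc, mul_div_cancel₀ _ h1.ne']
    exact Poly.pl_congr h ⟨mul_nonneg hM'.le hs.1, (le_div_iff₀' hM').1 hs.2⟩

theorem s_walls : S_walls := by
  intro L ε h H m hm
  obtain ⟨hD, ho, hP, hM, cP, cM, -⟩ := Wick.s_ld2 Wick.s_emb Wick.s_ld1 L
  have k1 := L.k_pos
  have k2 := L.k_lt
  have a0 : (L.edge h 0).1 ∈ arcP L := ⟨0, k1, rfl⟩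
  have b0 : (L.edge h 0).2 ∈ arcM L := ⟨L.N - 1, ⟨by omega, by omega⟩, rfl⟩
  have cA : CS (lA L h m) :=
    Poly.wall (e := fun i => (L.edge h i).1) cP a0 fun i hi => H.stl i (hi.trans_le hm)
  have cB : CS (rB L h m) :=
    Poly.wall (e := fun i => (L.edge h i).2) cM b0 fun i hi => H.str i (hi.trans_le hm)
  have AF : lA L h m ⊆ (Fm L h m)ᶜ := fun x hx k => k.2 (Or.inl hx)
  have BF : rB L h m ⊆ (Fm L h m)ᶜ := fun x hx k => k.2 (Or.inr hx)
  refine ⟨⟨hD.1.subset sdiff_subset, Cn.of_sub (E := fun _ _ => True) hD.2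
    (fun x hx k => hx k.1) fun a ha => ?_⟩, fun x ⟨hx, y, hy, e⟩ => ?_, AF, BF, cA, cB,
    H.dis.mono (union_subset_union_right _ (image_mono (Iic_subset_Iic.2 hm)))
      (union_subset_union_right _ (image_mono (Iic_subset_Iic.2 hm)))⟩
  · by_cases h1 : a ∈ Fr L
    · rcases (not_not.1 fun k => ha ⟨h1, k⟩ : a ∈ lA L h m ∪ rB L h m) with k | k
      · exact ⟨_, hP a0, (cA _ (Or.inl a0) a k).monoA AF⟩
      · exact ⟨_, hM b0, (cB _ (Or.inl b0) a k).monoA BF⟩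
    · exact ⟨a, h1, Conn.rfl⟩
  · by_contra k
    exact k (union_subset_union subset_union_left subset_union_left
      (ho ⟨fun h1 => hx ⟨h1, k⟩, y, hy.1, e⟩))

end Vale.Agent.P153.A2
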