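import Vale.Agent.P153.A2.Stm
import Vale.Agent.P153.Wick.R

/-! The converging meshes form an admissible sequence; integrability of the Green form. -/

open Set Filter Topology Metric Complex MeasureTheory
open scoped Real

noncomputable section
namespace Vale.Agent.P153.A2

theorem s_seq (h1 : S_ker1) (h2 : S_ker2) : S_seq := by
  intro D ψ φ Ω f g δ R d F A B h
  have hc := h.cf
  refine ⟨⟨hc.oV, isBounded_closedBall.subset h.bdd, ⟨ψ 0, hc.mf (mem_ball_self one_pos)⟩, h.pos,
    h.dlim, fun k => (h.ms k).dom, fun K hK hKD => ?_, ⟨R, Eventually.of_forall fun k x hx => ?_⟩,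
    fun z hz e he => ?_⟩, hc.hf, hc.hg, hc.mf, hc.mg, hc.gf, hc.fg⟩
  · obtain ⟨η, η0, hη⟩ := hK.exists_cthickening_subset_open hc.oV hKD
    filter_upwards [(h1 D ψ φ Ω f g h.toKc _ hK.cthickening hη).1,
      h.dlim.eventually_le_const η0] with k hk hδ x hx
    by_contra hn
    obtain ⟨w, hw, hd⟩ := (h.ms k).pin x hn
    exact hw (hk (mem_cthickening_of_dist_le w _ η K hx ((dist_eq_norm _ _).trans_le (hd.trans hδ))))
  · exact (mem_ball_zero_iff.1 ((h.ms k).bd ((h.ms k).mem x hx))).le
  · obtain ⟨z₁, hz₁, hd⟩ := Metric.mem_closure_iff.1 (frontier_subset_closure hz) _ (half_pos he)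
    filter_upwards [(h1 D ψ φ Ω f g h.toKc {z₁} isCompact_singleton
      (singleton_subset_iff.2 hz₁)).1, h2 D ψ φ Ω f g h.toKc z hz _ (half_pos he),
      h.dlim.eventually_le_const (half_pos (half_pos he))] with k hk hn hδ
    obtain ⟨w, hw, hwz⟩ : ∃ w ∈ frontier (Ω k), w ∈ ball z (e / 2) := by
      by_contra hx
      refine hn ((convex_ball z _).isPreconnected.subset_of_closure_inter_subset (h.cfk k).oV
        ⟨z₁, mem_ball'.2 hd, hk rfl⟩ fun w hw => by_contra fun hw' => hx ⟨w, ?_, hw.2⟩)
      rw [(h.cfk k).oV.frontier_eq]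
      exact ⟨hw.1, hw'⟩
    obtain ⟨x, hx, hd⟩ := (h.ms k).fr w hw
    refine ⟨x, hx, ?_⟩
    have := norm_sub_le_norm_sub_add_norm_sub (δ k * emb x) w z
    rw [norm_sub_rev] at hd
    rw [mem_ball_iff_norm] at hwz
    linarith

open Vale.Agent.P071 Vale.Agent.P153.Wick.R in
theorem s_qint : S_qint := by
  intro D ψ φ g ho hc hg
  obtain ⟨M, hM⟩ := (gt_test hc hg).bdd
  obtain ⟨B, hB0, hB⟩ := g0_int
  have hφ : AEMeasurable φ (volume.restrict D) :=
    hc.hφ.continuousOn.aemeasurable ho.measurableSet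
  have hgm : Measurable g := hg.continuous.measurable
  have hm : AEStronglyMeasurable (fun p : ℂ × ℂ => g p.1 * g0 (φ p.1) (φ p.2) * g p.2)
      ((volume.restrict D).prod (volume.restrict D)) :=
    (((hgm.comp measurable_fst).aemeasurable.mul (measurable_g0.comp_aemeasurable
      (hφ.comp_fst.prodMk hφ.comp_snd))).mul
      (hgm.comp measurable_snd).aemeasurable).aestronglyMeasurable
  have hint : ∀ z ∈ D, IntegrableOn (fun y => g0 (φ z) y * gt ψ g y) DD := fun z hz =>
    (hB _ (hc.mapsφ hz)).1.mul_bdd (gt_test hc hg).continuous.aestronglyMeasurable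
      (Eventually.of_forall hM)
  rw [IntegrableOn, Measure.volume_eq_prod, ← Measure.prod_restrict]
  refine (integrable_prod_iff hm).2 ⟨?_, ?_⟩
  · filter_upwards [ae_restrict_mem ho.measurableSet] with z hz
    refine (hc.integrableOn_iff ho fun w => g z * g0 (φ z) (φ w) * g w).2 ?_
    refine IntegrableOn.congr_fun ((hint z hz).const_mul (g z)) (fun y hy => ?_) measurableSet_DD
    simp only [gt_eq hy, hc.left y hy]; ring
  · refine (hg.integrable.abs.mul_const (M * B)).integrableOn.mono'
      hm.norm.integral_prod_right' ?_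
    filter_upwards [ae_restrict_mem ho.measurableSet] with z hz
    have hz' := hc.mapsφ hz
    rw [Real.norm_eq_abs, abs_of_nonneg (integral_nonneg fun _ => norm_nonneg _),
      hc.integral_eq ho fun w => ‖g z * g0 (φ z) (φ w) * g w‖]
    have hM0 : 0 ≤ M := (abs_nonneg _).trans (hM 0)
    calc ∫ y in DD, ‖deriv ψ y‖ ^ 2 * ‖g z * g0 (φ z) (φ (ψ y)) * g (ψ y)‖
        ≤ ∫ y in DD, |g z| * M * g0 (φ z) y := by
          refine integral_mono_of_nonneg (Eventually.of_forall fun y => by positivity)
            ((hB _ hz').1.const_mul _) ?_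
          filter_upwards [ae_restrict_mem measurableSet_DD] with y hy
          have h1 := hM y
          have h2 := g0_nonneg hz' hy
          rw [gt_eq hy, abs_mul, abs_of_nonneg (sq_nonneg _)] at h1
          rw [hc.left y hy, Real.norm_eq_abs, abs_mul, abs_mul, abs_of_nonneg h2]
          have := mul_le_mul_of_nonneg_left h1 (mul_nonneg (abs_nonneg (g z)) h2)
          linarith
      _ ≤ |g z| * (M * B) := by
          rw [integral_const_mul, ← mul_assoc]
          exact mul_le_mul_of_nonneg_left (hB _ hz').2 (by positivity)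

end Vale.Agent.P153.A2
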