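import Vale.Agent.P153.A2.Stm

/-! The two sides of a simple curve in the disc. -/

open Set Filter Topology Metric Complex MeasureTheory
open scoped Real

noncomputable section
namespace Vale.Agent.P153.A2

open Vale.Agent.P153.SLE (DC Drv)

namespace Side

theorem neb {ζ : ℂ} (h : ‖ζ‖ = 1) : NeBot (𝓝[ball (0 : ℂ) 1] ζ) := by
  rw [← mem_closure_iff_nhdsWithin_neBot, closure_ball _ one_ne_zero, mem_closedBall_zero_iff]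
  exact h.le

theorem meet {Q B N : Set ℂ} {ζ : ℂ} (h : ζ ∈ closure Q) (hQ : Q ⊆ B)
    (hN : ∀ᶠ w in 𝓝[B] ζ, w ∈ N) : (Q ∩ N).Nonempty := by
  haveI := mem_closure_iff_nhdsWithin_neBot.1 h
  have h1 : ∀ᶠ w in 𝓝[Q] ζ, w ∈ Q := self_mem_nhdsWithin
  exact (h1.and (hN.filter_mono (nhdsWithin_mono ζ hQ))).exists

theorem clo {N : Set ℂ} {ζ : ℂ} (h : ‖ζ‖ = 1) (hN : ∀ᶠ w in 𝓝[ball (0 : ℂ) 1] ζ, w ∈ N) :
    ζ ∈ closure N := by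
  haveI := neb h
  exact mem_closure_iff_frequently.2 (hN.frequently.filter_mono nhdsWithin_le_nhds)

theorem loc {c : ℝ → ℂ} (hc : DC c) {ζ : ℂ} (h : ‖ζ‖ = 1) (h' : ζ.im ≠ 0) :
    ∃ r : ℝ, 0 < r ∧ ball 0 1 ∩ ball ζ r ⊆ ball 0 1 \ c '' Icc 0 1 := by
  have hK : IsClosed (c '' Icc 0 1) := (isCompact_Icc.image_of_continuousOn hc.cont).isClosed
  have hζ : ζ ∈ (c '' Icc 0 1)ᶜ := by
    rintro ⟨s, hs, rfl⟩
    rcases hs.1.eq_or_lt with h0 | h0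
    · rw [← h0, hc.c0] at h'
      simp at h'
    rcases hs.2.eq_or_lt with h1 | h1
    · rw [h1, hc.c1] at h'
      simp at h'
    exact (hc.ins s ⟨h0, h1⟩).ne h
  obtain ⟨r, hr, hb⟩ := Metric.isOpen_iff.1 hK.isOpen_compl ζ hζ
  exact ⟨r, hr, fun w hw => ⟨hw.1, hb hw.2⟩⟩

theorem arc (σ : ℝ) : IsPreconnected {ζ : ℂ | ‖ζ‖ = 1 ∧ 0 < σ * ζ.im} := by
  have h1 : Convex ℝ {z : ℂ | 0 < σ * z.im} :=
    convex_halfSpace_gt (f := fun z : ℂ => σ * z.im)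
      ⟨fun x y => by rw [add_im, mul_add], fun a x => by simp only [smul_im, smul_eq_mul]; ring⟩ 0
  have h0 : ∀ z ∈ {z : ℂ | 0 < σ * z.im}, ‖z‖ ≠ 0 := fun z hz e => by
    rw [norm_eq_zero.1 e] at hz
    simp at hz
  have h2 : ContinuousOn (fun z : ℂ => ‖z‖⁻¹ • z) {z : ℂ | 0 < σ * z.im} :=
    (continuous_norm.continuousOn.inv₀ h0).smul continuousOn_id
  have h3 := h1.isPreconnected.image _ h2
  convert h3 using 1
  ext ζ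
  constructor
  · rintro ⟨k1, k2⟩
    exact ⟨ζ, k2, by simp only [k1, inv_one, one_smul]⟩
  · rintro ⟨z, hz, rfl⟩
    have k := h0 z hz
    have k' : 0 < σ * z.im := hz
    refine ⟨by rw [norm_smul, norm_inv, norm_norm, inv_mul_cancel₀ k], ?_⟩
    have k2 : 0 < ‖z‖⁻¹ := inv_pos.2 (lt_of_le_of_ne (norm_nonneg z) k.symm)
    simp only [smul_im, smul_eq_mul]
    nlinarith [mul_pos k2 k']

theorem ne0 {σ : ℝ} {ζ : ℂ} (h : 0 < σ * ζ.im) : ζ.im ≠ 0 := fun e => by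
  rw [e, mul_zero] at h
  exact lt_irrefl _ h

theorem rel {c : ℝ → ℂ} (hc : DC c) {σ : ℝ} {ζ ζ' : ℂ} (h : ‖ζ‖ = 1 ∧ 0 < σ * ζ.im)
    (h' : ‖ζ'‖ = 1 ∧ 0 < σ * ζ'.im) : ∃ Q, IsPreconnected Q ∧ Q ⊆ ball 0 1 \ c '' Icc 0 1 ∧
      (∀ᶠ w in 𝓝[ball (0 : ℂ) 1] ζ, w ∈ Q) ∧ ∀ᶠ w in 𝓝[ball (0 : ℂ) 1] ζ', w ∈ Q := by
  refine (arc σ).induction₂' (fun a b => ∃ Q, IsPreconnected Q ∧ Q ⊆ ball 0 1 \ c '' Icc 0 1 ∧
      (∀ᶠ w in 𝓝[ball (0 : ℂ) 1] a, w ∈ Q) ∧ ∀ᶠ w in 𝓝[ball (0 : ℂ) 1] b, w ∈ Q)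
    (fun x hx => ?_) (fun x y z _ hy _ k1 k2 => ?_) h h'
  · obtain ⟨r, hr, hb⟩ := loc hc hx.1 (ne0 hx.2)
    have hN : IsPreconnected (ball (0 : ℂ) 1 ∩ ball x r) :=
      ((convex_ball _ _).inter (convex_ball _ _)).isPreconnected
    have e : ∀ y ∈ ball x r, ∀ᶠ w in 𝓝[ball (0 : ℂ) 1] y, w ∈ ball (0 : ℂ) 1 ∩ ball x r :=
      fun y hy => inter_mem_nhdsWithin _ (isOpen_ball.mem_nhds hy)
    filter_upwards [mem_nhdsWithin_of_mem_nhds (ball_mem_nhds x hr)] with y hy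
    exact ⟨⟨_, hN, hb, e x (mem_ball_self hr), e y hy⟩, ⟨_, hN, hb, e y hy, e x (mem_ball_self hr)⟩⟩
  · obtain ⟨Q, a1, a2, a3, a4⟩ := k1
    obtain ⟨Q', b1, b2, b3, b4⟩ := k2
    haveI := neb hy.1
    exact ⟨Q ∪ Q', a1.union' (a4.and b3).exists b1, union_subset a2 b2,
      a3.mono fun _ => Or.inl, b4.mono fun _ => Or.inr⟩

theorem sub {c : ℝ → ℂ} {σ : ℝ} {Q : Set ℂ} (h1 : IsPreconnected Q)
    (h2 : Q ⊆ ball 0 1 \ c '' Icc 0 1) (h3 : (Q ∩ side c σ).Nonempty) : Q ⊆ side c σ := by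
  obtain ⟨x, hx, Q', a1, a2, a3, ζ, a4, a5⟩ := h3
  exact fun w hw => ⟨Q ∪ Q', h1.union x hx a3 a1, union_subset h2 a2, Or.inl hw, ζ,
    closure_mono subset_union_right a4, a5⟩

end Side

theorem s_side : S_side := by
  intro c σ hc _
  refine ⟨fun w ⟨Q, _, a2, a3, _⟩ => a2 a3, isPreconnected_of_forall_pair ?_, fun ζ h1 h2 => ?_,
    fun Q => Side.sub⟩
  · rintro x ⟨Q, a1, a2, a3, ζ, a4, a5⟩ y ⟨Q', b1, b2, b3, ζ', b4, b5⟩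
    obtain ⟨P, p1, p2, p3, p4⟩ := Side.rel hc a5 b5
    have m1 := Side.meet a4 (a2.trans diff_subset) p3
    have m2 := Side.meet b4 (b2.trans diff_subset) p4
    have u1 : IsPreconnected (Q' ∪ (Q ∪ P)) :=
      b1.union' (m2.mono (inter_subset_inter_right _ subset_union_right)) (a1.union' m1 p1)
    exact ⟨Q' ∪ (Q ∪ P), fun w hw => ⟨_, u1, union_subset b2 (union_subset a2 p2), hw, ζ',
      closure_mono subset_union_left b4, b5⟩, Or.inr (Or.inl a3), Or.inl b3, u1⟩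
  · obtain ⟨P, p1, p2, p3, -⟩ := Side.rel hc ⟨h1, h2⟩ ⟨h1, h2⟩
    exact p3.mono fun w hw => ⟨P, p1, p2, hw, ζ, Side.clo h1 p3, h1, h2⟩

end Vale.Agent.P153.A2
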