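import Vale.Agent.P153.A2.Stm

/-! Small connected sets near the boundary of the slit domains. -/

open Set Filter Topology Metric Complex

noncomputable section
namespace Vale.Agent.P153.A2

open Vale.Agent.P153.CA (Cf Full S_t2d)

theorem not_sphere {Ω : Set ℂ} (hF : Full Ω) {w p : ℂ} (hw : w ∉ Ω) {ρ : ℝ} (h : ‖w - p‖ ≤ ρ) :
    ¬ sphere p ρ ⊆ Ω := fun hs => by
  obtain ⟨S, s1, s2, s3, s4⟩ := hF w hw
  obtain ⟨q, q1, q2⟩ : ∃ q ∈ S, ρ ≤ ‖q - p‖ := by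
    by_contra hc
    push Not at hc
    exact s4 ((isBounded_ball (x := p) (r := ρ)).subset fun q hq => mem_ball_iff_norm.2 (hc q hq))
  obtain ⟨u, u1, u2⟩ := s1.intermediate_value s2 q1 (f := fun z => ‖z - p‖) (by fun_prop) ⟨h, q2⟩
  exact disjoint_left.1 s3 u1 (hs (mem_sphere_iff_norm.2 u2))

theorem s_small (ht : S_t2d) (hk : S_ker1) : S_small := by
  intro D ψ φ Ω f g δ R d F A B h l hl
  have h0 : (0 : ℂ) ∈ ball (0 : ℂ) 1 := mem_ball_self one_pos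
  obtain ⟨e, he, hb⟩ := nhds_basis_closedBall.mem_iff.1 (h.cf.oV.mem_nhds (h.cf.mf h0))
  have k1 := (hk D ψ φ Ω f g h.toKc _ (isCompact_closedBall _ _) hb).1
  have k2 := Metric.tendsto_nhds.1 (h.lim.tendsto_at h0) (e / 4) (by positivity)
  have hE : 1 < Real.exp ((50 / l) ^ 2) := Real.one_lt_exp_iff.2 (by positivity)
  set ρ := e / 2 / Real.exp ((50 / l) ^ 2) / 2 with hρ
  have hρ0 : 0 < ρ := by positivity
  have hρ1 : ρ ≤ e / 4 := by
    have : e / 2 / Real.exp ((50 / l) ^ 2) ≤ e / 2 := div_le_self (by positivity) hE.le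
    linarith
  have hlog : 50 / √(Real.log (e / 2 / ρ)) ≤ l := by
    have h1 : (50 / l) ^ 2 ≤ Real.log (e / 2 / ρ) := by
      rw [Real.le_log_iff_exp_le (by positivity), hρ]
      have : e / 2 / (e / 2 / Real.exp ((50 / l) ^ 2) / 2) = 2 * Real.exp ((50 / l) ^ 2) := by
        field_simp
      linarith
    have h2 : 50 / l ≤ √(Real.log (e / 2 / ρ)) := Real.le_sqrt_of_sq_le h1
    have h3 : 0 < 50 / l := by positivity
    rw [div_le_iff₀ (by linarith)]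
    rw [div_le_iff₀ hl] at h2
    linarith
  have main : ∀ᶠ k in atTop, ∀ (p : ℂ) (P : Set ℂ), IsPreconnected P →
      P ⊆ Ω k ∩ closedBall p ρ → (∃ w, w ∉ Ω k ∧ ‖w - p‖ ≤ ρ) →
      ∀ z ∈ P, ∀ z' ∈ P, ‖g k z - g k z'‖ ≤ l := by
    filter_upwards [k1, k2] with k k1 k2 p P hP hs ⟨w, w1, w2⟩ z hz z' hz'
    refine (ht (Ω k) P (g k) (f k) p ρ (e / 2) (h.cfk k).symm hρ0 (by linarith) ?_ hs hP
      (fun r hr => not_sphere (h.ms k).full w1 (w2.trans hr.1.le)) z hz z' hz').trans hlog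
    have h1 : e < ‖w - ψ 0‖ := lt_of_not_ge fun h' => w1 (k1 (mem_closedBall_iff_norm.2 h'))
    rw [dist_eq_norm] at k2
    have h2 := norm_sub_le_norm_sub_add_norm_sub w p (ψ 0)
    have h3 := norm_sub_le_norm_sub_add_norm_sub p (f k 0) (ψ 0)
    rw [norm_sub_rev p (f k 0)] at h3
    linarith
  refine ⟨⟨ρ, hρ0, main⟩, ?_⟩
  filter_upwards [main, h.dlim.eventually (ge_mem_nhds hρ0)] with k hm hδ x hx y hxy
  have key : ∀ (σ : ℝ) (C : Set V), Att (δ k) σ (F k) C (Ω k) (g k) → C ⊆ (F k)ᶜ → y ∈ C →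
      ∃ v : ℂ, 0 ≤ σ * v.im ∧ |v.im - (g k (δ k * emb x)).im| ≤ l := fun σ C hC hF hy => by
    obtain ⟨P, p1, p2, p3, v, v1, -, v2⟩ := hC x hx y hy hxy
    obtain ⟨w, w1, w2⟩ := (h.ms k).pin y (hF hy)
    have h1 : g k '' P ⊆ closedBall (g k (δ k * emb x)) l := by
      rintro _ ⟨z, hz, rfl⟩
      exact mem_closedBall_iff_norm.2 (hm _ P p1 (p2.trans (inter_subset_inter_right _
        (closedBall_subset_closedBall hδ))) ⟨w, w1, w2.trans hδ⟩ z hz _ p3)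
    have h2 := mem_closedBall_iff_norm.1 (closure_minimal h1 isClosed_closedBall v1)
    exact ⟨v, v2, by rw [← sub_im]; exact (abs_im_le_norm _).trans h2⟩
  refine ⟨fun hy => ?_, fun hy => ?_⟩
  · obtain ⟨v, v1, v2⟩ := key 1 _ (h.ms k).sA (h.ms k).AF hy
    linarith [(abs_le.1 v2).2]
  · obtain ⟨v, v1, v2⟩ := key (-1) _ (h.ms k).sB (h.ms k).BF hy
    linarith [(abs_le.1 v2).1]

end Vale.Agent.P153.A2
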