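import Vale.Agent.P153.A2.Stm
import Vale.Agent.P153.CA.All
import Vale.Agent.P153.SLE.Basic

/-! A small step of the curve gives a small step of the driving function. -/

open Set Filter Topology Metric Complex MeasureTheory
open scoped Real

noncomputable section
namespace Vale.Agent.P153.A2

open Vale.Agent.P164 (Pth HP Zf fi dom)
open Vale.Agent.P153.CA (Cf Full cay icay JLoop inside circ Hyd)
open Vale.Agent.P153.SLE (DC Drv)
open Vale.Agent.P153.Drive (Run Near obsM obsQ)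

namespace Step

variable {c : ℝ → ℂ} {S s : ℝ} {τ : ℝ → ℝ} {W : Pth}

theorem icay_sub {w w' : ℂ} {k ω : ℝ} (hk : 0 < k) (h : k ≤ ‖w' - 1‖) (h1 : ‖w - w'‖ ≤ ω)
    (h2 : ω ≤ k / 2) : ‖icay w - icay w'‖ ≤ 4 * ω / k ^ 2 := by
  have h3 : k / 2 ≤ ‖w - 1‖ := by
    have := norm_sub_le_norm_sub_add_norm_sub w' w 1
    rw [norm_sub_rev w' w] at this
    linarith
  have n1 : 1 - w ≠ 0 := fun e => by
    rw [norm_sub_rev, e, norm_zero] at h3; linarith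
  have n2 : 1 - w' ≠ 0 := fun e => by
    rw [norm_sub_rev, e, norm_zero] at h; linarith
  have e : icay w - icay w' = 2 * I * (w - w') / ((1 - w) * (1 - w')) := by
    unfold icay; field_simp; ring
  rw [e, norm_div, norm_mul, norm_mul, norm_mul, norm_I, norm_sub_rev 1 w, norm_sub_rev 1 w',
    Complex.norm_two]
  have h4 := (norm_nonneg _).trans h1
  calc 2 * 1 * ‖w - w'‖ / (‖w - 1‖ * ‖w' - 1‖) ≤ 2 * 1 * ω / (k / 2 * k) := by gcongr
    _ = 4 * ω / k ^ 2 := by field_simp; ring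

theorem icay_norm {w : ℂ} {k : ℝ} (hk : 0 < k) (h : k ≤ ‖w - 1‖) (h1 : ‖w‖ ≤ 1) :
    ‖icay w‖ ≤ 2 / k := by
  rw [icay, norm_div, norm_mul, norm_I, one_mul, norm_sub_rev]
  have h2 : ‖1 + w‖ ≤ 2 := (norm_add_le _ _).trans (by rw [norm_one]; linarith)
  gcongr

theorem cont (h : DC c) : ContinuousOn (fun v => icay (c v)) (Ico 0 1) := fun v hv => by
  have h1 : c v ≠ 1 := by
    rcases hv.1.eq_or_lt with rfl | h0
    · rw [h.c0]; norm_num
    · exact SLE.ne_one_of_lt (h.ins v ⟨h0, hv.2⟩)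
  exact (SLE.continuousAt_icay h1).comp_continuousWithinAt
    ((h.cont v (Ico_subset_Icc_self hv)).mono Ico_subset_Icc_self)

theorem sph (h : DC c) (hd : Drv c S τ W) (hs : s ∈ Icc 0 S) {ρ : ℝ} (h0 : 0 ≤ ρ) (h1 : ρ ≤ 1) :
    ¬ sphere (icay (c s)) ρ ⊆ dom W (τ s) := fun hsub => by
  have e0 : icay (c 0) = 0 := by simp [h.c0, icay]
  have hQ : IsPreconnected ((fun v => icay (c v)) '' Icc 0 s ∪ {z : ℂ | z.im ≤ 0}) :=
    IsPreconnected.union 0 ⟨0, ⟨le_rfl, hs.1⟩, e0⟩ (by simp)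
      (isPreconnected_Icc.image _ ((cont h).mono fun v hv =>
        ⟨hv.1, (hv.2.trans hs.2).trans_lt hd.S1⟩)) (convex_halfSpace_im_le 0).isPreconnected
  have hq : 1 ≤ ‖((‖icay (c s)‖ + 1 : ℝ) : ℂ) - icay (c s)‖ := by
    have := norm_sub_norm_le ((‖icay (c s)‖ + 1 : ℝ) : ℂ) (icay (c s))
    rw [norm_real, Real.norm_of_nonneg (by positivity)] at this
    linarith
  obtain ⟨z, hz, e⟩ := hQ.intermediate_value (f := fun z => ‖z - icay (c s)‖)
    (a := icay (c s)) (b := ((‖icay (c s)‖ + 1 : ℝ) : ℂ)) (Or.inl ⟨s, ⟨hs.1, le_rfl⟩, rfl⟩)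
    (Or.inr (ofReal_im _).le) (by fun_prop) ⟨by simpa using h0, h1.trans hq⟩
  have hz' := hsub (mem_sphere_iff_norm.2 e)
  rw [hd.dom s hs] at hz'
  have hp : 0 < z.im := hz'.1
  rcases hz with ⟨v, hv, rfl⟩ | hz
  · rcases hv.1.eq_or_lt with rfl | hv0
    · simp [e0] at hp
    · exact hz'.2 ⟨v, ⟨hv0, hv.2⟩, rfl⟩
  · exact absurd hz (not_le.2 hp)

end Step

theorem s_step (hc : S_cay) (hb : SLE.S_bnd) (ht : S_tipz) (hi : S_incr) (hf : S_fin) : S_step := by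
  intro T R e he
  obtain ⟨k, hk, hf⟩ := hf T R
  obtain ⟨C, hC, hi⟩ := hi
  obtain ⟨r, hr, hr1, hre⟩ : ∃ r : ℝ, 0 < r ∧ r ≤ 1 ∧ C * r ≤ e :=
    ⟨min 1 (e / C), by positivity, min_le_left _ _, by
      rw [mul_comm, ← le_div_iff₀ hC]; exact min_le_right _ _⟩
  obtain ⟨R', hR', hR⟩ : ∃ R' : ℝ, 0 < R' ∧ 2 * T + 3 * R + 3 + 2 / k ≤ R' :=
    ⟨_, lt_max_of_lt_left one_pos, le_max_right _ _⟩
  obtain ⟨r1, h0, h1, hl⟩ : ∃ r1 : ℝ, 0 < r1 ∧ r1 < 1 ∧ 10 * R' / √(Real.log (1 / r1)) = r := by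
    refine ⟨Real.exp (-(10 * R' / r) ^ 2), Real.exp_pos _,
      Real.exp_lt_one_iff.2 (neg_neg_of_pos (by positivity)), ?_⟩
    rw [one_div, ← Real.exp_neg, neg_neg, Real.log_exp, Real.sqrt_sq (by positivity)]
    field_simp
  refine ⟨min (k / 2) (r1 * k ^ 2 / 4), by positivity, ?_⟩
  intro c S τ W s u hD hd hs hsu hu hrun hω
  have hsS : s ∈ Icc 0 S := ⟨hs, hsu.le.trans hu⟩
  have hτ := hd.nonneg hsS
  have hks := hf c S τ W hD hd s hsS hrun
  have hp := Step.icay_norm hk hks (hD.norm_le ⟨hs, hsS.2.trans hd.S1.le⟩)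
  obtain ⟨t1, t2⟩ := ht c S τ W hD hd s hsS
  have key := (CA.t2h_all (dom W (τ s)) ((fun v => icay (c v)) '' Ioc s u) (Zf W (τ s))
    (fi W (τ s)) (icay (c s)) 0 r1 1 R' (SLE.cf_fi W hτ).symm h0 h1 hR' ?_ ?_
    (isPreconnected_Ioc.image _ ((Step.cont hD).mono fun v hv =>
      ⟨hs.trans hv.1.le, (hv.2.trans hu).trans_lt hd.S1⟩))
    fun ρ hρ => Step.sph hD hd hsS (h0.trans hρ.1).le hρ.2.le).2
  · rw [hl] at key
    obtain ⟨k1, k2⟩ := hi c S τ W s u r hD hd hs hsu hu hr fun v hv => by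
      have := (tendsto_const_nhds (x := Zf W (τ s) (icay (c v)))).sub t2
      rw [sub_zero] at this
      refine le_of_tendsto this.norm ?_
      filter_upwards [Ioc_mem_nhdsGT hsu] with v' hv'
      exact key _ ⟨v, hv, rfl⟩ _ ⟨v', hv', rfl⟩
    refine ⟨?_, fun t htt => (k2 t htt).trans hre⟩
    have : C * r ^ 2 ≤ C * r := mul_le_mul_of_nonneg_left (by nlinarith) hC.le
    linarith
  · rintro _ ⟨z, ⟨hz, hz1⟩, rfl⟩
    have a1 := (hb W (τ s) R z hrun.2).1 (τ s) ⟨hτ, le_rfl⟩ hz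
    have a2 : ‖(W (τ s) : ℂ)‖ ≤ R := by
      rw [norm_real]; exact hrun.2 _ ⟨hτ, le_rfl⟩
    have a3 : ‖z‖ ≤ 1 + 2 / k := by
      have := norm_le_norm_sub_add z (icay (c s))
      have := mem_ball_iff_norm.1 hz1
      linarith
    have a4 : Zf W (τ s) z = (Zf W (τ s) z + W (τ s) - z) - W (τ s) + z := by ring
    have a5 := norm_add_le (Zf W (τ s) z + W (τ s) - z - W (τ s)) z
    have a6 := norm_sub_le (Zf W (τ s) z + W (τ s) - z) (W (τ s))
    rw [← a4] at a5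
    rw [mem_closedBall_zero_iff]
    linarith [hrun.1]
  · rintro _ ⟨v, hv, rfl⟩
    refine ⟨t1 v ⟨hv.1, (hv.2.trans hu).trans_lt hd.S1⟩, mem_closedBall_iff_norm.2 ?_⟩
    refine (Step.icay_sub hk hks (hω v ⟨hv.1.le, hv.2⟩) (min_le_left _ _)).trans ?_
    rw [div_le_iff₀ (by positivity)]
    linarith [min_le_right (k / 2) (r1 * k ^ 2 / 4)]

end Vale.Agent.P153.A2
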