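import Vale.Agent.P153.A2.Stm
import Vale.Agent.P153.CA.All

/-! The driving function depends only on the curve. -/

open Set Filter Topology Metric Complex MeasureTheory
open scoped Real

noncomputable section
namespace Vale.Agent.P153.A2

open Vale.Agent.P164 (Pth HP Zf fi dom)
open Vale.Agent.P153.CA (Cf Full cay icay JLoop inside circ Hyd)
open Vale.Agent.P153.SLE (DC Drv)

namespace Uniq

theorem tau_nn {c : ℝ → ℂ} {S : ℝ} {τ : ℝ → ℝ} {W : Pth} (h : Drv c S τ W) {v : ℝ}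
    (hv : v ∈ Icc 0 S) : 0 ≤ τ v := by
  rw [← h.t0]
  exact h.mono.monotoneOn ⟨le_rfl, h.S0⟩ hv hv.1

theorem dom_eq {c c' : ℝ → ℂ} {S S' : ℝ} {τ τ' : ℝ → ℝ} {W W' : Pth} {a s : ℝ}
    (h : Drv c S τ W) (h' : Drv c' S' τ' W') (ha : 0 < a) (hs : s ∈ Icc 0 S) (has : a * s ≤ S')
    (hc : ∀ v ∈ Icc 0 s, c' (a * v) = c v) {v : ℝ} (hv : v ∈ Icc 0 s) :
    dom W' (τ' (a * v)) = dom W (τ v) := by
  rw [h.dom v ⟨hv.1, hv.2.trans hs.2⟩,
    h'.dom (a * v) ⟨mul_nonneg ha.le hv.1, (mul_le_mul_of_nonneg_left hv.2 ha.le).trans has⟩]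
  congr 1
  ext z
  constructor
  · rintro ⟨u, hu, rfl⟩
    have h1 : u / a ∈ Ioc 0 v := ⟨div_pos hu.1 ha, by rw [div_le_iff₀ ha, mul_comm]; exact hu.2⟩
    refine ⟨u / a, h1, ?_⟩
    have h2 := hc (u / a) ⟨h1.1.le, h1.2.trans hv.2⟩
    rw [mul_div_cancel₀ _ ha.ne'] at h2
    simp only [h2]
  · rintro ⟨u, hu, rfl⟩
    refine ⟨a * u, ⟨mul_pos ha hu.1, mul_le_mul_of_nonneg_left hu.2 ha.le⟩, ?_⟩
    simp only [hc u ⟨hu.1.le, hu.2.trans hv.2⟩]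

theorem one (hw : S_whyd) {c c' : ℝ → ℂ} {S S' : ℝ} {τ τ' : ℝ → ℝ} {W W' : Pth} {a s : ℝ}
    (h : Drv c S τ W) (h' : Drv c' S' τ' W') (ha : 0 < a) (hs : s ∈ Icc 0 S) (has : a * s ≤ S')
    (hc : ∀ v ∈ Icc 0 s, c' (a * v) = c v) {v : ℝ} (hv : v ∈ Icc 0 s) :
    τ' (a * v) = τ v ∧ ∀ z ∈ dom W (τ v), Zf W' (τ v) z + W' (τ v) = Zf W (τ v) z + W (τ v) := by
  have h1 := hw W (τ v) (tau_nn h ⟨hv.1, hv.2.trans hs.2⟩)
  have h2 := hw W' (τ' (a * v)) (tau_nn h'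
    ⟨mul_nonneg ha.le hv.1, (mul_le_mul_of_nonneg_left hv.2 ha.le).trans has⟩)
  rw [dom_eq h h' ha hs has hc hv] at h2
  obtain ⟨e1, e2, -⟩ := CA.huniq_all _ _ _ _ _ _ _ h2 h1
  have e3 : τ' (a * v) = τ v := by linarith
  refine ⟨e3, fun z hz => ?_⟩
  have := e2 (x := z) ⟨hz.1, fun h3 => h3.2 hz⟩
  simpa only [e3] using this

theorem two (hw : S_whyd) (ht : S_tipz) {c c' : ℝ → ℂ} {S S' : ℝ} {τ τ' : ℝ → ℝ} {W W' : Pth}
    {a s : ℝ} (hd : DC c) (h : Drv c S τ W) (hd' : DC c') (h' : Drv c' S' τ' W') (ha : 0 < a)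
    (hs : s ∈ Icc 0 S) (has : a * s ≤ S') (hc : ∀ v ∈ Icc 0 s, c' (a * v) = c v) {v : ℝ}
    (hv : v ∈ Ico 0 s) : W' (τ v) = W (τ v) := by
  obtain ⟨e1, e2⟩ := one hw h h' ha hs has hc ⟨hv.1, hv.2.le⟩
  obtain ⟨a1, a2⟩ := ht c S τ W hd h v ⟨hv.1, hv.2.le.trans hs.2⟩
  obtain ⟨-, b2⟩ := ht c' S' τ' W' hd' h' (a * v)
    ⟨mul_nonneg ha.le hv.1, (mul_le_mul_of_nonneg_left hv.2.le ha.le).trans has⟩
  have hm : Tendsto (fun u => a * u) (𝓝[>] v) (𝓝[>] (a * v)) := by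
    refine tendsto_nhdsWithin_of_tendsto_nhds_of_eventually_within _
      (((continuous_const.mul continuous_id).tendsto v).mono_left nhdsWithin_le_nhds) ?_
    filter_upwards [self_mem_nhdsWithin] with u hu
    exact mul_lt_mul_of_pos_left hu ha
  have b3 := (b2.comp hm).add_const (W' (τ v) : ℂ)
  have a3 := a2.add_const (W (τ v) : ℂ)
  rw [e1] at b3
  have hev : (fun u => ((fun v_1 => Zf W' (τ v) (icay (c' v_1))) ∘ fun u => a * u) u + (W' (τ v) : ℂ))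
      =ᶠ[𝓝[>] v] fun u => Zf W (τ v) (icay (c u)) + (W (τ v) : ℂ) := by
    filter_upwards [Ioo_mem_nhdsGT hv.2] with u hu
    simp only [Function.comp, hc u ⟨hv.1.trans hu.1.le, hu.2.le⟩]
    exact e2 _ (a1 u ⟨hu.1, hu.2.trans (hs.2.trans_lt h.S1)⟩)
  have := tendsto_nhds_unique (b3.congr' hev) a3
  simpa using this

end Uniq

theorem s_uniq (hw : S_whyd) (ht : S_tipz) : S_uniq := by
  intro c S τ W c' S' τ' W' a s hd h hd' h' ha hs has hc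
  refine ⟨(Uniq.one hw h h' ha hs has hc ⟨hs.1, le_rfl⟩).1, ?_⟩
  have hτ : ContinuousOn τ (Icc 0 s) := h.cont.mono (Icc_subset_Icc_right hs.2)
  have key : EqOn (fun v => W' (τ v)) (fun v => W (τ v)) (Icc 0 s) := by
    rcases hs.1.eq_or_lt with h0 | h0
    · intro v hv
      have : v = 0 := le_antisymm (h0 ▸ hv.2) hv.1
      simp only [this, h.t0, h.W0, h'.W0]
    · refine EqOn.of_subset_closure (s := Ico 0 s)
        (fun v hv => Uniq.two hw ht hd h hd' h' ha hs has hc hv)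
        (W'.continuous.comp_continuousOn hτ) (W.continuous.comp_continuousOn hτ)
        Ico_subset_Icc_self ?_
      rw [closure_Ico h0.ne]
  intro t ht'
  obtain ⟨v, hv, rfl⟩ := intermediate_value_Icc hs.1 hτ (by rw [h.t0]; exact ht')
  exact key hv

end Vale.Agent.P153.A2
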