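import Vale.Agent.P153.A2.Stm
import Vale.Agent.P153.SLE.Basic

/-! The Loewner maps are hydrodynamically normalised. -/

open Set Filter Topology Metric Complex MeasureTheory
open scoped Real

noncomputable section
namespace Vale.Agent.P153.A2

open Vale.Agent.P164 (Pth HP Zf fi dom)
open Vale.Agent.P153.CA (Cf Hyd)

namespace Whyd

open Vale.Agent.P153.SLE (fA)

theorem est {W : Pth} {t C : ℝ} {z : ℂ} (ht : 0 ≤ t) (hz : z ∈ dom W t) (hC : 0 < C)
    (h : ∀ u ∈ Icc 0 t, ‖Zf W u z - z‖ ≤ C) (hn : 2 * C ≤ ‖z‖) :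
    ‖z * (Zf W t z + W t - z) - (2 * t : ℝ)‖ ≤ 4 * C * t / ‖z‖ := by
  have hz0 : 0 < ‖z‖ := by linarith
  have hd : ∀ u ∈ Icc 0 t, z ∈ dom W u := fun u hu => fA.dom_anti W u t hu.1 hu.2 hz
  have hl : ∀ u ∈ Icc 0 t, ‖z‖ / 2 ≤ ‖Zf W u z‖ := fun u hu => by
    have h1 := norm_sub_norm_le z (Zf W u z)
    rw [norm_sub_rev] at h1
    linarith [h u hu]
  have hne : ∀ u ∈ Icc 0 t, Zf W u z ≠ 0 := fun u hu =>
    norm_pos_iff.1 ((half_pos hz0).trans_le (hl u hu))
  have hc : ContinuousOn (fun u => Zf W u z) (Icc 0 t) := fun u hu =>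
    (fA.cont W u z hu.1 (hd u hu)).1.continuousWithinAt
  have hI := intervalIntegral.integral_eq_sub_of_hasDerivAt_of_le ht
    (f := fun u : ℝ => z * (Zf W u z + W u) - 2 * (u : ℂ))
    (f' := fun u : ℝ => z * (2 / Zf W u z) - 2)
    ((continuousOn_const.mul (hc.add (by fun_prop))).sub (by fun_prop))
    (fun u hu => by
      have h1 := ((fA.der W u z hu.1 (hd u (Ioo_subset_Icc_self hu))).1.const_mul z).fun_sub
        ((ofRealCLM.hasDerivAt (x := u)).const_mul (2 : ℂ))
      simpa using h1)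
    (ContinuousOn.intervalIntegrable_of_Icc ht
      ((continuousOn_const.mul (continuousOn_const.div hc hne)).sub continuousOn_const))
  have hb := intervalIntegral.norm_integral_le_of_norm_le_const (a := 0) (b := t)
    (C := 4 * C / ‖z‖) (f := fun u : ℝ => z * (2 / Zf W u z) - 2) fun u hu => by
      rw [uIoc_of_le ht] at hu
      have hu' := Ioc_subset_Icc_self hu
      have e : z * (2 / Zf W u z) - 2 = -2 * (Zf W u z - z) / Zf W u z := by
        field_simp [hne u hu']
        ring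
      rw [e, norm_div, norm_mul, norm_neg, Complex.norm_two]
      calc 2 * ‖Zf W u z - z‖ / ‖Zf W u z‖ ≤ 2 * C / (‖z‖ / 2) := by
            gcongr
            · exact h u hu'
            · exact hl u hu'
        _ = 4 * C / ‖z‖ := by field_simp; ring
  rw [hI, (fA.init W z hz.1).2.1, sub_zero, abs_of_nonneg ht] at hb
  refine le_trans (le_of_eq ?_) (hb.trans (le_of_eq (by ring)))
  congr 1
  push_cast
  ring

end Whyd

theorem s_whyd (hb : SLE.S_bnd) : S_whyd := by
  intro W t ht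
  obtain ⟨M, hM0, hM, -⟩ := SLE.exists_bound W t
  have hs : dom W t ⊆ HP := fun z hz => hz.1
  have e : HP \ (HP \ dom W t) = dom W t := sdiff_sdiff_cancel_left hs
  have hc := SLE.cf_fi W ht
  have hsh : ∀ ζ ∈ HP, ζ - (W t : ℂ) ∈ HP := fun ζ h => by
    have h' : 0 < ζ.im := h
    show 0 < (ζ - (W t : ℂ)).im
    simpa using h'
  have hal : ∀ z ∈ HP, 2 * t + 3 * M + 3 ≤ ‖z‖ → z ∈ dom W t := fun z hz => (hb W t M z hM).2 ht hz
  refine ⟨sdiff_subset, ?_, ?_, ?_, ?_⟩
  · refine (isBounded_ball (x := (0 : ℂ)) (r := 2 * t + 3 * M + 3)).subset fun z hz => ?_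
    rw [mem_ball_zero_iff]
    exact not_le.1 fun h => hz.2 (hal z hz.1 h)
  · rw [e]
    refine ⟨hc.oV, hc.oU, hc.hg.add_const _,
      hc.hf.comp (differentiableOn_id.sub_const _) hsh, fun z hz => ?_,
      fun ζ h => hc.mf (hsh ζ h), fun z hz => ?_, fun ζ h => ?_⟩
    · have h' : 0 < (Zf W t z).im := hc.mg hz
      show 0 < (Zf W t z + (W t : ℂ)).im
      simpa using h'
    · rw [add_sub_cancel_right, hc.fg z hz]
    · rw [hc.gf _ (hsh ζ h), sub_add_cancel]
  · rw [e]
    exact ⟨_, fun z hz => (hb W t M z hM).1 t ⟨ht, le_rfl⟩ hz⟩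
  · have hC : 0 < 2 * t + 3 * M + 3 := by positivity
    have hn : Tendsto (fun z : ℂ => ‖z‖) (cocompact ℂ ⊓ 𝓟 HP) atTop :=
      Tendsto.mono_left tendsto_norm_cocompact_atTop inf_le_left
    refine tendsto_iff_norm_sub_tendsto_zero.2 (squeeze_zero' (Eventually.of_forall fun _ =>
      norm_nonneg _) ?_ (hn.const_div_atTop (4 * (2 * t + 3 * M + 3) * t)))
    filter_upwards [hn.eventually_ge_atTop (2 * (2 * t + 3 * M + 3)),
      mem_inf_of_right (mem_principal_self HP)] with z h1 h2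
    have hz := hal z h2 (by linarith)
    refine Whyd.est ht hz hC (fun u hu => ?_) h1
    have h3 := (hb W t M z hM).1 u hu (SLE.fA.dom_anti W u t hu.1 hu.2 hz)
    have h4 := norm_sub_le (Zf W u z + W u - z) (W u : ℂ)
    rw [norm_real, Real.norm_eq_abs, show Zf W u z + W u - z - W u = Zf W u z - z by ring] at h4
    linarith [hM u hu]

end Vale.Agent.P153.A2
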