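import Vale.Agent.P153.Mean
import Vale.Agent.P153.SLE.Acc
import Vale.Agent.P153.SLE.Bnd
import Vale.Agent.P153.SLE.DFar
import Vale.Agent.P153.A2.Arcs
import Vale.Agent.P153.A2.Bv
import Vale.Agent.P153.A2.Cay
import Vale.Agent.P153.A2.Cf
import Vale.Agent.P153.A2.Cross
import Vale.Agent.P153.A2.Dc
import Vale.Agent.P153.A2.Had
import Vale.Agent.P153.A2.Incr
import Vale.Agent.P153.A2.Jl
import Vale.Agent.P153.A2.Jmap
import Vale.Agent.P153.A2.Ker
import Vale.Agent.P153.A2.Lim1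
import Vale.Agent.P153.A2.Lim2
import Vale.Agent.P153.A2.Lr
import Vale.Agent.P153.A2.Lr0
import Vale.Agent.P153.A2.Lr1
import Vale.Agent.P153.A2.Main
import Vale.Agent.P153.A2.Maps0
import Vale.Agent.P153.A2.Ms
import Vale.Agent.P153.A2.Nd2
import Vale.Agent.P153.A2.Nu
import Vale.Agent.P153.A2.Obs
import Vale.Agent.P153.A2.Poly
import Vale.Agent.P153.A2.Seq
import Vale.Agent.P153.A2.Side
import Vale.Agent.P153.A2.Small
import Vale.Agent.P153.A2.Step
import Vale.Agent.P153.A2.Surv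
import Vale.Agent.P153.A2.Uniq
import Vale.Agent.P153.A2.Whyd

/-! The module assembled. -/

namespace Vale.Agent.P153.A2

theorem jl_all : S_jl := s_jl s_poly
theorem dc_all : S_dc := s_dc s_poly

theorem maps_all : S_maps :=
  s_maps Wick.s_ld1 Wick.arc_ok Wick.s_conf (s_maps0 Wick.s_emb Wick.arc_ok
    (s_jmap s_cay Wick.s_conf CA.wind_all CA.car_all CA.rado_all) jl_all) (s_arcs jl_all s_poly)

theorem tipz_all : S_tipz := s_tipz s_cay (SLE.s_acc SLE.s_alv)
theorem whyd_all : S_whyd := s_whyd SLE.s_bnd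
theorem fin_all : S_fin := s_fin s_cay SLE.s_bnd

theorem step_all : S_step :=
  s_step s_cay SLE.s_bnd tipz_all (s_incr s_cay whyd_all (s_surv SLE.s_alv) SLE.s_bnd) fin_all

theorem ms_all : S_ms :=
  s_ms jl_all s_poly s_walls dc_all (s_cf s_cay) s_full (s_lr jl_all s_poly dc_all (s_cf s_cay)
    (s_lr0 s_cay (s_cf s_cay) s_cross s_side tipz_all SLE.s_bnd) (s_lr1 jl_all dc_all s_side) s_side)

theorem seq_all : S_seq := s_seq s_ker1 s_ker2

theorem bv_all : S_bv :=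
  s_bv (K2.bvr_all App2.l_mb_all) App2.l_mb_all (s_small CA.t2d_all s_ker1) seq_all s_ker1

theorem obs_all : S_obs :=
  s_obs uniM_all Wick.s_loc (Drive.s_far SLE.fA) s_cay dc_all ms_all s_mon s_ker3 seq_all bv_all
    (s_nd2 SLE.fA SLE.cB s_cay SLE.s_bnd) (s_lim1 s_cay) (s_lim2 s_cay s_had s_qint)

theorem out_all (h : S_lat) : Out :=
  out_of (Wick.s_bij Wick.ld2_ok) Wick.s_loc Wick.ld2_ok h s_poly dc_all (s_drv s_cay)
    (s_uniq whyd_all tipz_all) fin_all step_all (s_mesh s_poly dc_all) (s_nu s_cay) obs_all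

end Vale.Agent.P153.A2
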