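import Vale.Agent.P153.A2.LatStm
import Vale.Agent.P153.CA.Basic
import Vale.Agent.P153.CA.Jct

/-! The winding number of a closed curve. -/

open Set Filter Topology Metric Complex
open scoped Real

noncomputable section
namespace Vale.Agent.P153.A2

open Vale.Agent.P153.CA (circ)
open Vale.Agent.P153.Wick (Fr arcP arcM)

theorem LatDg_mul {g g' u : ℝ → ℂ} {a b : ℂ} {n : ℤ} (h : Dg g a n)
    (hu : ContinuousOn u (Icc 0 1)) (h1 : u 1 = u 0)
    (e : ∀ t ∈ Icc (0 : ℝ) 1, exp (u t) * (g t - a) = g' t - b) : Dg g' b n := by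
  obtain ⟨l, l1, l2, l3⟩ := h
  refine ⟨fun t => u t + l t, hu.add l1, fun t ht => by rw [exp_add, l2 t ht, e t ht], ?_⟩
  simp only [h1, l3, add_assoc]

theorem s_dg (hd : CA.S_bdir) : S_dg := by
  intro γ hc h1
  have z0 : (0 : ℝ) ∈ Icc (0 : ℝ) 1 := left_mem_Icc.2 zero_le_one
  have z1 : (1 : ℝ) ∈ Icc (0 : ℝ) 1 := right_mem_Icc.2 zero_le_one
  have hK : IsCompact (γ '' Icc 0 1) := isCompact_Icc.image_of_continuousOn hc
  refine ⟨fun a ha => ?_, ?_, fun S a b n hS hD ha hb h => ?_, fun a ha hb => ?_,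
    fun γ' a n hc' h1' hn h => ?_⟩
  · obtain ⟨l, l1, l2⟩ := CA.lift_Icc (g := fun t => γ t - a) zero_le_one
      (hc.sub continuousOn_const) fun t ht e => ha ⟨t, ht, sub_eq_zero.1 e⟩
    obtain ⟨n, hn⟩ := exp_eq_exp_iff_exists_int.1 (show exp (l 1) = exp (l 0) by
      rw [l2 1 z1, l2 0 z0, h1])
    exact ⟨n, l, l1.continuousOn, l2, hn⟩
  · rintro a n n' ⟨l, l1, l2, l3⟩ ⟨l', m1, m2, m3⟩
    have e := CA.log_const isPreconnected_Icc l1 m1 (fun t ht => by rw [l2 t ht, m2 t ht]) z1 z0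
    rw [l3, m3] at e
    have e' : (n : ℂ) * (2 * π * I) = n' * (2 * π * I) := by linear_combination e
    exact_mod_cast mul_right_cancel₀ two_pi_I_ne_zero e'
  · obtain ⟨l, l1, l2⟩ := hd.1 _ S b a hK.isClosed hS hD hb ha
    refine LatDg_mul h (u := fun t => l (γ t)) (l1.comp hc (mapsTo_image _ _)) (by simp only [h1])
      fun t ht => ?_
    rw [l2 _ ⟨t, ht, rfl⟩, div_mul_cancel₀]
    exact sub_ne_zero.2 fun e => disjoint_left.1 hD ha ⟨t, ht, e⟩
  · obtain ⟨l, l1, l2⟩ := hd.2 _ _ a hK isPreconnected_connectedComponentIn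
      (disjoint_left.2 fun z hz => connectedComponentIn_subset _ _ hz)
      (mem_connectedComponentIn ha) hb
    exact ⟨fun t => l (γ t), l1.comp hc (mapsTo_image _ _), fun t ht => l2 _ ⟨t, ht, rfl⟩,
      by simp [h1]⟩
  · have n0 : ∀ t ∈ Icc (0 : ℝ) 1, γ t - a ≠ 0 := fun t ht =>
      norm_pos_iff.1 ((norm_nonneg _).trans_lt (hn t ht))
    have sl : ∀ t ∈ Icc (0 : ℝ) 1, (γ' t - a) / (γ t - a) ∈ slitPlane := fun t ht => by
      have e : (γ' t - a) / (γ t - a) = 1 + (γ' t - γ t) / (γ t - a) := by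
        field_simp [n0 t ht]
        ring
      rw [e]
      refine mem_slitPlane_of_norm_lt_one ?_
      rw [norm_div, div_lt_one (norm_pos_iff.2 (n0 t ht))]
      exact hn t ht
    refine LatDg_mul h (u := fun t => log ((γ' t - a) / (γ t - a)))
      (((hc'.sub continuousOn_const).div (hc.sub continuousOn_const) n0).clog sl)
      (by simp only [h1, h1']) fun t ht => ?_
    rw [exp_log (slitPlane_ne_zero (sl t ht)), div_mul_cancel₀ _ (n0 t ht)]

theorem LatDg_no (hc : CA.S_bconv) {ψ : ℂ → ℂ} (hψ : IsJordanMap ψ) :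
    ¬ CA.HasLog (fun z => (ψ z - ψ 0) * z) (sphere 0 1) := by
  intro hl
  have ha : (0 : ℂ) ∈ ball (0 : ℂ) 1 := mem_ball_self one_pos
  have hn := isOpen_ball.mem_nhds ha
  have hne : ∀ z ∈ closedBall (0 : ℂ) 1, z ≠ 0 → ψ z - ψ 0 ≠ 0 := fun z hz h e =>
    h (hψ.2.1 hz (ball_subset_closedBall ha) (sub_eq_zero.1 e))
  have h1 : AnalyticAt ℂ (fun z => ψ z - ψ 0) 0 := (hψ.2.2.analyticAt hn).sub analyticAt_const
  obtain ⟨m, g, h2, h3, h4⟩ := h1.exists_eventuallyEq_pow_smul_nonzero_iff.2 fun h => by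
    have h5 : ∀ᶠ z in 𝓝[≠] (0 : ℂ), False := by
      filter_upwards [nhdsWithin_le_nhds h, nhdsWithin_le_nhds hn, self_mem_nhdsWithin]
        with z e1 e2 e3
      exact hne z (ball_subset_closedBall e2) e3 e1
    exact h5.exists.choose_spec
  classical
  let G : ℂ → ℂ := fun z => if z = 0 then g 0 else (ψ z - ψ 0) / (z - 0) ^ m
  have hG0 : ∀ z ∈ closedBall (0 : ℂ) 1, G z ≠ 0 := fun z hz => by
    by_cases h : z = 0
    · simpa [G, h] using h3
    · simp only [G, if_neg h]
      exact div_ne_zero (hne z hz h) (pow_ne_zero _ (sub_ne_zero.2 h))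
  have hG : ContinuousOn G (closedBall 0 1) := fun z hz => by
    by_cases h : z = 0
    · subst h
      refine (h2.continuousAt.congr (h4.mono fun y hy => ?_)).continuousWithinAt
      by_cases e : y = 0
      · simp [G, e]
      · simp only [G, if_neg e, hy, smul_eq_mul]
        rw [mul_div_cancel_left₀ _ (pow_ne_zero _ (sub_ne_zero.2 e))]
    · have h5 : ContinuousWithinAt (fun z => (ψ z - ψ 0) / (z - 0) ^ m) (closedBall 0 1) z :=
        ((hψ.1 z hz).sub continuousWithinAt_const).div (by fun_prop)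
          (pow_ne_zero _ (sub_ne_zero.2 h))
      refine h5.congr_of_eventuallyEq ?_ (if_neg h)
      filter_upwards [nhdsWithin_le_nhds (isOpen_ne.mem_nhds h)] with y hy using if_neg hy
  have e := closure_ball (0 : ℂ) one_ne_zero
  have k := hc (ball 0 1) 0 ((m + 1 : ℕ) : ℤ) (fun z => (G z)⁻¹) isOpen_ball isBounded_ball
    ha (e ▸ hG.inv₀ hG0) (fun z hz => inv_ne_zero (hG0 z (e ▸ hz))) (by
      rw [frontier_ball _ one_ne_zero]
      refine hl.congr fun z hz => ?_
      have h : z ≠ 0 := by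
        rintro rfl
        exact (mem_ball.1 ha).ne (mem_sphere.1 hz)
      simp only [G, if_neg h, zpow_natCast, div_inv_eq_mul, sub_zero, pow_succ]
      field_simp)
  omega

theorem s_psi (hc : CA.S_bconv) : S_psi := by
  rintro ψ hψ ⟨l, l1, l2, l3⟩
  obtain ⟨l0, m1, m2⟩ := CA.descend (j := circ) (L := fun t => l t + π * I * (1 - 2 * (t : ℂ)))
    (K := Icc 0 1) isCompact_Icc CA.jloop_circ.cont.continuousOn (l1.add (by fun_prop)) (by
      intro s hs t ht e
      obtain ⟨k, hk⟩ := CA.jloop_circ.eq_iff e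
      have k1 : (k : ℝ) ≤ 1 := by linarith [hs.2, ht.1]
      have k2 : (-1 : ℝ) ≤ k := by linarith [hs.1, ht.2]
      have k3 : k = -1 ∨ k = 0 ∨ k = 1 := by
        have : k ≤ 1 := by exact_mod_cast k1
        have : -1 ≤ k := by exact_mod_cast k2
        omega
      rcases k3 with rfl | rfl | rfl
      · have a : s = 0 := by push_cast at hk; linarith [hs.1, ht.2]
        have b : t = 1 := by push_cast at hk; linarith
        rw [a, b, l3]
        push_cast
        ring
      · rw [show s = t by simpa using hk]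
      · have a : t = 0 := by push_cast at hk; linarith [hs.2, ht.1]
        have b : s = 1 := by push_cast at hk; linarith
        rw [a, b, l3]
        push_cast
        ring)
  have e : circ '' Icc 0 1 = sphere 0 1 := by
    rw [← CA.range_circ, CA.jloop_circ.toLoop.range_Icc 0, zero_add]
  refine LatDg_no hc hψ ⟨l0, e ▸ m1, fun z hz => ?_⟩
  obtain ⟨t, ht, rfl⟩ := e.symm ▸ hz
  rw [m2 t ht, exp_add, l2 t ht]
  rfl

end Vale.Agent.P153.A2
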