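import Vale.Agent.P153.A2.LatStm
import Vale.Agent.P153.Wick.Ld1
import Vale.Agent.P153.CA.Basic

/-! Faces of the lattice and the polygonal domain. -/

open Set Filter Topology Metric Complex
open scoped Real

noncomputable section
namespace Vale.Agent.P153.A2

open Vale.Agent.P153.Wick

theorem LatFace_seg (L : LDom) {z : ℂ} (hz : z ∈ L.bd '' Icc 0 1) :
    ∃ i < L.N, z ∈ segment ℝ (emb (L.β i)) (emb (L.β (i + 1))) := by
  obtain ⟨i, hi, t, ht, rfl⟩ := Ld2.curve L hz
  refine ⟨i, hi, ?_⟩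
  rw [segment_eq_image']
  exact ⟨t, ht, rfl⟩

theorem LatFace_mid (a b : ℂ) : (a + b) / 2 ∈ segment ℝ a b :=
  ⟨1 / 2, 1 / 2, by norm_num, by norm_num, by norm_num, by
    simp only [real_smul]; push_cast; ring⟩

theorem LatFace_ins (L : LDom) {S : Set ℂ} (hS : Convex ℝ S) (hd : Disjoint S (L.bd '' Icc 0 1))
    {p z : ℂ} (hp : p ∈ closure S) (hn : p ∉ L.bd '' Icc 0 1) (hz : z ∈ insert p S)
    (hi : z ∈ L.dom) : insert p S ⊆ L.dom :=
  CA.inside_of_preconn (hS.isPreconnected.subset_closure (subset_insert p S)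
    (insert_subset hp subset_closure)) (disjoint_insert_left.2 ⟨hn, hd⟩) hz hi

theorem s_face (ht : S_tri) (hp : S_plan) : S_face := by
  obtain ⟨t1, t2, t3, t4, t5, -⟩ := ht
  intro L
  have hd : ∀ l r, Adj l r → Disjoint (tri l r) (L.bd '' Icc 0 1) := fun l r h =>
    disjoint_left.2 fun z hz hc => by
      obtain ⟨i, hi, h1⟩ := LatFace_seg L hc
      exact disjoint_left.1 (t5 l r _ _ h (L.adj i hi)) hz h1
  intro l r h
  have hm : ¬ BE L l r → (emb l + emb r) / 2 ∉ L.bd '' Icc 0 1 := fun hb hc => by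
    obtain ⟨i, hi, h1⟩ := LatFace_seg L hc
    have h2 : emb r - emb l ≠ 0 := fun e => by simpa [e] using Ld1.norm_adj h
    rcases hp l r _ _ h (L.adj i hi) _ (LatFace_mid _ _) h1 with e | e | e
    · exact h2 (by linear_combination 2 * e)
    · exact h2 (by linear_combination -2 * e)
    · exact hb ⟨i, hi, e⟩
  refine ⟨hd l r h, hm, fun hc => ⟨CA.inside_of_preconn (t1 l r).isPreconnected (hd l r h)
    (t3 l r) hc, ?_, fun hb => ?_⟩⟩
  · by_cases hv : nxt l r ∈ L.β '' Iio L.N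
    · exact Or.inr hv
    · refine Or.inl (LatFace_ins L (t1 l r) (hd l r h)
        (t2 l r ▸ t4 r (nxt l r) (right_mem_segment _ _ _)) (fun hj => hv ?_)
        (mem_insert_of_mem _ (t3 l r)) hc (mem_insert _ _))
      obtain ⟨i, hi, t, ht, e⟩ := Ld2.curve L hj
      obtain ⟨c1, c2⟩ := Ld2.coord (x := nxt l r) (y := nxt l r) (s := 0) (by simpa using e)
      rcases Ld2.vert (x := nxt l r) (L.adj i hi) ht (by linarith) (by linarith) with e | e <;>
        rw [e]
      exacts [Ld2.succ_mem L hi.le, Ld2.succ_mem L hi]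
  · have h1 := LatFace_ins L (t1 l r) (hd l r h) (t4 l r (LatFace_mid _ _)) (hm hb)
      (mem_insert_of_mem _ (t3 l r)) hc (mem_insert _ _)
    exact ⟨h1, LatFace_ins L (t1 r l) (hd r l h.symm)
      (t4 r l (segment_symm ℝ (emb l) (emb r) ▸ LatFace_mid _ _)) (hm hb) (mem_insert _ _) h1
      (mem_insert_of_mem _ (t3 r l))⟩

end Vale.Agent.P153.A2
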