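import Vale.Agent.P153.A2.LatStm
import Vale.Agent.P153.Wick.Ld1
import Vale.Agent.P153.CA.Basic

/-! The winding number jumps by one across the last edge of the polygon. -/

open Set Filter Topology Metric Complex
open scoped Real ComplexConjugate

noncomputable section
namespace Vale.Agent.P153.A2

open Vale.Agent.P153.Wick

theorem LatJump_nxt (v a : V) :
    emb (nxt v a) = emb v + (1 / 2 + I * (√3 / 2 : ℝ)) * (emb a - emb v) := by
  have h3 : (√3 : ℝ) * √3 = 3 := Real.mul_self_sqrt (by norm_num)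
  apply Complex.ext
  · simp only [emb, nxt, add_re, mul_re, sub_re, add_im, mul_im, sub_im, intCast_re, intCast_im,
      I_re, I_im, ofReal_re, ofReal_im, one_div, inv_re, inv_im, normSq_ofNat, re_ofNat, im_ofNat]
    push_cast
    linear_combination (((a.2 : ℝ) - v.2) / 4) * h3
  · simp only [emb, nxt, add_re, mul_re, sub_re, add_im, mul_im, sub_im, intCast_re, intCast_im,
      I_re, I_im, ofReal_re, ofReal_im, one_div, inv_re, inv_im, normSq_ofNat, re_ofNat, im_ofNat]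
    push_cast
    ring

theorem LatJump_core {γ : ℝ → ℂ} {m d : ℂ} (hd : d ≠ 0) {c b : ℝ} (hc : 0 < c) (hb0 : 0 ≤ b)
    (hb1 : b ≤ 1) (h0 : γ 0 = m + (1 / 2 : ℝ) * d) (h1 : γ 1 = m + (1 / 2 : ℝ) * d)
    (hb : γ b = m + (-1 / 2 : ℝ) * d) (hB : ∀ t ∈ Icc b 1, ∃ x : ℝ, γ t = m + x * d)
    (hA : ∀ t ∈ Icc 0 b, ∀ y : ℝ, |y| ≤ c → γ t ≠ m + I * y * d) {n n' : ℤ}
    (h : Dg γ (m + I * c * d) n) (h' : Dg γ (m - I * c * d) n') : n = n' + 1 := by
  obtain ⟨l, lc, le, l1⟩ := h
  obtain ⟨k, kc, ke, k1⟩ := h'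
  obtain ⟨F, hF⟩ : ∃ F : ℝ → ℂ, ∀ t, F t = (γ t - (m + I * c * d)) * conj (γ t - (m - I * c * d)) :=
    ⟨_, fun _ => rfl⟩
  obtain ⟨D, hD⟩ : ∃ D : ℝ → ℂ, D = fun t => l t + conj (k t) := ⟨_, rfl⟩
  have Dc : ContinuousOn D (Icc 0 1) := by
    rw [hD]; exact lc.add (continuous_conj.comp_continuousOn kc)
  have De : ∀ t ∈ Icc (0 : ℝ) 1, exp (D t) = F t := fun t ht => by
    rw [hD, hF, ← le t ht, ← ke t ht, exp_add, exp_conj]
  have Fc : ContinuousOn F (Icc 0 1) :=
    (continuous_exp.comp_continuousOn Dc).congr fun t ht => (De t ht).symm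
  have hN : 0 < normSq d := normSq_pos.2 hd
  have hu : ∀ t (u : ℂ), γ t = m + u * d → (F t).re = normSq d * (u.re ^ 2 + u.im ^ 2 - c ^ 2) ∧
      (F t).im = -(2 * c * normSq d * u.re) := fun t u e => by
    have e1 : F t = (normSq d : ℝ) * ((u - I * c) * conj (u + I * c)) := by
      rw [hF, e, ← mul_conj, show m + u * d - (m - I * c * d) = (u + I * c) * d by ring, map_mul]
      ring
    rw [e1]
    constructor <;>
      simp only [mul_re, mul_im, sub_re, sub_im, add_re, add_im, conj_re, conj_im, ofReal_re,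
        ofReal_im, I_re, I_im] <;> ring
  have sA : ∀ t ∈ Icc 0 b, F t ∈ slitPlane := fun t ht => by
    obtain ⟨u, e⟩ : ∃ u : ℂ, γ t = m + u * d := ⟨(γ t - m) / d, by field_simp; ring⟩
    obtain ⟨e1, e2⟩ := hu t u e
    by_contra hn
    rw [mem_slitPlane_iff, not_or, not_lt, not_not, e1, e2] at hn
    have r0 : u.re = 0 := by
      have := hn.2
      rw [neg_eq_zero] at this
      exact (mul_eq_zero.1 this).resolve_left (by positivity)
    have i0 : u.im ^ 2 ≤ c ^ 2 := by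
      have := hn.1
      rw [r0] at this
      nlinarith
    refine hA t ht u.im (abs_le_of_sq_le_sq' i0 hc.le |> abs_le.2) ?_
    rw [e]
    congr 2
    apply Complex.ext <;> simp [r0]
  have sB : ∀ t ∈ Icc b 1, -F t ∈ slitPlane := fun t ht => by
    obtain ⟨x, e⟩ := hB t ht
    obtain ⟨e1, e2⟩ := hu t x e
    rw [mem_slitPlane_iff, neg_re, neg_im, e1, e2, ofReal_re, ofReal_im]
    by_cases hx : x = 0
    · left
      rw [hx]
      nlinarith [mul_pos hN (pow_pos hc 2)]
    · right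
      rw [neg_neg]
      exact mul_ne_zero (by positivity) hx
  have sa : Icc 0 b ⊆ Icc (0 : ℝ) 1 := Icc_subset_Icc le_rfl hb1
  have sb : Icc b 1 ⊆ Icc (0 : ℝ) 1 := Icc_subset_Icc hb0 le_rfl
  have A := CA.log_const (l := D) (l' := fun t => log (F t)) isPreconnected_Icc (Dc.mono sa)
    ((Fc.mono sa).clog sA) (fun t ht => by
      rw [De t (sa ht), exp_log (slitPlane_ne_zero (sA t ht))]) (x := 0) (y := b)
    ⟨le_rfl, hb0⟩ ⟨hb0, le_rfl⟩
  have B := CA.log_const (l := D) (l' := fun t => log (-F t) + π * I) isPreconnected_Icc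
    (Dc.mono sb) (((Fc.mono sb).neg.clog sB).add continuousOn_const) (fun t ht => by
      rw [De t (sb ht), exp_add, exp_log (slitPlane_ne_zero (sB t ht)), exp_pi_mul_I]; ring)
    (x := b) (y := 1) ⟨le_rfl, hb1⟩ ⟨hb1, le_rfl⟩
  have F1 : F 0 = F 1 := by rw [hF, hF, h0, h1]
  have i1 : (F 1).im < 0 := by
    rw [(hu 1 _ h1).2, ofReal_re]
    nlinarith [mul_pos hc hN]
  have ib : 0 < (F b).im := by
    rw [(hu b _ hb).2, ofReal_re]
    nlinarith [mul_pos hc hN]
  have a1 := arg_neg_eq_arg_add_pi_of_im_neg i1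
  have ab := arg_neg_eq_arg_sub_pi_of_im_pos ib
  have A' := congrArg im A
  have B' := congrArg im B
  have D1 : (D 1).im = (D 0).im + 2 * π * (n - n') := by
    rw [hD]
    simp only [l1, k1]
    simp
    ring
  simp only [sub_im, add_im, log_im, F1, a1, ab] at A' B'
  have e : (n : ℝ) = n' + 1 := by
    have : 2 * π * ((n : ℝ) - n' - 1) = 0 := by linarith
    have := (mul_eq_zero.1 this).resolve_left (by positivity)
    linarith
  exact_mod_cast e

theorem s_jump (_ht : S_tri) (hf : S_face) (hp : S_plan) : S_jump := by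
  intro L n n' h h'
  have h3 : (√3 : ℝ) * √3 = 3 := Real.mul_self_sqrt (by norm_num)
  have s3 : (0 : ℝ) < √3 := by positivity
  have T := L.three
  obtain ⟨M, hM⟩ : ∃ M, L.N = M + 1 := ⟨L.N - 1, by omega⟩
  have hM' : L.N - 1 = M := by omega
  rw [hM'] at h h'
  have hc : L.β (M + 1) = L.β 0 := hM ▸ L.closed
  have ad : Adj (L.β M) (L.β 0) := hc ▸ L.adj M (by omega)
  have ad' : Adj (L.β 0) (L.β M) := ad.symm
  obtain ⟨d, hd⟩ : ∃ d, d = emb (L.β 0) - emb (L.β M) := ⟨_, rfl⟩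
  obtain ⟨m, hm⟩ : ∃ m, m = (emb (L.β 0) + emb (L.β M)) / 2 := ⟨_, rfl⟩
  have d0 : d ≠ 0 := by
    rw [← norm_ne_zero_iff, hd, Ld1.norm_adj ad]; exact one_ne_zero
  have hN : (0 : ℝ) < L.N := Nat.cast_pos.2 (by omega)
  have hNM : (L.N : ℝ) = M + 1 := by rw [hM, Nat.cast_succ]
  have e : ∀ t, L.bd t = Ld1.pl (fun i => emb (L.β i)) (L.N * t) := fun _ => rfl
  have eb : (L.N : ℝ) * (M / L.N) = M := mul_div_cancel₀ _ hN.ne'
  have b1 : (M : ℝ) / L.N ≤ 1 := by rw [div_le_one hN]; linarith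
  refine LatJump_core (γ := L.bd) (m := m) d0 (c := √3 / 6) (b := M / L.N) (by positivity)
    (by positivity) b1 ?_ ?_ ?_ (fun t ht => ?_) (fun t ht y hy ey => ?_) ?_ ?_
  · rw [e, mul_zero, ← Nat.cast_zero (R := ℝ), Ld1.pl_nat, hm, hd]
    push_cast; ring
  · rw [e, mul_one, Ld1.pl_nat, L.closed, hm, hd]
    push_cast; ring
  · rw [e, eb, Ld1.pl_nat, hm, hd]
    push_cast; ring
  · have hu : (L.N : ℝ) * t ∈ Icc (M : ℝ) (M + 1) :=
      ⟨by nlinarith [mul_le_mul_of_nonneg_left ht.1 hN.le], by nlinarith [ht.2]⟩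
    refine ⟨L.N * t - M - 1 / 2, ?_⟩
    rw [e, Ld1.pl_eq _ M hu, hc, hm, hd]
    push_cast; ring
  · have hin : L.bd t ∈ L.bd '' Icc 0 1 := ⟨t, ⟨ht.1, ht.2.trans b1⟩, rfl⟩
    obtain ⟨s, rfl⟩ : ∃ s : ℝ, y = √3 * s := ⟨y / √3, by field_simp⟩
    have hs : |s| ≤ 1 / 6 := by
      rw [abs_mul, abs_of_pos s3] at hy
      exact le_of_mul_le_mul_left (by linarith) s3
    obtain ⟨s1, s2⟩ := abs_le.1 hs
    rcases lt_trichotomy s 0 with s0 | s0 | s0
    · refine disjoint_left.1 (hf L _ _ ad').1 ⟨1 / 2 + s, -2 * s, by linarith, by linarith,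
        by linarith, ?_⟩ hin
      rw [ey, LatJump_nxt, hm, hd]
      push_cast; ring
    · have hu : (L.N : ℝ) * t ∈ Icc (0 : ℝ) M :=
        ⟨mul_nonneg hN.le ht.1, by nlinarith [mul_le_mul_of_nonneg_left ht.2 hN.le]⟩
      obtain ⟨i, hi, hu⟩ := Ld1.piece (by omega) hu
      have em : L.bd t = m := by rw [ey, s0]; simp
      have m1 : m ∈ segment ℝ (emb (L.β M)) (emb (L.β 0)) :=
        ⟨1 / 2, 1 / 2, by norm_num, by norm_num, by norm_num, by
          rw [hm]; simp only [real_smul]; push_cast; ring⟩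
      have m2 : m ∈ segment ℝ (emb (L.β i)) (emb (L.β (i + 1))) :=
        ⟨1 - (L.N * t - i), L.N * t - i, by linarith [hu.2], by linarith [hu.1], by ring, by
          rw [← em, e, Ld1.pl_eq _ i hu]; simp only [real_smul]; push_cast; ring⟩
      rcases hp _ _ _ _ ad (L.adj i (by omega)) m m1 m2 with k | k | k | k
      · exact d0 (by rw [hd]; rw [hm] at k; linear_combination 2 * k)
      · exact d0 (by rw [hd]; rw [hm] at k; linear_combination (-2) * k)
      · have := L.inj (show i < L.N by omega) (show M < L.N by omega) k.1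
        omega
      · have k1 := L.inj (show i < L.N by omega) (show 0 < L.N by omega) k.1
        have k2 := L.inj (show i + 1 < L.N by omega) (show M < L.N by omega) k.2
        omega
    · refine disjoint_left.1 (hf L _ _ ad).1 ⟨1 / 2 - s, 2 * s, by linarith, by linarith,
        by linarith, ?_⟩ hin
      rw [ey, LatJump_nxt, hm, hd]
      push_cast; ring
  · rw [show m + I * (√3 / 6 : ℝ) * d = cen (L.β M) (L.β 0) by
      rw [cen, LatJump_nxt, hm, hd]; push_cast; ring]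
    exact h
  · rw [show m - I * (√3 / 6 : ℝ) * d = cen (L.β 0) (L.β M) by
      rw [cen, LatJump_nxt, hm, hd]; push_cast; ring]
    exact h'

end Vale.Agent.P153.A2
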