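import Vale.Agent.P153.A2.LatStm
import Vale.Agent.P153.Wick.Ld1

/-! The interface is a simple polygonal line inside the domain. -/

open Set Filter Topology Metric Complex
open scoped Real

noncomputable section
namespace Vale.Agent.P153.A2

theorem LatLine_embne {a b : V} (h : Adj a b) : emb b - emb a ≠ 0 := by
  intro e
  have := Wick.Ld1.norm_adj h
  rw [e, norm_zero] at this
  exact zero_ne_one this

theorem LatLine_step (L : LDom) (h : V → ℤ) (i : ℕ) :
    L.edge h (i + 1) = (nxt (L.edge h i).1 (L.edge h i).2, (L.edge h i).2) ∨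
    L.edge h (i + 1) = ((L.edge h i).1, nxt (L.edge h i).1 (L.edge h i).2) := by
  rw [edge_succ, step_eq]
  split_ifs
  · exact Or.inl rfl
  · exact Or.inr rfl

theorem LatLine_key (L : LDom) (h : V → ℤ) (i : ℕ) {t : ℝ} (ht : t ∈ Ioo (0 : ℝ) 1) :
    mid L h i + (t : ℂ) * (mid L h (i + 1) - mid L h i) ∈ tri (L.edge h i).1 (L.edge h i).2 := by
  obtain ⟨h0, h1⟩ := ht
  rcases LatLine_step L h i with e | e
  · refine ⟨1 / 2, t / 2, by norm_num, by linarith, by linarith, ?_⟩
    simp only [mid, e]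
    push_cast
    ring
  · refine ⟨(1 - t) / 2, t / 2, by linarith, by linarith, by linarith, ?_⟩
    simp only [mid, e]
    push_cast
    ring

theorem LatLine_ne (L : LDom) (h : V → ℤ) (i : ℕ) (ha : Adj (L.edge h i).1 (L.edge h i).2) :
    mid L h (i + 1) - mid L h i ≠ 0 := by
  intro e0
  rcases LatLine_step L h i with e | e
  · refine LatLine_embne ha.nxt ?_
    simp only [mid, e] at e0
    linear_combination 2 * e0
  · refine LatLine_embne ha.nxt' ?_
    simp only [mid, e] at e0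
    linear_combination 2 * e0

theorem LatLine_midseg (L : LDom) (h : V → ℤ) (i : ℕ) :
    mid L h i ∈ segment ℝ (emb (L.edge h i).1) (emb (L.edge h i).2) := by
  refine ⟨1 / 2, 1 / 2, by norm_num, by norm_num, by norm_num, ?_⟩
  simp only [mid, real_smul]
  push_cast
  ring

theorem LatLine_midcut (hp : S_plan) (L : LDom) (h : V → ℤ) (i : ℕ)
    (ha : Adj (L.edge h i).1 (L.edge h i).2) {x y : V} (hxy : Adj x y)
    (hm : mid L h i ∈ segment ℝ (emb x) (emb y)) :
    L.edge h i = (x, y) ∨ L.edge h i = (y, x) := by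
  rcases hp _ _ x y ha hxy _ (LatLine_midseg L h i) hm with e | e | e | e
  · refine absurd ?_ (LatLine_embne ha)
    simp only [mid] at e
    linear_combination 2 * e
  · refine absurd ?_ (LatLine_embne ha)
    simp only [mid] at e
    linear_combination -2 * e
  · exact Or.inl (Prod.ext e.1.symm e.2.symm)
  · exact Or.inr (Prod.ext e.2.symm e.1.symm)

theorem LatLine_faces (ht : S_tri) {L : LDom} {ε : ℤ} {h : V → ℤ} (hε : ε = 1 ∨ ε = -1)
    (w : Wk L ε h) {i j : ℕ} (hi : i < L.len h) (hj : j < L.len h)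
    (hn : (tri (L.edge h i).1 (L.edge h i).2 ∩ tri (L.edge h j).1 (L.edge h j).2).Nonempty) :
    i = j := by
  have a1 := (w.lft i hi.le).1
  have a2 := (w.rgt i hi.le).1
  have a3 := (w.lft j hj.le).1
  have a4 := (w.rgt j hj.le).1
  rcases ht.2.2.2.2.2 _ _ _ _ (w.adj i) (w.adj j) hn with e | e | e
  · exact w.inj hi.le hj.le (Prod.ext e.1.symm e.2.symm)
  · rw [e.1] at a3
    omega
  · rw [e.2] at a4
    omega

theorem LatLine_cases (p : ℕ → ℂ) {M : ℕ} (hM : 0 < M) {s : ℝ} (hs : s ∈ Icc (0 : ℝ) 1) :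
    (∃ i ≤ M, s = i / M ∧ poly p M s = p i) ∨
    ∃ i < M, ∃ t ∈ Ioo (0 : ℝ) 1, s = (i + t) / M ∧
      poly p M s = p i + (t : ℂ) * (p (i + 1) - p i) := by
  have hM' : (0 : ℝ) < M := Nat.cast_pos.2 hM
  have e : poly p M s = Wick.Ld1.pl p (M * s) := rfl
  have hm : (M : ℝ) * s ∈ Icc (0 : ℝ) M :=
    ⟨mul_nonneg hM'.le hs.1, mul_le_of_le_one_right hM'.le hs.2⟩
  obtain ⟨i, hi, hu⟩ := Wick.Ld1.piece hM hm
  rcases hu.1.eq_or_lt with h1 | h1
  · refine Or.inl ⟨i, hi.le, ?_, ?_⟩
    · rw [h1]; field_simp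
    · rw [e, ← h1, Wick.Ld1.pl_nat]
  rcases hu.2.eq_or_lt with h2 | h2
  · have h3 : (M : ℝ) * s = ((i + 1 : ℕ) : ℝ) := by rw [h2, Nat.cast_succ]
    refine Or.inl ⟨i + 1, hi, ?_, ?_⟩
    · rw [← h3]; field_simp
    · rw [e, h3, Wick.Ld1.pl_nat]
  refine Or.inr ⟨i, hi, M * s - i, ⟨by linarith, by linarith⟩, ?_, ?_⟩
  · field_simp
    ring
  · rw [e, Wick.Ld1.pl_eq p i hu]

theorem s_line (ht : S_tri) (hf : S_face) (hp : S_plan) : S_line := by
  intro L ε h hε w
  have hM := w.pos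
  have hM' : (0 : ℝ) < L.len h := Nat.cast_pos.2 hM
  have hd := ht.2.2.2.2.1
  refine ⟨fun s hs s' hs' e => ?_, fun s hs => ?_, fun x y hxy s hs hm => ?_⟩
  · rcases LatLine_cases (mid L h) hM hs with ⟨i, hi, e1, e2⟩ | ⟨i, hi, t, ht1, e1, e2⟩ <;>
      rcases LatLine_cases (mid L h) hM hs' with ⟨j, hj, e3, e4⟩ | ⟨j, hj, u, hu1, e3, e4⟩
    · rw [e2, e4] at e
      have hij : i = j := by
        rcases LatLine_midcut hp L h i (w.adj i) (w.adj j) (e ▸ LatLine_midseg L h j) with c | c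
        · exact w.inj hi hj c
        · have a1 := (w.lft i hi).1
          have a4 := (w.rgt j hj).1
          rw [c] at a1
          dsimp only at a1
          omega
      rw [e1, e3, hij]
    · rw [e2, e4] at e
      exact absurd (LatLine_midseg L h i)
        (disjoint_left.1 (hd _ _ _ _ (w.adj j) (w.adj i)) (e ▸ LatLine_key L h j hu1))
    · rw [e2, e4] at e
      exact absurd (LatLine_midseg L h j)
        (disjoint_left.1 (hd _ _ _ _ (w.adj i) (w.adj j)) (e ▸ LatLine_key L h i ht1))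
    · rw [e2, e4] at e
      have hij : i = j :=
        LatLine_faces ht hε w hi hj ⟨_, LatLine_key L h i ht1, e ▸ LatLine_key L h j hu1⟩
      subst hij
      have e5 : (t : ℂ) = u :=
        mul_right_cancel₀ (LatLine_ne L h i (w.adj i)) (add_left_cancel e)
      rw [e1, e3, Complex.ofReal_injective e5]
  · rcases LatLine_cases (mid L h) hM (Ioo_subset_Icc_self hs) with
      ⟨i, hi, e1, e2⟩ | ⟨i, hi, t, ht1, e1, e2⟩
    · have h0 : 0 < i := by
        have := hs.1
        rw [e1, div_pos_iff_of_pos_right hM'] at this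
        exact_mod_cast this
      have h1 : i < L.len h := by
        have := hs.2
        rw [e1, div_lt_one hM'] at this
        exact_mod_cast this
      rw [e2]
      exact (((hf L _ _ (w.adj i)).2.2 (w.face i h1)).2.2 (w.nbe i h0 h1)).1
    · rw [e2]
      exact ((hf L _ _ (w.adj i)).2.2 (w.face i hi)).1 (LatLine_key L h i ht1)
  · rcases LatLine_cases (mid L h) hM hs with ⟨i, hi, e1, e2⟩ | ⟨i, hi, t, ht1, e1, e2⟩
    · rw [e2] at hm
      exact ⟨i, hi, e1, LatLine_midcut hp L h i (w.adj i) hxy hm⟩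
    · rw [e2] at hm
      exact absurd hm (disjoint_left.1 (hd _ _ _ _ (w.adj i) hxy) (LatLine_key L h i ht1))

end Vale.Agent.P153.A2
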