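import Vale.Agent.P153.A2.LatStm
import Vale.Agent.P153.Wick.Bij
import Vale.Agent.P153.Wick.Ld1
import Vale.Agent.P153.Wick.Emb

/-! The domain Markov property of the exploration. -/

open Set Filter Topology Metric Complex
open scoped Real

noncomputable section
namespace Vale.Agent.P153.A2

open Vale.Agent.P153.Wick (Fr arcP arcM)

variable {L : LDom} {ε : ℤ} {h k : V → ℤ} {m : ℕ}

theorem LatMark_val (hk : k ∈ L.Hts ε) (wk : Wk L ε k) (hm : m ≤ L.len k) :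
    (∀ x ∈ lA L k m, k x = ε) ∧ ∀ x ∈ rB L k m, k x = -ε := by
  constructor
  · rintro x (⟨i, hi, rfl⟩ | ⟨i, hi, rfl⟩)
    · exact hk.2.2.1 i hi
    · exact (wk.lft i (le_trans hi hm)).1
  · rintro x (⟨i, hi, rfl⟩ | ⟨i, hi, rfl⟩)
    · exact hk.2.2.2.1 i hi.1 hi.2
    · exact (wk.rgt i (le_trans hi hm)).1

theorem LatMark_back (hε : ε = 1 ∨ ε = -1) (hA : ∀ x ∈ lA L h m, k x = ε)
    (hB : ∀ x ∈ rB L h m, k x = -ε) : ∀ i ≤ m, L.edge k i = L.edge h i := by
  intro i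
  induction i with
  | zero => exact fun _ => rfl
  | succ i ih =>
    intro hi
    have e := ih (by omega)
    have h1 : k (L.edge h i).1 = ε := hA _ (Or.inr ⟨i, (by omega : i ≤ m), rfl⟩)
    have h2 := hA _ (Or.inr ⟨i + 1, hi, rfl⟩)
    have h3 := hB _ (Or.inr ⟨i + 1, hi, rfl⟩)
    simp only [edge_succ, step_eq] at h2 h3 ⊢
    rw [e]
    by_cases hc : h (nxt (L.edge h i).1 (L.edge h i).2) = h (L.edge h i).1
    · rw [if_pos hc] at h2 ⊢
      rw [if_pos (h2.trans h1.symm)]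
    · rw [if_neg hc] at h3 ⊢
      rw [if_neg (by simp only at h3; omega)]

theorem LatMark_iff (hε : ε = 1 ∨ ε = -1) (hw : ∀ k ∈ L.Hts ε, Wk L ε k) (hh : h ∈ L.Hts ε)
    (hm : m ≤ L.len h) (hk : k ∈ L.Hts ε) : lab L m k = lab L m h ↔
      (∀ x ∈ lA L h m, k x = ε) ∧ ∀ x ∈ rB L h m, k x = -ε := by
  refine ⟨fun e => ?_, fun e => funext fun i => LatMark_back hε e.1 e.2 _ (min_le_right _ _)⟩
  have e1 : ∀ i ≤ m, L.edge k i = L.edge h i := fun i hi => by
    simpa only [lab, min_eq_left hi] using congrFun e i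
  have e2 : m ≤ L.len k := by
    by_contra hc
    have h1 : L.len k ≤ m := (not_le.1 hc).le
    have h2 := (hw h hh).inj (h1.trans hm) (le_refl (L.len h))
      ((e1 _ h1).symm.trans ((hw k hk).last.trans (hw h hh).last.symm))
    omega
  have e3 : lA L h m = lA L k m := by
    rw [lA, lA, image_congr (s := Iic m) fun i hi => congrArg Prod.fst (e1 i hi)]
  have e4 : rB L h m = rB L k m := by
    rw [rB, rB, image_congr (s := Iic m) fun i hi => congrArg Prod.snd (e1 i hi)]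
  rw [e3, e4]
  exact LatMark_val hk (hw k hk) e2

theorem LatMark_ex {F A B W : Set V} (hW : ∀ x, x ∈ W ↔ x ∈ F ∨ x ∈ A ∨ x ∈ B)
    (ho : obd F ⊆ A ∪ B) (hA : A ⊆ Fᶜ) (hB : B ⊆ Fᶜ) (hd : Disjoint A B) (f : Cfg → ℝ) :
    Ex (Wick.Bij.T W A B) (fun k => f (toH k)) = Ex (dob F A) f := by
  rw [← Ex_bij (Wick.Bij.main hW ho hA hB hd)]
  refine Ex_congr fun H hH => congrArg f (funext fun x => ?_)
  simp only [toH]
  split_ifs with hx
  · omega
  · rw [(hH.2 x fun a => hx ((hW x).2 (Or.inl a))).2 fun a => hx ((hW x).2 (Or.inr (Or.inl a)))]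
    rfl

theorem s_mark : S_mark := by
  intro L ε h hε hw hh m hm f
  obtain ⟨-, ho, -⟩ := Wick.s_ld2 Wick.s_emb Wick.s_ld1 L
  obtain ⟨v1, v2⟩ := LatMark_val hh (hw h hh) hm
  have hP : arcP L ⊆ lA L h m := subset_union_left
  have hM : arcM L ⊆ rB L h m := subset_union_left
  have hW : ∀ x, x ∈ L.vert ↔ x ∈ Fm L h m ∨ x ∈ lA L h m ∨ x ∈ rB L h m := by
    intro x
    rw [Wick.Bij.vert]
    constructor
    · rintro (a | a | a)
      · by_cases b : x ∈ lA L h m ∪ rB L h m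
        · exact Or.inr b
        · exact Or.inl ⟨a, b⟩
      · exact Or.inr (Or.inl (hP a))
      · exact Or.inr (Or.inr (hM a))
    · rintro (a | (a | ⟨i, hi, rfl⟩) | (a | ⟨i, hi, rfl⟩))
      · exact Or.inl a.1
      · exact Or.inr (Or.inl a)
      · exact ((hw h hh).lft i (le_trans hi hm)).2.imp id Or.inl
      · exact Or.inr (Or.inr a)
      · exact ((hw h hh).rgt i (le_trans hi hm)).2.imp id Or.inr
  have ho' : obd (Fm L h m) ⊆ lA L h m ∪ rB L h m := by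
    rintro y ⟨hy, x, hx, hxy⟩
    by_cases a : y ∈ Fr L
    · exact not_not.1 fun b => hy ⟨a, b⟩
    · exact union_subset_union hP hM (ho ⟨a, x, hx.1, hxy⟩)
  have hA : lA L h m ⊆ (Fm L h m)ᶜ := fun x a b => b.2 (Or.inl a)
  have hB : rB L h m ⊆ (Fm L h m)ᶜ := fun x a b => b.2 (Or.inr a)
  have hd : Disjoint (lA L h m) (rB L h m) := Set.disjoint_left.2 fun x a b => by
    have := v1 x a
    have := v2 x b
    omega
  have key : ∀ k, k ∈ L.Hts ε ∩ {k | lab L m k = lab L m h} ↔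
      (∀ x ∈ L.vert, Odd (k x)) ∧ (∀ x, x ∉ L.vert → k x = 0) ∧ (∀ x ∈ lA L h m, k x = ε) ∧
        (∀ x ∈ rB L h m, k x = -ε) ∧
        ∀ x ∈ L.vert, ∀ y ∈ L.vert, Adj x y → |k x - k y| = 0 ∨ |k x - k y| = 2 := by
    intro k
    constructor
    · rintro ⟨hk, e⟩
      have e' := (LatMark_iff hε hw hh hm hk).1 e
      exact ⟨hk.1, hk.2.1, e'.1, e'.2, hk.2.2.2.2⟩
    · rintro ⟨a1, a2, a3, a4, a5⟩
      have hk : k ∈ L.Hts ε := ⟨a1, a2, fun i hi => a3 _ (hP ⟨i, hi, rfl⟩),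
        fun i h1 h2 => a4 _ (hM ⟨i, ⟨h1, h2⟩, rfl⟩), a5⟩
      exact ⟨hk, (LatMark_iff hε hw hh hm hk).2 ⟨a3, a4⟩⟩
  rw [Seal.cex]
  rcases hε with rfl | rfl
  · rw [pick, if_pos rfl, ← LatMark_ex hW ho' hA hB hd f]
    exact congrArg (Ex · _) (Set.ext key)
  · rw [pick, if_neg (by norm_num), ← LatMark_ex (fun x => (hW x).trans (by tauto))
      (ho'.trans (union_comm _ _).subset) hB hA hd.symm f]
    refine congrArg (Ex · _) (Set.ext fun k => (key k).trans ?_)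
    simp only [Wick.Bij.T, mem_ofPred_eq, neg_neg]
    tauto

end Vale.Agent.P153.A2
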