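import Vale.Agent.P153.A2.LatStm
import Vale.Agent.P153.Wick.Ld1
import Vale.Agent.P153.CA.Basic

/-! The approximating polygons are oriented clockwise. -/

open Set Filter Topology Metric Complex
open scoped Real

noncomputable section
namespace Vale.Agent.P153.A2

open Vale.Agent.P153.CA (circ)
open Vale.Agent.P153.Wick (Fr arcP arcM)

theorem LatOri_cl (L : LDom) : L.bd 1 = L.bd 0 := by
  have hN : (L.N : ℝ) ≠ 0 := by have := L.three; positivity
  have h1 := (Wick.s_ld1 L).2.1 L.N le_rfl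
  have h0 := (Wick.s_ld1 L).2.1 0 (Nat.zero_le _)
  rw [div_self hN] at h1
  rw [Nat.cast_zero, zero_div] at h0
  rw [h1, h0, L.closed]

theorem LatOri_tr (L : LDom) {δ : ℝ} (hδ : 0 < δ) (ρ : unitInterval ≃o unitInterval) {a : ℂ}
    {d : ℤ} (h : Dg (fun t => δ * L.bd (ρ (projIcc 0 1 zero_le_one t))) a d) :
    Dg L.bd (a / δ) d := by
  obtain ⟨l, h1, h2, h3⟩ := h
  have hc : (δ : ℂ) ≠ 0 := by exact_mod_cast hδ.ne'
  refine ⟨fun s => l (ρ.symm (projIcc 0 1 zero_le_one s)) - log δ, ?_, fun s hs => ?_, ?_⟩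
  · exact (h1.comp (continuous_subtype_val.comp
      (ρ.symm.continuous.comp continuous_projIcc)).continuousOn
      fun s _ => (ρ.symm _).2).sub continuousOn_const
  · rw [exp_sub, exp_log hc, h2 _ (ρ.symm _).2]
    simp only [projIcc_val, OrderIso.apply_symm_apply]
    rw [projIcc_of_mem _ hs]
    field_simp
  · have e1 : ρ.symm 1 = 1 := ρ.symm.map_top
    have e0 : ρ.symm 0 = 0 := ρ.symm.map_bot
    simp only [projIcc_right, projIcc_left]
    change l (ρ.symm 1) - log δ = l (ρ.symm 0) - log δ + _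
    rw [e1, e0]
    change l 1 - log δ = l 0 - log δ + _
    rw [h3]; ring

theorem LatOri_one (ht : S_tri) (hf : S_face) (hd : S_dg) (hj : S_jump) (hl : S_jl)
    (hJ : CA.S_jct) (L : LDom) {a : ℂ} {d : ℤ} (ha : a ∈ L.dom) (h : Dg L.bd a d) (h1 : d ≠ 1) :
    Ori L := by
  obtain ⟨-, -, d3, d4, -⟩ := hd L.bd (Wick.s_ld1 L).1 (LatOri_cl L)
  have hp : IsPreconnected L.dom := by
    have := (hJ _ (hl L).1).2.2.1
    rwa [(hl L).2.1] at this
  have hin : ∀ z ∈ L.dom, Dg L.bd z d := fun z hz =>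
    d3 L.dom a z d hp (disjoint_left.2 fun w hw => hw.1) ha hz h
  have hout : ∀ z, z ∉ L.bd '' Icc 0 1 → z ∉ L.dom → Dg L.bd z 0 := fun z hz hz' =>
    d4 z hz fun hb => hz' ⟨hz, hb⟩
  have hA : Adj (L.β (L.N - 1)) (L.β 0) := by
    have h3 := L.three
    have := L.adj (L.N - 1) (by omega)
    rwa [Nat.sub_add_cancel (by omega), L.closed] at this
  have hp' := disjoint_left.1 (hf L _ _ hA).1 (ht.2.2.1 _ _)
  have hq' := disjoint_left.1 (hf L _ _ hA.symm).1 (ht.2.2.1 _ _)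
  by_cases p : cen (L.β (L.N - 1)) (L.β 0) ∈ L.dom <;>
    by_cases q : cen (L.β 0) (L.β (L.N - 1)) ∈ L.dom
  · have := hj L _ _ (hin _ p) (hin _ q); omega
  · have := hj L _ _ (hin _ p) (hout _ hq' q); omega
  · exact ⟨q, p⟩
  · have := hj L _ _ (hout _ hp' p) (hout _ hq' q); omega

theorem s_ori (ht : S_tri) (hf : S_face) (hd : S_dg) (hs : S_psi) (hj : S_jump) (hl : S_jl)
    (hJ : CA.S_jct) (hq : Wick.S_seq) : S_ori := by
  intro ψ L δ hψ hA
  have J := CA.jloop_comp hψ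
  have hne : ∀ t, ψ (circ t) - ψ 0 ≠ 0 := fun t e => by
    have := hψ.2.1 (sphere_subset_closedBall (CA.circ_mem t)) (mem_closedBall_self zero_le_one)
      (sub_eq_zero.1 e)
    have h := CA.norm_circ t
    rw [this, norm_zero] at h
    exact zero_ne_one h
  have hc : ψ (circ 1) = ψ (circ 0) := by simpa using J.per 0
  obtain ⟨d1, -, -, -, d5⟩ := hd (fun t => ψ (circ t)) J.cont.continuousOn hc
  obtain ⟨d, hdg⟩ := d1 (ψ 0) (by rintro ⟨t, -, e⟩; exact hne t (sub_eq_zero.2 e))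
  have h1 : d ≠ 1 := by rintro rfl; exact hs ψ hψ hdg
  obtain ⟨t0, -, hm⟩ := (isCompact_Icc (a := (0 : ℝ)) (b := 1)).exists_isMinOn
    ⟨0, left_mem_Icc.2 zero_le_one⟩
    (f := fun t => ‖ψ (circ t) - ψ 0‖) (J.cont.sub continuous_const).norm.continuousOn
  have he : 0 < ‖ψ (circ t0) - ψ 0‖ := norm_pos_iff.2 (hne t0)
  filter_upwards [(hq ψ L δ hψ hA).2 {ψ 0} isCompact_singleton
    (singleton_subset_iff.2 ⟨0, mem_ball_self one_pos, rfl⟩), hA.2.2.2 _ (half_pos he)]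
    with n hn ⟨ρ, hρ⟩
  refine LatOri_one ht hf hd hj hl hJ (L n) (hn _ rfl) (LatOri_tr (L n) (hA.1 n) ρ ?_) h1
  refine d5 _ _ _ ?_ ?_ (fun t ht => ?_) hdg
  · exact continuousOn_const.mul ((Wick.s_ld1 (L n)).1.comp (continuous_subtype_val.comp
      (ρ.continuous.comp continuous_projIcc)).continuousOn fun s _ => (ρ _).2)
  · have e1 : ρ 1 = 1 := ρ.map_top
    have e0 : ρ 0 = 0 := ρ.map_bot
    simp only [projIcc_right, projIcc_left]
    change _ * (L n).bd (ρ 1) = _ * (L n).bd (ρ 0)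
    rw [e1, e0]
    exact congrArg _ (LatOri_cl _)
  · have h2 := hρ ⟨t, ht⟩
    rw [dist_eq_norm] at h2
    have h3 : ‖ψ (circ t0) - ψ 0‖ ≤ ‖ψ (circ t) - ψ 0‖ := hm ht
    simp only [projIcc_of_mem _ ht]
    exact (h2.trans_lt (half_lt_self he)).trans_le h3

end Vale.Agent.P153.A2
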