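import Vale.Agent.P153.A2.LatStm

/-! The open triangles of the lattice. -/

open Set Filter Topology Metric Complex
open scoped Real

noncomputable section
namespace Vale.Agent.P153.A2

/-- First lattice coordinate. -/
def LatTri_A (z : ℂ) : ℝ := z.re - z.im / √3

/-- Second lattice coordinate. -/
def LatTri_B (z : ℂ) : ℝ := 2 * z.im / √3

theorem LatTri_co (p q w : V) (a b : ℝ) :
    LatTri_A (emb p + a * (emb q - emb p) + b * (emb w - emb p)) =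
      p.1 + a * (q.1 - p.1) + b * (w.1 - p.1) ∧
    LatTri_B (emb p + a * (emb q - emb p) + b * (emb w - emb p)) =
      p.2 + a * (q.2 - p.2) + b * (w.2 - p.2) := by
  have h3 : (√3 : ℝ) ≠ 0 := by positivity
  constructor
  · simp [LatTri_A, emb]
    field_simp
    ring
  · simp [LatTri_B, emb]
    field_simp

/-- The three strips containing a triangle. -/
def LatTri_S (i j k : ℤ) (z : ℂ) : Prop :=
  ((i : ℝ) < LatTri_A z ∧ LatTri_A z < i + 1) ∧ ((j : ℝ) < LatTri_B z ∧ LatTri_B z < j + 1) ∧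
    ((k : ℝ) < LatTri_A z + LatTri_B z ∧ LatTri_A z + LatTri_B z < k + 1)

/-- The indices of the strips. -/
def LatTri_I (l r : V) (i j k : ℤ) : Prop :=
  (r.1 = l.1 + 1 ∧ r.2 = l.2 ∧ i = l.1 ∧ j = l.2 ∧ k = l.1 + l.2) ∨
  (r.1 = l.1 - 1 ∧ r.2 = l.2 ∧ i = l.1 - 1 ∧ j = l.2 - 1 ∧ k = l.1 + l.2 - 1) ∨
  (r.1 = l.1 ∧ r.2 = l.2 + 1 ∧ i = l.1 - 1 ∧ j = l.2 ∧ k = l.1 + l.2) ∨
  (r.1 = l.1 ∧ r.2 = l.2 - 1 ∧ i = l.1 ∧ j = l.2 - 1 ∧ k = l.1 + l.2 - 1) ∨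
  (r.1 = l.1 - 1 ∧ r.2 = l.2 + 1 ∧ i = l.1 - 1 ∧ j = l.2 ∧ k = l.1 + l.2 - 1) ∨
  (r.1 = l.1 + 1 ∧ r.2 = l.2 - 1 ∧ i = l.1 ∧ j = l.2 - 1 ∧ k = l.1 + l.2)

theorem LatTri_strip {l r : V} (h : Adj l r) {z : ℂ} (hz : z ∈ tri l r) :
    ∃ i j k, LatTri_I l r i j k ∧ LatTri_S i j k z := by
  obtain ⟨a, b, ha, hb, hab, rfl⟩ := hz
  rw [adj_iff] at h
  obtain ⟨h1, h2⟩ := LatTri_co l r (nxt l r) a b
  simp only [LatTri_S, h1, h2]
  simp only [nxt]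
  rcases h with h | h | h | h | h | h
  · refine ⟨_, _, _, .inl ⟨h.1, h.2, rfl, rfl, rfl⟩, ?_⟩
    rw [h.1, h.2]; push_cast; refine ⟨⟨?_, ?_⟩, ⟨?_, ?_⟩, ?_, ?_⟩ <;> linarith
  · refine ⟨_, _, _, .inr (.inl ⟨h.1, h.2, rfl, rfl, rfl⟩), ?_⟩
    rw [h.1, h.2]; push_cast; refine ⟨⟨?_, ?_⟩, ⟨?_, ?_⟩, ?_, ?_⟩ <;> linarith
  · refine ⟨_, _, _, .inr (.inr (.inl ⟨h.1, h.2, rfl, rfl, rfl⟩)), ?_⟩
    rw [h.1, h.2]; push_cast; refine ⟨⟨?_, ?_⟩, ⟨?_, ?_⟩, ?_, ?_⟩ <;> linarith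
  · refine ⟨_, _, _, .inr (.inr (.inr (.inl ⟨h.1, h.2, rfl, rfl, rfl⟩))), ?_⟩
    rw [h.1, h.2]; push_cast; refine ⟨⟨?_, ?_⟩, ⟨?_, ?_⟩, ?_, ?_⟩ <;> linarith
  · refine ⟨_, _, _, .inr (.inr (.inr (.inr (.inl ⟨h.1, h.2, rfl, rfl, rfl⟩)))), ?_⟩
    rw [h.1, h.2]; push_cast; refine ⟨⟨?_, ?_⟩, ⟨?_, ?_⟩, ?_, ?_⟩ <;> linarith
  · refine ⟨_, _, _, .inr (.inr (.inr (.inr (.inr ⟨h.1, h.2, rfl, rfl, rfl⟩)))), ?_⟩
    rw [h.1, h.2]; push_cast; refine ⟨⟨?_, ?_⟩, ⟨?_, ?_⟩, ?_, ?_⟩ <;> linarith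

theorem LatTri_int {i n : ℤ} {t : ℝ} (h : (i : ℝ) < t ∧ t < i + 1) (e : t = n) : False := by
  rw [e] at h
  have h1 : i < n := by exact_mod_cast h.1
  have h2 : n < i + 1 := by exact_mod_cast h.2
  omega

theorem LatTri_eq {i j : ℤ} {t : ℝ} (h : (i : ℝ) < t ∧ t < i + 1) (h' : (j : ℝ) < t ∧ t < j + 1) :
    i = j := by
  have h1 : i < j + 1 := by exact_mod_cast h.1.trans h'.2
  have h2 : j < i + 1 := by exact_mod_cast h'.1.trans h.2
  omega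

theorem LatTri_conv (l r : V) : Convex ℝ (tri l r) := by
  rintro _ ⟨a, b, ha, hb, hab, rfl⟩ _ ⟨a', b', ha', hb', hab', rfl⟩ s t hs ht hst
  obtain rfl : t = 1 - s := by linarith
  refine ⟨s * a + (1 - s) * a', s * b + (1 - s) * b', ?_, ?_, ?_, ?_⟩
  · rcases hs.eq_or_lt with rfl | hs <;> [simpa; positivity]
  · rcases hs.eq_or_lt with rfl | hs <;> [simpa; positivity]
  · rcases hs.eq_or_lt with rfl | hs
    · simpa
    · nlinarith [mul_pos hs (sub_pos.2 hab), mul_nonneg ht (sub_pos.2 hab').le]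
  · simp only [real_smul]
    push_cast
    ring

theorem LatTri_cen (l r : V) : cen l r ∈ tri l r :=
  ⟨1 / 3, 1 / 3, by norm_num, by norm_num, by norm_num, by rw [cen]; push_cast; ring⟩

theorem s_tri : S_tri := by
  refine ⟨LatTri_conv, fun l r => Subset.antisymm ?_ ?_, LatTri_cen, fun l r => ?_,
    fun l r x y h h' => ?_, fun l r l' r' h h' ⟨z, hz, hz'⟩ => ?_⟩
  · rintro _ ⟨a, b, ha, hb, hab, rfl⟩
    refine ⟨1 - a - b, a, by linarith, ha, by linarith, ?_⟩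
    rw [nxt_nxt]
    push_cast
    ring
  · rintro _ ⟨a, b, ha, hb, hab, rfl⟩
    refine ⟨b, 1 - a - b, hb, by linarith, by linarith, ?_⟩
    rw [nxt_nxt]
    push_cast
    ring
  · rintro _ ⟨u, t, hu, ht, hut, rfl⟩
    obtain rfl : u = 1 - t := by linarith
    have hc : Tendsto (fun s : ℝ => ((1 - t) • emb l + t • emb r) +
        (s : ℂ) * (cen l r - ((1 - t) • emb l + t • emb r))) (𝓝[>] 0)
        (𝓝 ((1 - t) • emb l + t • emb r)) :=
      (Continuous.tendsto' (by fun_prop) 0 _ (by simp)).mono_left nhdsWithin_le_nhds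
    refine mem_closure_of_tendsto hc ?_
    filter_upwards [Ioo_mem_nhdsGT (zero_lt_one' ℝ)] with s hs
    have h1 := mul_nonneg (sub_pos.2 hs.2).le ht
    have h2 := mul_nonneg (sub_pos.2 hs.2).le hu
    refine ⟨(1 - s) * t + s / 3, s / 3, by linarith [hs.1], by linarith [hs.1],
      by nlinarith [hs.1], ?_⟩
    simp only [real_smul, cen]
    push_cast
    ring
  · rw [Set.disjoint_left]
    rintro _ hz ⟨u, t, -, -, hut, rfl⟩
    obtain rfl : u = 1 - t := by linarith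
    obtain ⟨i, j, k, -, h1, h2, h3⟩ := LatTri_strip h hz
    have e : (1 - t) • emb x + t • emb y =
        emb x + t * (emb y - emb x) + (0 : ℝ) * (emb x - emb x) := by
      simp only [real_smul]
      push_cast
      ring
    obtain ⟨e1, e2⟩ := LatTri_co x y x t 0
    rw [← e] at e1 e2
    obtain k | k | k : y.1 = x.1 ∨ y.2 = x.2 ∨ y.1 + y.2 = x.1 + x.2 := by
      rw [adj_iff] at h'; omega
    · exact LatTri_int (n := x.1) h1 (by rw [e1, k]; ring)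
    · exact LatTri_int (n := x.2) h2 (by rw [e2, k]; ring)
    · have k' : (y.1 : ℝ) + y.2 = x.1 + x.2 := by exact_mod_cast k
      exact LatTri_int (n := x.1 + x.2) h3 (by rw [e1, e2]; push_cast; linear_combination t * k')
  · obtain ⟨i, j, k, g, h1, h2, h3⟩ := LatTri_strip h hz
    obtain ⟨i', j', k', g', k1, k2, k3⟩ := LatTri_strip h' hz'
    obtain rfl := LatTri_eq h1 k1
    obtain rfl := LatTri_eq h2 k2
    obtain rfl := LatTri_eq h3 k3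
    simp only [nxt, Prod.ext_iff]
    clear h1 h2 h3 k1 k2 k3 h h' hz hz'
    rcases g with h | h | h | h | h | h <;> rcases g' with h' | h' | h' | h' | h' | h' <;> omega

end Vale.Agent.P153.A2
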