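import Vale.Agent.P153.A2.LatOf
import Vale.Agent.P153.A2.LatTri
import Vale.Agent.P153.A2.LatFace
import Vale.Agent.P153.A2.LatLine
import Vale.Agent.P153.A2.LatMark
import Vale.Agent.P153.A2.LatDg
import Vale.Agent.P153.A2.LatJump
import Vale.Agent.P153.A2.LatOri
import Vale.Agent.P153.A2.Jl
import Vale.Agent.P153.A2.Poly
import Vale.Agent.P153.CA.All
import Vale.Agent.P153.Wick.Main

/-! The lattice facts. -/

namespace Vale.Agent.P153.A2

theorem face_all : S_face := s_face s_tri s_plan

theorem walk_all : S_walk := s_walk face_all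

theorem ori_all : S_ori := s_ori s_tri face_all (s_dg CA.s_bdir) (s_psi CA.s_bconv)
  (s_jump s_tri face_all s_plan) (s_jl s_poly) CA.jct_all Wick.seq_ok

theorem lat_all : S_lat := s_lat ori_all walk_all (s_line s_tri face_all s_plan) s_mark

theorem bklat_all : Bk.Lat := s_bklat ori_all walk_all

end Vale.Agent.P153.A2
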