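import Vale.Agent.P153.A2.LatWalk
import Vale.Agent.P153.SLE.BkStm

/-! The lattice facts from their parts. -/

open Set Filter

noncomputable section
namespace Vale.Agent.P153.A2

open Vale.Agent.P153.Wick (Fr arcP arcM)

theorem Wk.dis {L : LDom} {ε : ℤ} {h : V → ℤ} (hε : ε = 1 ∨ ε = -1) (hH : h ∈ L.Hts ε)
    (w : Wk L ε h) : Disjoint (lA L h (L.len h)) (rB L h (L.len h)) := by
  refine disjoint_left.2 fun x h1 h2 => ?_
  have a : h x = ε := by
    rcases h1 with ⟨i, hi, rfl⟩ | ⟨i, hi, rfl⟩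
    exacts [hH.2.2.1 i hi, (w.lft i hi).1]
  have b : h x = -ε := by
    rcases h2 with ⟨i, hi, rfl⟩ | ⟨i, hi, rfl⟩
    exacts [hH.2.2.2.1 i hi.1 hi.2, (w.rgt i hi).1]
  omega

theorem lat_of (hw : S_walk) (hl : S_line) (hm : S_mark) {L : LDom} {ε : ℤ} (hε : ε = 1 ∨ ε = -1)
    (hO : Ori L) {h : V → ℤ} (hH : h ∈ L.Hts ε) : Lat L ε h := by
  have w := hw L ε h hε hO hH
  obtain ⟨a, b, c⟩ := hl L ε h hε w
  refine ⟨w.pos, w.last, fun i _ => w.adj i, fun i _ => ?_, fun i _ => ?_, fun i hi => (w.lft i hi).2,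
    fun i hi => (w.rgt i hi).2, w.dis hε hH, a, b, c,
    hm L ε h hε (fun k hk => hw L ε k hε hO hk) hH⟩
  · rw [edge_succ, step_eq]
    split_ifs
    exacts [Or.inr (w.adj i).nxt, Or.inl rfl]
  · rw [edge_succ, step_eq]
    split_ifs
    exacts [Or.inl rfl, Or.inr (w.adj i).nxt']

theorem s_lat (ho : S_ori) (hw : S_walk) (hl : S_line) (hm : S_mark) : S_lat :=
  fun ψ L δ _ hψ hA hε => (ho ψ L δ hψ hA).mono fun _ hO _ hH => lat_of hw hl hm hε hO hH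

theorem s_bklat (ho : S_ori) (hw : S_walk) : Bk.Lat :=
  fun ψ L δ ε hψ hA hε => (ho ψ L δ hψ hA).mono fun n hO h hH =>
    have w := hw (L n) ε h hε hO hH
    ⟨w.last, fun i _ => w.adj i, w.lft, w.rgt, w.inj⟩

end Vale.Agent.P153.A2
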