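import Vale.Agent.P153.A2.Stm
import Vale.Agent.P153.Planar.Wind
import Vale.Agent.P153.Wick.Ld2

/-! The lattice geometry of the interface: definitions and statements. -/

open Set Filter Topology Metric Complex
open scoped Real

noncomputable section
namespace Vale.Agent.P153.A2

open Vale.Agent.P153.CA (circ)
open Vale.Agent.P153.Wick (Fr arcP arcM)

/-- The open triangle ahead of the edge `(l, r)`. -/
def tri (l r : V) : Set ℂ := {z | ∃ a b : ℝ, 0 < a ∧ 0 < b ∧ a + b < 1 ∧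
  z = emb l + a * (emb r - emb l) + b * (emb (nxt l r) - emb l)}

/-- The centre of that triangle. -/
def cen (l r : V) : ℂ := (emb l + emb r + emb (nxt l r)) / 3

theorem cen_rot (l r : V) : cen r (nxt l r) = cen l r := by
  rw [cen, cen, nxt_nxt]; ring

/-- Boundary edges. -/
def BE (L : LDom) (x y : V) : Prop :=
  ∃ i < L.N, (L.β i = x ∧ L.β (i + 1) = y) ∨ (L.β i = y ∧ L.β (i + 1) = x)

/-- The polygon is oriented clockwise. -/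
def Ori (L : LDom) : Prop :=
  cen (L.β 0) (L.β (L.N - 1)) ∈ L.dom ∧ cen (L.β (L.N - 1)) (L.β 0) ∉ L.dom

theorem step_eq (h : V → ℤ) (e : V × V) : step h e =
    if h (nxt e.1 e.2) = h e.1 then (nxt e.1 e.2, e.2) else (e.1, nxt e.1 e.2) := by
  have : e.2 + ((e.1 - e.2).1 + (e.1 - e.2).2, -(e.1 - e.2).1) = nxt e.1 e.2 := by
    simp only [nxt, Prod.ext_iff, Prod.fst_add, Prod.snd_add, Prod.fst_sub, Prod.snd_sub]
    omega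
  rw [step, this]

theorem edge_succ (L : LDom) (h : V → ℤ) (m : ℕ) : L.edge h (m + 1) = step h (L.edge h m) :=
  Function.iterate_succ_apply' _ _ _

/-- The combinatorial facts on the exploration. -/
structure Wk (L : LDom) (ε : ℤ) (h : V → ℤ) : Prop where
  pos : 0 < L.len h
  last : L.edge h (L.len h) = (L.β (L.k - 1), L.β L.k)
  adj : ∀ i, Adj (L.edge h i).1 (L.edge h i).2
  lft : ∀ i ≤ L.len h, h (L.edge h i).1 = ε ∧ (L.edge h i).1 ∈ Fr L ∪ arcP L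
  rgt : ∀ i ≤ L.len h, h (L.edge h i).2 = -ε ∧ (L.edge h i).2 ∈ Fr L ∪ arcM L
  inj : InjOn (L.edge h) (Iic (L.len h))
  face : ∀ i < L.len h, cen (L.edge h i).1 (L.edge h i).2 ∈ L.dom
  nbe : ∀ i, 0 < i → i < L.len h → ¬ BE L (L.edge h i).1 (L.edge h i).2

def S_tri : Prop := (∀ l r, Convex ℝ (tri l r)) ∧ (∀ l r, tri r (nxt l r) = tri l r) ∧
  (∀ l r, cen l r ∈ tri l r) ∧ (∀ l r, segment ℝ (emb l) (emb r) ⊆ closure (tri l r)) ∧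
  (∀ l r x y, Adj l r → Adj x y → Disjoint (tri l r) (segment ℝ (emb x) (emb y))) ∧
  ∀ l r l' r', Adj l r → Adj l' r' → (tri l r ∩ tri l' r').Nonempty →
    (l' = l ∧ r' = r) ∨ (l' = r ∧ r' = nxt l r) ∨ (l' = nxt l r ∧ r' = l)

def S_face : Prop := ∀ (L : LDom) (l r : V), Adj l r → Disjoint (tri l r) (L.bd '' Icc 0 1) ∧
  (¬ BE L l r → (emb l + emb r) / 2 ∉ L.bd '' Icc 0 1) ∧
  (cen l r ∈ L.dom → tri l r ⊆ L.dom ∧ nxt l r ∈ L.vert ∧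
    (¬ BE L l r → (emb l + emb r) / 2 ∈ L.dom ∧ cen r l ∈ L.dom))

def S_walk : Prop := ∀ (L : LDom) (ε : ℤ) (h : V → ℤ), (ε = 1 ∨ ε = -1) → Ori L → h ∈ L.Hts ε →
  Wk L ε h

def S_line : Prop := ∀ (L : LDom) (ε : ℤ) (h : V → ℤ), (ε = 1 ∨ ε = -1) → Wk L ε h →
  InjOn (poly (mid L h) (L.len h)) (Icc 0 1) ∧
  (∀ s ∈ Ioo (0 : ℝ) 1, poly (mid L h) (L.len h) s ∈ L.dom) ∧
  ∀ x y, Adj x y → ∀ s ∈ Icc (0 : ℝ) 1,
    poly (mid L h) (L.len h) s ∈ segment ℝ (emb x) (emb y) →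
    ∃ i ≤ L.len h, s = i / L.len h ∧ (L.edge h i = (x, y) ∨ L.edge h i = (y, x))

def S_mark : Prop := ∀ (L : LDom) (ε : ℤ) (h : V → ℤ), (ε = 1 ∨ ε = -1) →
  (∀ k ∈ L.Hts ε, Wk L ε k) → h ∈ L.Hts ε → ∀ m ≤ L.len h, ∀ f : Cfg → ℝ,
    Seal.cex (L.Hts ε) (lab L m) (fun k => f (toH k)) h =
      Ex (dob (Fm L h m) (pick ε (lA L h m) (rB L h m))) f

/-- The closed curve `γ` winds `n` times round `a`. -/
def Dg (γ : ℝ → ℂ) (a : ℂ) (n : ℤ) : Prop := ∃ l : ℝ → ℂ, ContinuousOn l (Icc 0 1) ∧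
  (∀ t ∈ Icc (0 : ℝ) 1, exp (l t) = γ t - a) ∧ l 1 = l 0 + n * (2 * π * I)

def S_dg : Prop := ∀ γ : ℝ → ℂ, ContinuousOn γ (Icc 0 1) → γ 1 = γ 0 →
  (∀ a, a ∉ γ '' Icc 0 1 → ∃ n, Dg γ a n) ∧
  (∀ a n n', Dg γ a n → Dg γ a n' → n = n') ∧
  (∀ (S : Set ℂ) a b n, IsPreconnected S → Disjoint S (γ '' Icc 0 1) → a ∈ S → b ∈ S →
    Dg γ a n → Dg γ b n) ∧
  (∀ a, a ∉ γ '' Icc 0 1 → ¬ Bornology.IsBounded (connectedComponentIn (γ '' Icc 0 1)ᶜ a) →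
    Dg γ a 0) ∧
  ∀ (γ' : ℝ → ℂ) a n, ContinuousOn γ' (Icc 0 1) → γ' 1 = γ' 0 →
    (∀ t ∈ Icc (0 : ℝ) 1, ‖γ' t - γ t‖ < ‖γ t - a‖) → Dg γ a n → Dg γ' a n

def S_psi : Prop := ∀ ψ, IsJordanMap ψ → ¬ Dg (fun t => ψ (circ t)) (ψ 0) 1

def S_jump : Prop := ∀ (L : LDom) (n n' : ℤ), Dg L.bd (cen (L.β (L.N - 1)) (L.β 0)) n →
  Dg L.bd (cen (L.β 0) (L.β (L.N - 1))) n' → n = n' + 1

def S_ori : Prop := ∀ ψ L δ, IsJordanMap ψ → Approx ψ L δ → ∀ᶠ n in atTop, Ori (L n)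

end Vale.Agent.P153.A2
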