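import Vale.Agent.P153.A2.LatStm
import Vale.Agent.P153.Wick.Bij
import Vale.Agent.P153.Wick.Ld1
import Vale.Agent.P153.Wick.Emb

/-! The exploration stops at the second mark. -/

open Set

noncomputable section
namespace Vale.Agent.P153.A2

open Vale.Agent.P153.Wick (Fr arcP arcM)

/-- The two ends of the edge are vertices with the two signs. -/
def LatWalk_Q (L : LDom) (ε : ℤ) (h : V → ℤ) (e : V × V) : Prop :=
  h e.1 = ε ∧ e.1 ∈ L.vert ∧ h e.2 = -ε ∧ e.2 ∈ L.vert

theorem LatWalk_adj (L : LDom) (h : V → ℤ) (i : ℕ) : Adj (L.edge h i).1 (L.edge h i).2 := by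
  induction i with
  | zero =>
    have h3 := L.three
    have := L.adj (L.N - 1) (by omega)
    rw [show L.N - 1 + 1 = L.N by omega, L.closed] at this
    exact this.symm
  | succ i ih =>
    rw [edge_succ, step_eq]
    split_ifs
    exacts [ih.nxt'.symm, ih.nxt]

theorem LatWalk_rev (l r : V) : nxt (nxt l r) l = r := by
  have := nxt_nxt r (nxt l r)
  rwa [nxt_nxt l r] at this

theorem LatWalk_behind (h : V → ℤ) (e : V × V) :
    cen (step h e).2 (step h e).1 = cen e.1 e.2 := by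
  rw [step_eq]
  split_ifs
  · exact cen_rot _ _
  · have := cen_rot e.2 (nxt e.1 e.2)
    rw [nxt_nxt] at this
    exact this.trans (cen_rot _ _)

theorem LatWalk_back {h : V → ℤ} {ε : ℤ} (hε : ε = 1 ∨ ε = -1) {e : V × V} (h1 : h e.1 = ε)
    (h2 : h e.2 = -ε) : e = if h (nxt (step h e).2 (step h e).1) = ε then
      (nxt (step h e).2 (step h e).1, (step h e).2) else
      ((step h e).1, nxt (step h e).2 (step h e).1) := by
  rw [step_eq]
  by_cases c : h (nxt e.1 e.2) = h e.1
  · simp only [if_pos c, nxt_nxt, if_pos h1]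
  · simp only [if_neg c, LatWalk_rev]
    rw [if_neg (by omega)]

theorem LatWalk_be {L : LDom} {ε : ℤ} {h : V → ℤ} (hε : ε = 1 ∨ ε = -1) (hH : h ∈ L.Hts ε)
    {e : V × V} (h1 : h e.1 = ε) (h2 : h e.2 = -ε) (hb : BE L e.1 e.2) :
    e = L.edge h 0 ∨ e = (L.β (L.k - 1), L.β L.k) := by
  obtain ⟨-, -, p, q, -⟩ := hH
  have k0 := L.k_pos
  have k1 := L.k_lt
  obtain ⟨i, hi, ⟨a, b⟩ | ⟨a, b⟩⟩ := hb
  · have c1 : i < L.k := by
      by_contra c
      have := q i (by omega) hi
      rw [a] at this; omega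
    have c2 : ¬ i + 1 < L.k := fun c => by
      have := p _ c
      rw [b] at this; omega
    obtain rfl : i = L.k - 1 := by omega
    rw [show L.k - 1 + 1 = L.k by omega] at b
    exact Or.inr (Prod.ext a.symm b.symm)
  · have c1 : ¬ i < L.k := fun c => by
      have := p _ c
      rw [a] at this; omega
    have c2 : ¬ i + 1 < L.N := fun c => by
      have := q (i + 1) (by omega) c
      rw [b] at this; omega
    obtain rfl : i = L.N - 1 := by omega
    rw [show L.N - 1 + 1 = L.N by omega, L.closed] at b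
    exact Or.inl (Prod.ext b.symm a.symm)

theorem LatWalk_fin (L : LDom) : L.vert.Finite :=
  ((Wick.Ld2.fin L Wick.s_emb Wick.s_ld1).union ((finite_Iio L.N).image L.β)).subset
    fun _ hx => hx.imp id fun ⟨i, hi, e⟩ => ⟨i, hi, e⟩

theorem s_walk (hf : S_face) : S_walk := by
  classical
  intro L ε h hε hO hH
  have k0 := L.k_pos
  have k1 := L.k_lt
  have adj := LatWalk_adj L h
  have qs : ∀ e : V × V, Adj e.1 e.2 → LatWalk_Q L ε h e → cen e.1 e.2 ∈ L.dom →
      LatWalk_Q L ε h (step h e) := by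
    rintro e ha ⟨a1, a2, a3, a4⟩ hc
    have hv := ((hf L _ _ ha).2.2 hc).2.1
    rw [step_eq]
    split_ifs with c
    · exact ⟨c.trans a1, hv, a3, a4⟩
    · refine ⟨a1, a2, ?_, hv⟩
      have b1 := hH.2.2.2.2 _ a2 _ hv ha.nxt
      have b2 := hH.2.2.2.2 _ a4 _ hv ha.nxt'
      rw [abs_eq_zero, abs_eq (by norm_num)] at b1 b2
      show h (nxt e.1 e.2) = -ε
      omega
  have hQ : ∀ n, (∀ i < n, cen (L.edge h i).1 (L.edge h i).2 ∈ L.dom) →
      ∀ i ≤ n, LatWalk_Q L ε h (L.edge h i) := by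
    intro n hn i hi
    induction i with
    | zero => exact ⟨hH.2.2.1 0 k0, Or.inr ⟨0, by omega, rfl⟩,
        hH.2.2.2.1 _ (by omega) (by omega), Or.inr ⟨L.N - 1, by omega, rfl⟩⟩
    | succ i ih => exact edge_succ L h i ▸ qs _ (adj i) (ih (by omega)) (hn i hi)
  have hI : ∀ n, (∀ i < n, cen (L.edge h i).1 (L.edge h i).2 ∈ L.dom) →
      InjOn (L.edge h) (Iic n) := by
    intro n hn
    have key : ∀ i j, i < j → j ≤ n → L.edge h i ≠ L.edge h j := by
      intro i
      induction i with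
      | zero =>
        intro j h1 h2 e
        obtain ⟨j, rfl⟩ := Nat.exists_eq_add_one_of_ne_zero h1.ne'
        have := LatWalk_behind h (L.edge h j)
        rw [← edge_succ, ← e] at this
        exact hO.2 (this ▸ hn j h2 :)
      | succ i ih =>
        intro j h1 h2 e
        obtain ⟨j, rfl⟩ := Nat.exists_eq_add_one_of_ne_zero (Nat.ne_zero_of_lt h1)
        have a := hQ n hn i (by omega)
        have b := hQ n hn j (by omega)
        refine ih j (by omega) (by omega) ?_
        rw [LatWalk_back hε a.1 a.2.2.1, LatWalk_back hε b.1 b.2.2.1, ← edge_succ, ← edge_succ, e]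
    intro i hi j hj e
    rcases lt_trichotomy i j with c | c | c
    exacts [(key i j c hj e).elim, c, (key j i c hi e.symm).elim]
  have ex : ∃ n, cen (L.edge h n).1 (L.edge h n).2 ∉ L.dom := by
    by_contra c
    push Not at c
    refine infinite_of_injective_forall_mem (f := L.edge h) (fun i j e => ?_) (fun i => ?_)
      ((LatWalk_fin L).prod (LatWalk_fin L))
    · exact hI (max i j) (fun i _ => c i) (le_max_left i j) (le_max_right i j) e
    · have := hQ i (fun i _ => c i) i le_rfl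
      exact ⟨this.2.1, this.2.2.2⟩
  obtain ⟨n, hn, hm⟩ : ∃ n, cen (L.edge h n).1 (L.edge h n).2 ∉ L.dom ∧
      ∀ i < n, cen (L.edge h i).1 (L.edge h i).2 ∈ L.dom :=
    ⟨Nat.find ex, Nat.find_spec ex, fun i hi => not_not.1 (Nat.find_min ex hi)⟩
  have Q := hQ n hm
  have J := hI n hm
  have n0 : 0 < n := Nat.pos_of_ne_zero fun c => hn (c ▸ hO.1)
  have bn : BE L (L.edge h n).1 (L.edge h n).2 := by
    by_contra c
    obtain ⟨j, rfl⟩ := Nat.exists_eq_add_one_of_ne_zero n0.ne'
    have := LatWalk_behind h (L.edge h j)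
    rw [← edge_succ] at this
    exact hn (((hf L _ _ (adj _).symm).2.2 (this ▸ hm j (by omega))).2.2
      fun ⟨i, hi, e⟩ => c ⟨i, hi, e.symm⟩).2
  have en : L.edge h n = (L.β (L.k - 1), L.β L.k) :=
    (LatWalk_be hε hH (Q n le_rfl).1 (Q n le_rfl).2.2.1 bn).resolve_left fun e =>
      n0.ne' (J (mem_Iic.2 le_rfl) (mem_Iic.2 n0.le) e)
  have hl : L.len h = n := by
    have a : L.len h ≤ n := Nat.sInf_le en
    have b : L.edge h (L.len h) = (L.β (L.k - 1), L.β L.k) :=
      Nat.sInf_mem (s := {m | L.edge h m = (L.β (L.k - 1), L.β L.k)}) ⟨n, en⟩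
    exact J a (mem_Iic.2 le_rfl) (b.trans en.symm)
  subst hl
  refine ⟨n0, en, adj, fun i hi => ⟨(Q i hi).1, ?_⟩, fun i hi => ⟨(Q i hi).2.2.1, ?_⟩, J, hm,
    fun i h1 h2 hb => ?_⟩
  · rcases (Wick.Bij.vert L _).1 (Q i hi).2.1 with c | c | ⟨j, hj, c⟩
    exacts [Or.inl c, Or.inr c, by
      have a := hH.2.2.2.1 j hj.1 hj.2
      have b := (Q i hi).1
      rw [c] at a; omega]
  · rcases (Wick.Bij.vert L _).1 (Q i hi).2.2.2 with c | ⟨j, hj, c⟩ | c
    exacts [Or.inl c, by
      have a := hH.2.2.1 j hj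
      have b := (Q i hi).2.2.1
      rw [c] at a; omega, Or.inr c]
  · rcases LatWalk_be hε hH (Q i h2.le).1 (Q i h2.le).2.2.1 hb with e | e
    · exact h1.ne' (J h2.le (mem_Iic.2 n0.le) e)
    · exact h2.ne (J h2.le (mem_Iic.2 le_rfl) (e.trans en.symm))

end Vale.Agent.P153.A2
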