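import Vale.Agent.P153.A2.Stm
import Vale.Agent.P153.SLE.Fnd

/-! Convergence of the mean observable. -/

open Set Filter Topology Metric Complex MeasureTheory
open scoped Real

noncomputable section
namespace Vale.Agent.P153.A2

open Vale.Agent.P164 (Pth HP Zf fi dom)
open Vale.Agent.P153.CA (Cf Full cay icay JLoop inside circ Hyd)
open Vale.Agent.P153.Wick (Fr arcP arcM CS Seq W_bv cc YY Qv cov inv)
open Vale.Agent.P153.SLE (DC Drv)
open Vale.Agent.P153.Drive (Run Near obsM obsQ)
open Vale.Agent.P071 (Test g0)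

namespace Lim1

theorem uu_eq (w : ℂ) : uu w = arg (icay w) / π := rfl

theorem uu_cont (hc : S_cay) {x : ℂ} (hx : x ∈ ball (0 : ℂ) 1) : ContinuousAt uu x := by
  have h1 : ContinuousAt icay x :=
    (hc.1.hg.continuousOn x hx).continuousAt (isOpen_ball.mem_nhds hx)
  have h2 : icay x ∈ slitPlane := Or.inr (ne_of_gt (hc.1.mg hx))
  exact ((continuousAt_arg h2).comp h1).div_const π

theorem im_pos {w₀ w : ℂ} (h : 2 ≤ w₀.im) (hw : w ∈ closedBall w₀ 1) : 0 < w.im := by
  have h1 : |(w - w₀).im| ≤ 1 := (abs_im_le_norm _).trans (mem_closedBall_iff_norm.1 hw)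
  rw [sub_im] at h1
  linarith [(abs_le.1 h1).1]

end Lim1

theorem s_lim1 (hc : S_cay) : S_lim1 := by
  intro ψ w₀ D ψ' φ W t T g ν hF hN
  have hHP : ∀ w ∈ closedBall w₀ 1, w ∈ HP := fun w hw => Lim1.im_pos hF.im hw
  have hdisc : ∀ w ∈ closedBall w₀ 1, φ (ψ (cay w)) ∈ ball (0 : ℂ) 1 := fun w hw =>
    hF.conf.mapsφ (hF.maps hw)
  have hG : ContinuousOn (fun w => uu (φ (ψ (cay w)))) (closedBall w₀ 1) := by
    have h1 : ContinuousOn (fun w => ψ (cay w)) (closedBall w₀ 1) :=
      hF.jm.1.comp (hc.1.hf.continuousOn.mono hHP) fun w hw =>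
        ball_subset_closedBall (hc.1.mf (hHP w hw))
    have h2 : ContinuousOn (fun w => φ (ψ (cay w))) (closedBall w₀ 1) :=
      hF.conf.hφ.continuousOn.comp h1 hF.maps
    exact fun w hw => ContinuousAt.comp_continuousWithinAt (f := fun w => φ (ψ (cay w)))
      (Lim1.uu_cont hc (hdisc w hw)) (h2 w hw)
  have hrep : ∫ z, uu (φ z) * g z = ∫ w, uu (φ (ψ (cay w))) ∂ν := by
    rw [hN.rep _ hG]
    congr 1
    funext z
    by_cases hz : g z = 0
    · simp [hz]
    obtain ⟨_, ⟨w, hw, rfl⟩, rfl⟩ := hN.test.2.2 (subset_tsupport g hz)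
    have hw' := hHP w (ball_subset_closedBall hw)
    have hb : cay w ∈ ball (0 : ℂ) 1 := hc.1.mf hw'
    have e : inv ψ (ψ (cay w)) = cay w :=
      (hF.jm.2.1.mono ball_subset_closedBall).leftInvOn_invFunOn hb
    rw [e, hc.1.gf w hw']
  rw [hrep]
  have := hN.near.1
  have hob : ∀ k, obsM ν (W k) (t k) = ∫ w, arg (Zf (W k) (t k) w) / π ∂ν := fun k => by
    rw [obsM, integral_div]
  simp only [hob]
  refine tendsto_integral_filter_of_dominated_convergence (fun _ => 1) ?_ ?_ (integrable_const _) ?_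
  · refine Eventually.of_forall fun k => Measurable.aestronglyMeasurable ?_
    exact (measurable_arg.comp (SLE.fM.Z_meas.comp
      (measurable_id.prodMk (measurable_const (a := (W k, t k)))))).div_const π
  · refine Eventually.of_forall fun k => Eventually.of_forall fun w => ?_
    rw [Real.norm_eq_abs, abs_div, abs_of_pos Real.pi_pos, div_le_one Real.pi_pos]
    exact abs_arg_le_pi _
  · filter_upwards [hN.near.2] with w hw
    have hw' : w ∈ closedBall w₀ 1 := mem_closedBall_iff_norm.2 hw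
    have h1 := (Lim1.uu_cont hc (hdisc w hw')).tendsto.comp (hF.lim.tendsto_at hw')
    refine h1.congr fun k => ?_
    have h2 := (hF.far k (t k) ⟨(hF.tT k).1, le_rfl⟩ w hw').2
    show uu (cay (Zf (W k) (t k) w)) = _
    rw [Lim1.uu_eq, (hc.2.2.2.2.2.1 _ (by linarith)).1]

end Vale.Agent.P153.A2
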