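import Vale.Agent.P153.A2.Stm
import Vale.Agent.P153.SLE.Fnd

/-! The limit of the slit maps is not constant. -/

open Set Filter Topology Metric Complex MeasureTheory
open scoped Real

noncomputable section
namespace Vale.Agent.P153.A2

open Vale.Agent.P164 (Pth HP Zf fi dom)
open Vale.Agent.P153.CA (Cf Full cay icay JLoop inside circ Hyd)
open Vale.Agent.P153.Drive (Run Near obsM obsQ)

namespace Nd

theorem inv_bd (hb : SLE.S_bnd) {T R t : ℝ} {W : Pth} (ht : 0 ≤ t) (hr : Run T R t W) {ζ : ℂ}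
    (hζ : 0 < ζ.im) : ‖fi W t ζ - ζ‖ ≤ 2 * |T| + 3 * |R| + 2 ∧ ζ.im ≤ (fi W t ζ).im := by
  obtain ⟨h1, h2⟩ := SLE.cB.right W t ζ ht hζ
  have hW : ∀ v ∈ Icc 0 t, |W v| ≤ |R| := fun v hv => (hr.2 v hv).trans (le_abs_self R)
  constructor
  · have h3 := (hb W t |R| (fi W t ζ) hW).1 t ⟨ht, le_rfl⟩ h1
    rw [h2] at h3
    have h4 : ‖((W t : ℝ) : ℂ)‖ ≤ |R| := by
      rw [norm_real, Real.norm_eq_abs]
      exact hW t ⟨ht, le_rfl⟩
    have h5 := norm_sub_le ((W t : ℝ) : ℂ) (ζ + W t - fi W t ζ)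
    rw [show ((W t : ℝ) : ℂ) - (ζ + W t - fi W t ζ) = fi W t ζ - ζ by ring] at h5
    have h6 := hr.1.trans (le_abs_self T)
    linarith
  · have h3 := SLE.fA.Y_anti W (fi W t ζ) ht
    simp only [P164.Yf] at h3
    rw [h2, (SLE.fA.init W _ h1.1).2.1] at h3
    simpa using h3

end Nd

theorem s_nd (hc : S_cay) (hb : SLE.S_bnd) : S_nd := by
  intro ψ T R hψ
  obtain ⟨cf, -⟩ := hc
  obtain ⟨C, hC⟩ : ∃ C, C = 2 * |T| + 3 * |R| + 2 := ⟨_, rfl⟩
  have C0 : 0 < C := by rw [hC]; positivity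
  let K : Set ℂ := {z | 1 ≤ z.im} ∩ closedBall 0 (3 * C + 2)
  have cK : IsCompact K :=
    (isCompact_closedBall _ _).inter_left (isClosed_le continuous_const continuous_im)
  have sK : K ⊆ HP := fun z hz =>
    show 0 < z.im from lt_of_lt_of_le one_pos (show (1 : ℝ) ≤ z.im from hz.1)
  have cQ : IsCompact (K ×ˢ K ∩ {p : ℂ × ℂ | 1 ≤ ‖p.1 - p.2‖}) :=
    (cK.prod cK).inter_right (isClosed_le continuous_const (by fun_prop))
  have cF : ContinuousOn (fun z => ψ (cay z)) K :=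
    hψ.1.comp (cf.hf.continuousOn.mono sK) fun z hz => ball_subset_closedBall (cf.mf (sK hz))
  obtain ⟨a, a0, ha⟩ := cQ.exists_forall_le' (a := (0 : ℝ))
    (f := fun p : ℂ × ℂ => ‖ψ (cay p.1) - ψ (cay p.2)‖)
    (((cF.comp continuousOn_fst fun p hp => hp.1.1).sub
      (cF.comp continuousOn_snd fun p hp => hp.1.2)).norm) fun p hp => by
      rw [norm_pos_iff, sub_ne_zero]
      intro h
      have h1 := hψ.2.1 (ball_subset_closedBall (cf.mf (sK hp.1.1)))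
        (ball_subset_closedBall (cf.mf (sK hp.1.2))) h
      have h2 : p.1 = p.2 := by rw [← cf.gf _ (sK hp.1.1), h1, cf.gf _ (sK hp.1.2)]
      have h3 : 1 ≤ ‖p.1 - p.2‖ := hp.2
      rw [h2, sub_self, norm_zero] at h3
      linarith
  have i1 : (I : ℂ).im = 1 := I_im
  have i2 : (((2 * C + 2 : ℝ) : ℂ) * I).im = 2 * C + 2 := by simp
  have m1 : (I : ℂ) ∈ HP := by
    show 0 < (I : ℂ).im
    rw [i1]
    exact one_pos
  have m2 : ((2 * C + 2 : ℝ) : ℂ) * I ∈ HP := by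
    show 0 < (((2 * C + 2 : ℝ) : ℂ) * I).im
    rw [i2]
    linarith
  refine ⟨_, cf.mf m1, _, cf.mf m2, a / 3, by positivity, fun Ψ W t hΨ ht hr => ?_⟩
  unfold fm
  rw [cf.gf _ m1, cf.gf _ m2]
  obtain ⟨b1, b2⟩ := Nd.inv_bd hb ht hr m1
  obtain ⟨b3, b4⟩ := Nd.inv_bd hb ht hr m2
  rw [← hC] at b1 b3
  generalize fi W t I = u at b1 b2 ⊢
  generalize fi W t (((2 * C + 2 : ℝ) : ℂ) * I) = v at b3 b4 ⊢
  have n2 : ‖((2 * C + 2 : ℝ) : ℂ) * I‖ = 2 * C + 2 := by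
    rw [norm_mul, norm_I, mul_one, norm_real, Real.norm_of_nonneg (by linarith)]
  have uK : u ∈ K := ⟨i1 ▸ b2, mem_closedBall_zero_iff.2 (by
    have := norm_le_norm_add_norm_sub' u I
    rw [norm_I] at this
    linarith)⟩
  have vK : v ∈ K := ⟨show 1 ≤ v.im by linarith, mem_closedBall_zero_iff.2 (by
    have := norm_le_norm_add_norm_sub' v (((2 * C + 2 : ℝ) : ℂ) * I)
    linarith)⟩
  have uv : 1 ≤ ‖u - v‖ := by
    have h1 := (neg_le_abs _).trans (abs_im_le_norm (u - v))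
    have h2 := (le_abs_self _).trans (abs_im_le_norm (u - I))
    rw [sub_im] at h1 h2
    linarith
  have h1 := ha (u, v) ⟨⟨uK, vK⟩, uv⟩
  have h2 := hΨ _ (ball_subset_closedBall (cf.mf (sK uK)))
  have h3 := hΨ _ (ball_subset_closedBall (cf.mf (sK vK)))
  have h4 := norm_sub_le_norm_sub_add_norm_sub (ψ (cay u)) (Ψ (cay u)) (ψ (cay v))
  have h5 := norm_sub_le_norm_sub_add_norm_sub (Ψ (cay u)) (Ψ (cay v)) (ψ (cay v))
  rw [norm_sub_rev (ψ (cay u)) (Ψ (cay u))] at h4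
  simp only at h1
  linarith

end Vale.Agent.P153.A2
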