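import Vale.Agent.P153.CA.Basic
import Vale.Agent.P153.Wick.Stm
import Vale.Agent.P153.K2.Stm
import Vale.Agent.P153.SLE.Stm
import Vale.Agent.P153.SLE.Drv

/-! The observables in the slit domains: definitions and statements. -/

open Set Filter Topology Metric Complex MeasureTheory
open scoped Real

noncomputable section
namespace Vale.Agent.P153.A2

open Vale.Agent.P164 (Pth HP Zf fi dom)
open Vale.Agent.P153.CA (Cf Full cay icay JLoop inside circ Hyd)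
open Vale.Agent.P153.Wick (Fr arcP arcM CS Seq W_bv cc YY Qv cov inv)
open Vale.Agent.P153.SLE (DC Drv)
open Vale.Agent.P153.Drive (Run Near obsM obsQ)
open Vale.Agent.P071 (Test g0)

/-! ### The lattice -/

/-- The midpoints of the crossed edges. -/
def mid (L : LDom) (h : V → ℤ) (m : ℕ) : ℂ := (emb (L.edge h m).1 + emb (L.edge h m).2) / 2

/-- The interface with a real parameter. -/
def gm (L : LDom) (δ : ℝ) (h : V → ℤ) (s : ℝ) : ℂ := δ * poly (mid L h) (L.len h) s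

/-- The left wall after `m` steps. -/
def lA (L : LDom) (h : V → ℤ) (m : ℕ) : Set V := arcP L ∪ (fun i => (L.edge h i).1) '' Iic m

/-- The right wall after `m` steps. -/
def rB (L : LDom) (h : V → ℤ) (m : ℕ) : Set V := arcM L ∪ (fun i => (L.edge h i).2) '' Iic m

/-- The free sites after `m` steps. -/
def Fm (L : LDom) (h : V → ℤ) (m : ℕ) : Set V := Fr L \ (lA L h m ∪ rB L h m)

/-- The wall of height one. -/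
def pick (ε : ℤ) (A B : Set V) : Set V := if ε = 1 then A else B

/-- The first `m` steps. -/
def lab (L : LDom) (m : ℕ) (h : V → ℤ) : ℕ → V × V := fun i => L.edge h (min i m)

/-- The unit Lipschitz function of `h`. -/
def toH (h : V → ℤ) : Cfg := fun x => (h x + 1) / 2

/-- The properties of the exploration. -/
structure Lat (L : LDom) (ε : ℤ) (h : V → ℤ) : Prop where
  pos : 0 < L.len h
  last : L.edge h (L.len h) = (L.β (L.k - 1), L.β L.k)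
  adj : ∀ i ≤ L.len h, Adj (L.edge h i).1 (L.edge h i).2
  stl : ∀ i < L.len h, (L.edge h (i + 1)).1 = (L.edge h i).1 ∨
    Adj (L.edge h i).1 (L.edge h (i + 1)).1
  str : ∀ i < L.len h, (L.edge h (i + 1)).2 = (L.edge h i).2 ∨
    Adj (L.edge h i).2 (L.edge h (i + 1)).2
  inl : ∀ i ≤ L.len h, (L.edge h i).1 ∈ Fr L ∪ arcP L
  inr : ∀ i ≤ L.len h, (L.edge h i).2 ∈ Fr L ∪ arcM L
  dis : Disjoint (lA L h (L.len h)) (rB L h (L.len h))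
  inj : InjOn (poly (mid L h) (L.len h)) (Icc 0 1)
  ins : ∀ s ∈ Ioo (0 : ℝ) 1, poly (mid L h) (L.len h) s ∈ L.dom
  cut : ∀ x y, Adj x y → ∀ s ∈ Icc (0 : ℝ) 1,
    poly (mid L h) (L.len h) s ∈ segment ℝ (emb x) (emb y) →
    ∃ i ≤ L.len h, s = i / L.len h ∧ (L.edge h i = (x, y) ∨ L.edge h i = (y, x))
  mark : ∀ m ≤ L.len h, ∀ f : Cfg → ℝ, Seal.cex (L.Hts ε) (lab L m) (fun k => f (toH k)) h =
    Ex (dob (Fm L h m) (pick ε (lA L h m) (rB L h m))) f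

/-- The input from the lattice geometry. -/
def S_lat : Prop := ∀ ψ L δ (ε : ℤ), IsJordanMap ψ → Approx ψ L δ → (ε = 1 ∨ ε = -1) →
  ∀ᶠ n in atTop, ∀ h ∈ (L n).Hts ε, Lat (L n) ε h

/-- Lattice edges do not cross. -/
def S_plan : Prop := ∀ x y x' y' : V, Adj x y → Adj x' y' → ∀ z ∈ segment ℝ (emb x) (emb y),
  z ∈ segment ℝ (emb x') (emb y') → z = emb x ∨ z = emb y ∨ (x' = x ∧ y' = y) ∨ (x' = y ∧ y' = x)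

/-- The boundary is a Jordan curve, and edges from free sites lie in the domain. -/
def S_jl : Prop := ∀ L : LDom, JLoop (fun t => L.bd (Int.fract t)) ∧
  range (fun t => L.bd (Int.fract t)) = L.bd '' Icc 0 1 ∧
  (∀ i < L.N, L.bd ((i + 1 / 2) / L.N) = (emb (L.β i) + emb (L.β (i + 1))) / 2) ∧
  ∀ x ∈ Fr L, ∀ y, Adj x y → ∀ z ∈ segment ℝ (emb x) (emb y), z ≠ emb y → z ∈ L.dom

/-- Polygonal lines. -/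
def S_poly : Prop := ∀ (p : ℕ → ℂ) (M : ℕ), 0 < M → ContinuousOn (poly p M) (Icc 0 1) ∧
  (∀ i ≤ M, poly p M (i / M) = p i) ∧
  (∀ i < M, ∀ s ∈ Icc ((i : ℝ) / M) ((i + 1) / M), poly p M s ∈ segment ℝ (p i) (p (i + 1))) ∧
  (∀ s ∈ Icc (0 : ℝ) 1, ∃ i < M, s ∈ Icc ((i : ℝ) / M) ((i + 1) / M)) ∧
  ∀ (p' : ℕ → ℂ) (M' m : ℕ), 0 < M' → (∀ i ≤ m, p' i = p i) → ∀ s ∈ Icc (0 : ℝ) (m / M),
    poly p' M' (M / M' * s) = poly p M s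

/-- The walls. -/
structure Walls (F A B : Set V) : Prop where
  dom : Wick.Dom F
  obd : obd F ⊆ A ∪ B
  AF : A ⊆ Fᶜ
  BF : B ⊆ Fᶜ
  cA : CS A
  cB : CS B
  dis : Disjoint A B

def S_walls : Prop := ∀ L ε h, Lat L ε h → ∀ m ≤ L.len h, Walls (Fm L h m) (lA L h m) (rB L h m)

/-! ### The Jordan maps -/

/-- A Jordan map onto the polygon that respects the marks. -/
structure JM (L : LDom) (δ : ℝ) (Ψ : ℂ → ℂ) : Prop where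
  pos : 0 < δ
  jm : IsJordanMap Ψ
  im : Ψ '' ball 0 1 = {z : ℂ | z / δ ∈ L.dom}
  bd : Ψ '' sphere 0 1 = {z : ℂ | z / δ ∈ L.bd '' Icc 0 1}
  a : Ψ (-1) = δ * ((emb (L.β 0) + emb (L.β (L.N - 1))) / 2)
  b : Ψ 1 = δ * ((emb (L.β (L.k - 1)) + emb (L.β L.k)) / 2)
  up : ∀ y ∈ arcP L, ∃ ζ ∈ sphere (0 : ℂ) 1, 0 < ζ.im ∧ Ψ ζ = δ * emb y
  lo : ∀ y ∈ arcM L, ∃ ζ ∈ sphere (0 : ℂ) 1, ζ.im < 0 ∧ Ψ ζ = δ * emb y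

/-- The Jordan maps of an approximating sequence. -/
def Maps (ψ : ℂ → ℂ) (L : ℕ → LDom) (δ : ℕ → ℝ) (Ψ : ℕ → ℂ → ℂ) : Prop :=
  TendstoUniformlyOn Ψ ψ atTop (closedBall 0 1) ∧ ∀ᶠ n in atTop, JM (L n) (δ n) (Ψ n)

def S_cay : Prop := Cf HP (ball 0 1) cay icay ∧ icay (-1) = 0 ∧ cay 0 = -1 ∧ cay I = 0 ∧
  (∀ w, w ≠ 1 → cay (icay w) = w) ∧ (∀ z : ℂ, 0 ≤ z.im → icay (cay z) = z ∧ cay z ≠ 1) ∧
  ContinuousOn icay {1}ᶜ ∧ ContinuousOn cay {z | 0 ≤ z.im} ∧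
  (∀ z : ℂ, 0 ≤ z.im → ‖cay z - 1‖ = 2 / ‖z + I‖ ∧ (cay z).im = -2 * z.re / ‖z + I‖ ^ 2) ∧
  ∀ w : ℂ, w ≠ 1 → (icay w).im = (1 - ‖w‖ ^ 2) / ‖1 - w‖ ^ 2

def S_jmap : Prop := ∀ ψ, IsJordanMap ψ → ∀ e : ℝ, 0 < e → ∃ ρ : ℝ, 0 < ρ ∧
  ∀ (j : ℝ → ℂ) (a b : ℂ), JLoop j → (∀ t, ‖j t - ψ (circ t)‖ ≤ ρ) → a ∈ range j → b ∈ range j →
    ‖a - ψ (-1)‖ ≤ ρ → ‖b - ψ 1‖ ≤ ρ → ∃ Ψ, IsJordanMap Ψ ∧ Ψ '' ball 0 1 = inside (range j) ∧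
      Ψ '' sphere 0 1 = range j ∧ Ψ (-1) = a ∧ Ψ 1 = b ∧ ∀ z ∈ closedBall (0 : ℂ) 1, ‖Ψ z - ψ z‖ ≤ e

/-- The maps without the information on the arcs. -/
def S_maps0 : Prop := ∀ ψ L δ, IsJordanMap ψ → Approx ψ L δ → ∀ e : ℝ, 0 < e →
  ∀ᶠ n in atTop, ∃ Ψ, IsJordanMap Ψ ∧ Ψ '' ball 0 1 = {z : ℂ | z / δ n ∈ (L n).dom} ∧
    Ψ '' sphere 0 1 = {z : ℂ | z / δ n ∈ (L n).bd '' Icc 0 1} ∧
    Ψ (-1) = δ n * ((emb ((L n).β 0) + emb ((L n).β ((L n).N - 1))) / 2) ∧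
    Ψ 1 = δ n * ((emb ((L n).β ((L n).k - 1)) + emb ((L n).β (L n).k)) / 2) ∧
    ∀ z ∈ closedBall (0 : ℂ) 1, ‖Ψ z - ψ z‖ ≤ e

/-- Each arc lies on one side. -/
def S_arcs : Prop := ∀ (L : LDom) (δ : ℝ) (Ψ : ℂ → ℂ), 0 < δ → IsJordanMap Ψ →
  Ψ '' sphere 0 1 = {z : ℂ | z / δ ∈ L.bd '' Icc 0 1} →
  Ψ (-1) = δ * ((emb (L.β 0) + emb (L.β (L.N - 1))) / 2) →
  Ψ 1 = δ * ((emb (L.β (L.k - 1)) + emb (L.β L.k)) / 2) → ∀ (A : Set V) (σ : ℝ),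
  (A = arcP L ∨ A = arcM L) → (∃ y ∈ A, ∃ ζ ∈ sphere (0 : ℂ) 1, 0 < σ * ζ.im ∧ Ψ ζ = δ * emb y) →
  ∀ y ∈ A, ∃ ζ ∈ sphere (0 : ℂ) 1, 0 < σ * ζ.im ∧ Ψ ζ = δ * emb y

def S_maps : Prop := ∀ ψ L δ, IsJordanMap ψ → Approx ψ L δ → ∃ Ψ, Maps ψ L δ Ψ

/-- The interface seen in the disc. -/
def cv (Ψ : ℂ → ℂ) (L : LDom) (δ : ℝ) (h : V → ℤ) (s : ℝ) : ℂ :=
  Function.invFunOn Ψ (closedBall 0 1) (gm L δ h s)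

def S_dc : Prop := ∀ L δ Ψ ε h, JM L δ Ψ → Lat L ε h → DC (cv Ψ L δ h) ∧
  ContinuousOn (gm L δ h) (Icc 0 1) ∧ ∀ s ∈ Icc (0 : ℝ) 1, Ψ (cv Ψ L δ h s) = gm L δ h s

/-! ### Driving functions -/

def S_drv : Prop := ∀ c, DC c → ∀ S ∈ Ico (0 : ℝ) 1, ∃ τ W, Drv c S τ W ∧ ∀ t ≤ 0, W t = 0

/-- Survival over a short time. -/
def S_surv : Prop := ∀ (W : Pth) (s t ω : ℝ) (w : ℂ), 0 ≤ s → s ≤ t →
  (∀ u ∈ Icc s t, |W u - W s| ≤ ω) → w ∈ dom W s → ω + 3 * √(t - s) < ‖Zf W s w‖ → w ∈ dom W t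

def S_whyd : Prop := ∀ (W : Pth) (t : ℝ), 0 ≤ t →
  Hyd (HP \ dom W t) (fun z => Zf W t z + W t) (fun ζ => fi W t (ζ - W t)) (2 * t)

/-- The future of the curve starts at the driving point. -/
def S_tipz : Prop := ∀ c S τ W, DC c → Drv c S τ W → ∀ s ∈ Icc 0 S,
  (∀ v ∈ Ioo s 1, icay (c v) ∈ dom W (τ s)) ∧
  Tendsto (fun v => Zf W (τ s) (icay (c v))) (𝓝[>] s) (𝓝 0)

def S_uniq : Prop := ∀ c S τ W c' S' τ' W' (a s : ℝ), DC c → Drv c S τ W → DC c' →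
  Drv c' S' τ' W' → 0 < a → s ∈ Icc 0 S → a * s ≤ S' → (∀ v ∈ Icc 0 s, c' (a * v) = c v) →
  τ' (a * s) = τ s ∧ EqOn W' W (Icc 0 (τ s))

def S_incr : Prop := ∃ C : ℝ, 0 < C ∧ ∀ c S τ W (s u r : ℝ), DC c → Drv c S τ W → 0 ≤ s → s < u →
  u ≤ S → 0 < r → (∀ v ∈ Ioc s u, ‖Zf W (τ s) (icay (c v))‖ ≤ r) →
  τ u - τ s ≤ C * r ^ 2 ∧ ∀ t ∈ Icc (τ s) (τ u), |W t - W (τ s)| ≤ C * r

def S_fin : Prop := ∀ T R : ℝ, ∃ k : ℝ, 0 < k ∧ ∀ c S τ W, DC c → Drv c S τ W → ∀ s ∈ Icc 0 S,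
  Run T R (τ s) W → k ≤ ‖c s - 1‖

def S_step : Prop := ∀ T R e : ℝ, 0 < e → ∃ ω : ℝ, 0 < ω ∧ ∀ c S τ W (s u : ℝ), DC c →
  Drv c S τ W → 0 ≤ s → s < u → u ≤ S → Run T R (τ s) W → (∀ v ∈ Icc s u, ‖c v - c s‖ ≤ ω) →
  τ u ≤ τ s + e ∧ ∀ t ∈ Icc (τ s) (τ u), |W t - W (τ s)| ≤ e

/-- One lattice step is small in the disc, and the last step is near the end point. -/
def S_mesh : Prop := ∀ ψ L δ Ψ, IsJordanMap ψ → Tendsto δ atTop (𝓝 0) → Maps ψ L δ Ψ →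
  ∀ ω : ℝ, 0 < ω → ∀ᶠ n in atTop, ∀ ε h, Lat (L n) ε h → ∀ m < (L n).len h,
    ∀ v ∈ Icc ((m : ℝ) / (L n).len h) ((m + 1) / (L n).len h),
      ‖cv (Ψ n) (L n) (δ n) h v - cv (Ψ n) (L n) (δ n) h (m / (L n).len h)‖ ≤ ω

/-! ### The slit domains -/

/-- The slit domain. -/
def om (Ψ : ℂ → ℂ) (c : ℝ → ℂ) (s : ℝ) : Set ℂ := Ψ '' (ball 0 1 \ c '' Icc 0 s)

/-- The slit disc onto the disc. -/
def zm (W : Pth) (t : ℝ) (w : ℂ) : ℂ := cay (Zf W t (icay w))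

/-- The disc onto the slit domain. -/
def fm (Ψ : ℂ → ℂ) (W : Pth) (t : ℝ) (ζ : ℂ) : ℂ := Ψ (cay (fi W t (icay ζ)))

/-- The slit domain onto the disc. -/
def pm (Ψ : ℂ → ℂ) (W : Pth) (t : ℝ) (z : ℂ) : ℂ := zm W t (inv Ψ z)

def S_cf : Prop := ∀ Ψ c S τ W, IsJordanMap Ψ → DC c → Drv c S τ W → ∀ s ∈ Icc 0 S,
  Cf (ball 0 1) (ball 0 1 \ c '' Icc 0 s) (fun ζ => cay (fi W (τ s) (icay ζ))) (zm W (τ s)) ∧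
  Cf (ball 0 1) (Ψ '' ball 0 1) Ψ (inv Ψ) ∧
  Cf (ball 0 1) (om Ψ c s) (fm Ψ W (τ s)) (pm Ψ W (τ s)) ∧
  om Ψ c s = Ψ '' ball 0 1 \ (fun v => Ψ (c v)) '' Icc 0 s ∧
  frontier (om Ψ c s) ⊆ Ψ '' sphere 0 1 ∪ (fun v => Ψ (c v)) '' Icc 0 s

def S_full : Prop := ∀ Ψ c s, IsJordanMap Ψ → DC c → s ∈ Icc (0 : ℝ) 1 → Full (om Ψ c s)

/-- The crossing lemma. -/
def S_cross : Prop := ∀ (K Q : Set ℂ) (u v : ℂ), IsCompact K → IsPreconnected K →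
  K ⊆ ball 0 1 ∪ {-1, 1} → -1 ∈ K → 1 ∈ K → IsPreconnected Q → Q ⊆ ball 0 1 \ K →
  u ∈ closure Q → v ∈ closure Q → ‖u‖ = 1 → ‖v‖ = 1 → 0 < u.im → 0 ≤ v.im

/-- The points joined to the upper (`σ = 1`) or lower (`σ = -1`) half circle off the curve. -/
def side (c : ℝ → ℂ) (σ : ℝ) : Set ℂ :=
  {w | ∃ Q, IsPreconnected Q ∧ Q ⊆ ball 0 1 \ c '' Icc 0 1 ∧ w ∈ Q ∧
    ∃ ζ ∈ closure Q, ‖ζ‖ = 1 ∧ 0 < σ * ζ.im}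

def S_side : Prop := ∀ c (σ : ℝ), DC c → (σ = 1 ∨ σ = -1) →
  side c σ ⊆ ball 0 1 \ c '' Icc 0 1 ∧ IsPreconnected (side c σ) ∧
  (∀ ζ : ℂ, ‖ζ‖ = 1 → 0 < σ * ζ.im → ∀ᶠ w in 𝓝[ball 0 1] ζ, w ∈ side c σ) ∧
  ∀ Q, IsPreconnected Q → Q ⊆ ball 0 1 \ c '' Icc 0 1 → (Q ∩ side c σ).Nonempty → Q ⊆ side c σ

def S_lr0 : Prop := ∀ c S τ W (σ : ℝ), DC c → Drv c S τ W → (σ = 1 ∨ σ = -1) → ∀ s ∈ Icc 0 S,
  ∀ v ∈ closure (zm W (τ s) '' side c σ), ‖v‖ = 1 → 0 ≤ σ * v.im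

def S_lr1 : Prop := ∀ L δ Ψ ε h, JM L δ Ψ → Lat L ε h → ∀ (σ : ℝ) (y : V),
  (σ = 1 ∧ y ∈ lA L h (L.len h) ∨ σ = -1 ∧ y ∈ rB L h (L.len h)) →
  ∀ᶠ z in 𝓝[Ψ '' ball 0 1] (δ * emb y), inv Ψ z ∈ side (cv Ψ L δ h) σ

/-- Free sites next to the wall `A` are attached to the half circle `σ`. -/
def Att (δ σ : ℝ) (F A : Set V) (Ω : Set ℂ) (g : ℂ → ℂ) : Prop :=
  ∀ x ∈ F, ∀ y ∈ A, Adj x y → ∃ P, IsPreconnected P ∧ P ⊆ Ω ∩ closedBall (δ * emb y) δ ∧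
    δ * emb x ∈ P ∧ ∃ v ∈ closure (g '' P), ‖v‖ = 1 ∧ 0 ≤ σ * v.im

def S_lr : Prop := ∀ L δ Ψ ε h S τ W (m : ℕ), JM L δ Ψ → Lat L ε h → Drv (cv Ψ L δ h) S τ W →
  (m : ℝ) / L.len h ≤ S →
  Att δ 1 (Fm L h m) (lA L h m) (om Ψ (cv Ψ L δ h) (m / L.len h)) (pm Ψ W (τ (m / L.len h))) ∧
  Att δ (-1) (Fm L h m) (rB L h m) (om Ψ (cv Ψ L δ h) (m / L.len h)) (pm Ψ W (τ (m / L.len h)))

/-- The geometry at one mesh. -/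
structure Ms (δ R d : ℝ) (F A B : Set V) (Ω : Set ℂ) (f g : ℂ → ℂ) : Prop extends Walls F A B where
  cf : Cf (ball 0 1) Ω f g
  full : Full Ω
  bd : Ω ⊆ ball 0 R
  bigA : ∀ p : ℂ, ∃ y ∈ A, d ≤ ‖δ * emb y - p‖
  bigB : ∀ p : ℂ, ∃ y ∈ B, d ≤ ‖δ * emb y - p‖
  mem : ∀ x ∈ F, δ * emb x ∈ Ω
  edge : ∀ x ∈ F, ∀ y ∈ F, Adj x y → segment ℝ (δ * emb x) (δ * emb y) ⊆ Ω
  pin : ∀ x, x ∉ F → ∃ w, w ∉ Ω ∧ ‖w - δ * emb x‖ ≤ δ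
  fr : ∀ w ∈ frontier Ω, ∃ x, x ∉ F ∧ ‖w - δ * emb x‖ ≤ 2 * δ
  sA : Att δ 1 F A Ω g
  sB : Att δ (-1) F B Ω g

def S_ms : Prop := ∀ L δ Ψ ε h S τ W (m : ℕ) (R d : ℝ), JM L δ Ψ → Lat L ε h →
  Drv (cv Ψ L δ h) S τ W → (m : ℝ) / L.len h ≤ S → Ψ '' ball 0 1 ⊆ ball 0 R →
  2 * d + 2 * δ ≤ ‖Ψ 1 - Ψ (-1)‖ →
  Ms δ R d (Fm L h m) (lA L h m) (rB L h m) (om Ψ (cv Ψ L δ h) (m / L.len h))
    (fm Ψ W (τ (m / L.len h))) (pm Ψ W (τ (m / L.len h)))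

/-! ### Kernel convergence -/

def S_mon : Prop := ∀ (Ω : ℕ → Set ℂ) (f g : ℕ → ℂ → ℂ) (R c : ℝ) (p q : ℂ),
  (∀ k, Cf (ball 0 1) (Ω k) (f k) (g k)) → (∀ k, Ω k ⊆ ball 0 R) → 0 < c → p ∈ ball (0 : ℂ) 1 →
  q ∈ ball (0 : ℂ) 1 → (∀ k, c ≤ ‖f k p - f k q‖) →
  ∃ (m : ℕ → ℕ) (D : Set ℂ) (ψ φ : ℂ → ℂ), StrictMono m ∧ Cf (ball 0 1) D ψ φ ∧
    D ⊆ closedBall 0 R ∧ TendstoLocallyUniformlyOn (fun k => f (m k)) ψ atTop (ball 0 1)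

/-- Convergence of conformal maps. -/
structure Kc (D : Set ℂ) (ψ φ : ℂ → ℂ) (Ω : ℕ → Set ℂ) (f g : ℕ → ℂ → ℂ) : Prop where
  cf : Cf (ball 0 1) D ψ φ
  cfk : ∀ k, Cf (ball 0 1) (Ω k) (f k) (g k)
  lim : TendstoLocallyUniformlyOn f ψ atTop (ball 0 1)

def S_ker1 : Prop := ∀ D ψ φ Ω f g, Kc D ψ φ Ω f g → ∀ K, IsCompact K → K ⊆ D →
  (∀ᶠ k in atTop, K ⊆ Ω k) ∧ TendstoUniformlyOn g φ atTop K

def S_ker2 : Prop := ∀ D ψ φ Ω f g, Kc D ψ φ Ω f g → ∀ z ∈ frontier D, ∀ e : ℝ, 0 < e →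
  ∀ᶠ k in atTop, ¬ ball z e ⊆ Ω k

def S_ker3 : Prop := ∀ D ψ φ Ω f g, Kc D ψ φ Ω f g → ∀ (K : Set ℂ) (a : ℕ → ℂ → ℂ) (a₀ : ℂ → ℂ)
  (r : ℝ), r < 1 → TendstoUniformlyOn a a₀ atTop K →
  (∀ᶠ k in atTop, ∀ w ∈ K, a k w ∈ Ω k ∧ ‖g k (a k w)‖ ≤ r) →
  MapsTo a₀ K D ∧ TendstoUniformlyOn (fun k w => g k (a k w)) (fun w => φ (a₀ w)) atTop K

/-- A converging sequence of meshes. -/
structure Sq (D : Set ℂ) (ψ φ : ℂ → ℂ) (Ω : ℕ → Set ℂ) (f g : ℕ → ℂ → ℂ) (δ : ℕ → ℝ) (R d : ℝ)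
    (F A B : ℕ → Set V) : Prop extends Kc D ψ φ Ω f g where
  bdd : D ⊆ closedBall 0 R
  pos : ∀ k, 0 < δ k
  dlim : Tendsto δ atTop (𝓝 0)
  dpos : 0 < d
  ms : ∀ k, Ms (δ k) R d (F k) (A k) (B k) (Ω k) (f k) (g k)

def S_seq : Prop := ∀ D ψ φ Ω f g δ R d F A B, Sq D ψ φ Ω f g δ R d F A B → Seq D F δ ∧ P071.Conf D ψ φ

/-- Small connected sets near the boundary have small images; the sides of the walls. -/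
def S_small : Prop := ∀ D ψ φ Ω f g δ R d F A B, Sq D ψ φ Ω f g δ R d F A B → ∀ l : ℝ, 0 < l →
  (∃ ρ : ℝ, 0 < ρ ∧ ∀ᶠ k in atTop, ∀ (p : ℂ) (P : Set ℂ), IsPreconnected P →
    P ⊆ Ω k ∩ closedBall p ρ → (∃ w, w ∉ Ω k ∧ ‖w - p‖ ≤ ρ) →
    ∀ z ∈ P, ∀ z' ∈ P, ‖g k z - g k z'‖ ≤ l) ∧
  ∀ᶠ k in atTop, ∀ x ∈ F k, ∀ y, Adj x y →
    (y ∈ A k → -l ≤ (g k (δ k * emb x)).im) ∧ (y ∈ B k → (g k (δ k * emb x)).im ≤ l)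

def S_bv : Prop := ∀ D ψ φ Ω f g δ R d F A B (ε : ℤ), Sq D ψ φ Ω f g δ R d F A B →
  W_bv D φ (cc ε) (fun k => dob (F k) (pick ε (A k) (B k))) (YY δ)

/-- The limit is not constant. -/
def S_nd : Prop := ∀ (ψ : ℂ → ℂ) (T R : ℝ), IsJordanMap ψ → ∃ p ∈ ball (0 : ℂ) 1,
  ∃ q ∈ ball (0 : ℂ) 1, ∃ c : ℝ, 0 < c ∧ ∀ Ψ W t, (∀ z ∈ closedBall (0 : ℂ) 1, ‖Ψ z - ψ z‖ ≤ c) →
    0 ≤ t → Run T R t W → c ≤ ‖fm Ψ W t p - fm Ψ W t q‖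

/-! ### The observables -/

/-- The harmonic measure of the upper half circle (`Wick.uu`). -/
def uu (w : ℂ) : ℝ := Complex.arg (Complex.I * (1 + w) / (1 - w)) / Real.pi

/-- A test function and its image measure in the half plane. -/
structure Nu (ψ : ℂ → ℂ) (w₀ : ℂ) (g : ℂ → ℝ) (ν : Measure ℂ) : Prop where
  test : Test (ψ '' (cay '' ball w₀ 1)) g
  nn : ∀ z, 0 ≤ g z
  one : ∫ z, g z = 1
  near : Near ν w₀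
  rep : ∀ G : ℂ → ℝ, ContinuousOn G (closedBall w₀ 1) →
    ∫ w, G w ∂ν = ∫ z, G (icay (inv ψ z)) * g z

def S_nu : Prop := ∀ ψ (w₀ : ℂ), IsJordanMap ψ → 2 ≤ w₀.im → ∃ g ν, Nu ψ w₀ g ν

/-- The Green function of the half plane. -/
def GH (a b : ℂ) : ℝ := (2 * π)⁻¹ * Real.log (‖a - (starRingEnd ℂ) b‖ / ‖a - b‖)

/-- The formula of Hadamard. -/
def S_had : Prop := (∀ a ∈ HP, ∀ b ∈ HP, g0 (cay a) (cay b) = GH a b) ∧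
  ∀ (W : Pth) (t : ℝ) (w w' : ℂ), 0 ≤ t → w ∈ dom W t → w' ∈ dom W t → w ≠ w' →
    GH (Zf W t w) (Zf W t w') =
      GH w w' - 2 / π * ∫ u in (0 : ℝ)..t, ((Zf W u w)⁻¹).im * ((Zf W u w')⁻¹).im

def S_qint : Prop := ∀ D ψ φ (g : ℂ → ℝ), IsOpen D → P071.Conf D ψ φ → Test D g →
  IntegrableOn (fun p : ℂ × ℂ => g p.1 * g0 (φ p.1) (φ p.2) * g p.2) (D ×ˢ D)

/-- Convergence of the flows near `w₀`. -/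
structure Fl (ψ : ℂ → ℂ) (w₀ : ℂ) (D : Set ℂ) (ψ' φ : ℂ → ℂ) (W : ℕ → Pth) (t : ℕ → ℝ) (T : ℝ) :
    Prop where
  jm : IsJordanMap ψ
  im : 2 ≤ w₀.im
  op : IsOpen D
  conf : P071.Conf D ψ' φ
  tT : ∀ k, t k ∈ Icc 0 T
  far : ∀ k, ∀ u ∈ Icc 0 (t k), ∀ w ∈ closedBall w₀ 1, w ∈ dom (W k) u ∧ 1 ≤ (Zf (W k) u w).im
  maps : MapsTo (fun w => ψ (cay w)) (closedBall w₀ 1) D
  lim : TendstoUniformlyOn (fun k w => cay (Zf (W k) (t k) w)) (fun w => φ (ψ (cay w))) atTop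
    (closedBall w₀ 1)

def S_lim1 : Prop := ∀ ψ w₀ D ψ' φ W t T g ν, Fl ψ w₀ D ψ' φ W t T → Nu ψ w₀ g ν →
  Tendsto (fun k => obsM ν (W k) (t k)) atTop (𝓝 (∫ z, uu (φ z) * g z))

def S_lim2 : Prop := ∀ ψ w₀ D ψ' φ W t T g ν, Fl ψ w₀ D ψ' φ W t T → Nu ψ w₀ g ν →
  Tendsto (fun k => Qv (ψ '' ball 0 1) (inv ψ) g - obsQ ν (W k) (t k)) atTop (𝓝 (Qv D φ g))

/-- Convergence of the mean (`Wick.UniM`). -/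
def UM : Prop := ∀ D ψ φ F (S : ℕ → Set V) δ (ε : ℤ), Seq D F δ → P071.Conf D ψ φ →
  W_bv D φ (cc ε) (fun n => dob (F n) (S n)) (YY δ) → ∀ g, Test D g →
  Tendsto (fun n => Ex (dob (F n) (S n)) (YY δ n g)) atTop
    (𝓝 (∫ z, (if ε = 1 then uu (φ z) else 1 - uu (φ z)) * g z))

/-- The constants of the variance (the middle part of `Wick.UniK`). -/
def UK (δ K : ℕ → ℝ) : Prop := (∃ b : ℝ, ∀ n, |K n| ≤ b) ∧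
  ∀ (m : ℕ → ℕ) D ψ' φ c F (S : ℕ → Set V), Tendsto m atTop atTop → Seq D F (δ ∘ m) →
    P071.Conf D ψ' φ → W_bv D φ c (fun n => dob (F n) (S n)) (YY (δ ∘ m)) → ∀ g, Test D g →
    Tendsto (fun n => cov (dob (F n) (S n)) (YY (δ ∘ m) n g) (YY (δ ∘ m) n g) -
      K (m n) * Qv D φ g) atTop (𝓝 0)

/-- The observable. -/
def Yo (ε : ℤ) (δ : ℕ → ℝ) (g : ℂ → ℝ) (n : ℕ) (H : Cfg) : ℝ :=
  if ε = 1 then YY δ n g H else 1 - YY δ n g H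

/-- The observables at one step. -/
def S_obs : Prop := ∀ ψ L δ (ε : ℤ) Ψ K, IsJordanMap ψ → Approx ψ L δ → Maps ψ L δ Ψ → UK δ K →
  ∀ T R : ℝ, ∃ A : ℝ, ∀ w₀ : ℂ, A ≤ ‖w₀‖ → ‖w₀‖ ≤ 2 * w₀.im → 2 ≤ w₀.im ∧ ∀ g ν, Nu ψ w₀ g ν →
    ∀ e : ℝ, 0 < e → ∀ᶠ n in atTop, ∀ h S τ W (m : ℕ), Lat (L n) ε h →
      Drv (cv (Ψ n) (L n) (δ n) h) S τ W → (m : ℝ) / (L n).len h ≤ S →
      Run T R (τ (m / (L n).len h)) W →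
      |Ex (dob (Fm (L n) h m) (pick ε (lA (L n) h m) (rB (L n) h m))) (Yo ε δ g n) -
        obsM ν W (τ (m / (L n).len h))| ≤ e ∧
      |cov (dob (Fm (L n) h m) (pick ε (lA (L n) h m) (rB (L n) h m))) (Yo ε δ g n) (Yo ε δ g n) -
        K n * (Qv (ψ '' ball 0 1) (inv ψ) g - obsQ ν W (τ (m / (L n).len h)))| ≤ e

/-- The theorem of this module. -/
def Out : Prop := ∀ ψ L δ (ε : ℤ) Ψ K, IsJordanMap ψ → Approx ψ L δ → (ε = 1 ∨ ε = -1) →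
  Maps ψ L δ Ψ → UK δ K → ∃ (S : ℕ → Cfg → ℝ) (τ : ℕ → Cfg → ℝ → ℝ) (W : ℕ → Cfg → Pth)
    (t : ℕ → ℕ → Cfg → ℝ),
    (∀ᶠ n in atTop, ∀ h ∈ (L n).Hts ε, DC (cv (Ψ n) (L n) (δ n) h) ∧
      Drv (cv (Ψ n) (L n) (δ n) h) (S n h) (τ n h) (W n h) ∧ (∀ u ≤ 0, W n h u = 0) ∧
      ∀ m, t n m h ≤ τ n h (S n h)) ∧
    Drive.Drv (fun n => (L n).Hts ε) (fun n => lab (L n)) t W K

end Vale.Agent.P153.A2
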