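import Vale.Agent.P153.A2.Stm
import Vale.Agent.P153.SLE.Fnd

/-! Survival over a short time, and the start of the future of the curve. -/

open Set Filter Topology Metric Complex MeasureTheory
open scoped Real

noncomputable section
namespace Vale.Agent.P153.A2

open Vale.Agent.P164 (Pth HP Zf fi dom)
open Vale.Agent.P153.CA (Cf Full cay icay JLoop inside circ Hyd)
open Vale.Agent.P153.SLE (DC Drv fA)

namespace Surv

theorem low {W : Pth} {s t ω u : ℝ} {w : ℂ} (hs : 0 ≤ s) (hst : s < t)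
    (hW : ∀ u ∈ Icc s t, |W u - W s| ≤ ω) (hz : ω + 3 * √(t - s) < ‖Zf W s w‖)
    (hu : u ∈ Icc s t) (hw : w ∈ dom W u) : √(t - s) ≤ ‖Zf W u w‖ := by
  obtain ⟨h, hh⟩ : ∃ h, h = √(t - s) := ⟨_, rfl⟩
  have h0 : 0 < h := hh ▸ Real.sqrt_pos.2 (sub_pos.2 hst)
  have h2 : h ^ 2 = t - s := hh ▸ Real.sq_sqrt (sub_pos.2 hst).le
  rw [← hh] at hz ⊢
  rcases hu.1.eq_or_lt with rfl | hsu
  · linarith [hW s hu, abs_nonneg (W s - W s)]
  let g : ℝ → ℂ := fun v => Zf W v w + W v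
  have al : ∀ v ∈ Icc s u, w ∈ dom W v := fun v hv => fA.dom_anti W v u (hs.trans hv.1) hv.2 hw
  have gc : ∀ v ∈ Icc s u, ContinuousAt g v := fun v hv =>
    (fA.cont W v w (hs.trans hv.1) (al v hv)).1.add
      (continuous_ofReal.comp W.continuous).continuousAt
  have e1 : ∀ᶠ a in 𝓝[>] s, ‖g a - g s‖ < ‖Zf W s w‖ - ω - 3 * h :=
    (tendsto_iff_norm_sub_tendsto_zero.1
      ((gc s ⟨le_rfl, hsu.le⟩).tendsto.mono_left nhdsWithin_le_nhds)).eventually_lt_const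
      (by linarith)
  obtain ⟨a, ha, hsa, hau⟩ := (e1.and (Ioo_mem_nhdsGT hsu)).exists
  have key : ∀ x ∈ Icc a u, ‖g x - g a‖ ≤ 2 / h * (x - a) → h < ‖Zf W x w‖ := by
    intro x hx hb
    have h3 : 2 / h * (x - a) ≤ 2 * h := by
      rw [div_mul_eq_mul_div, div_le_iff₀ h0]
      nlinarith [hx.2, hu.2]
    have h4 : Zf W s w = Zf W x w - (g x - g a) - (g a - g s) + ((W x - W s : ℝ) : ℂ) := by
      simp only [g, ofReal_sub]
      ring
    have h5 := hW x ⟨hsa.le.trans hx.1, hx.2.trans hu.2⟩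
    have h6 : ‖Zf W s w‖ ≤ ‖Zf W x w‖ + ‖g x - g a‖ + ‖g a - g s‖ + |W x - W s| := by
      rw [← Real.norm_eq_abs, ← norm_real]
      refine (congrArg norm h4).trans_le ((norm_add_le _ _).trans (add_le_add ?_ le_rfl))
      exact (norm_sub_le _ _).trans (add_le_add (norm_sub_le _ _) le_rfl)
    linarith
  refine (key u ⟨hau.le, le_rfl⟩ ?_).le
  refine image_norm_le_of_norm_deriv_right_lt_deriv_boundary (a := a) (b := u)
    (f := fun x => g x - g a) (f' := fun x => 2 / Zf W x w) (B := fun x => 2 / h * (x - a))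
    (B' := fun _ => 2 / h)
    (fun x hx => ((gc x ⟨hsa.le.trans hx.1, hx.2⟩).sub continuousAt_const).continuousWithinAt)
    (fun x hx => ((fA.der W x w ((hs.trans_lt hsa).trans_le hx.1)
      (al x ⟨hsa.le.trans hx.1, hx.2.le⟩)).1.sub_const _).hasDerivWithinAt) (by simp)
    (fun x => by simpa using ((hasDerivAt_id x).sub_const a).const_mul (2 / h))
    (fun x hx hb => ?_) ⟨hau.le, le_rfl⟩
  rw [norm_div, Complex.norm_two]
  exact div_lt_div_of_pos_left two_pos h0 (key x ⟨hx.1, hx.2.le⟩ hb.le)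

end Surv

theorem s_surv (ha : SLE.S_alv) : S_surv := by
  intro W s t ω w hs hst hW hw hz
  rcases hst.eq_or_lt with rfl | hlt
  · exact hw
  have hy := (fA.alive W s w hs).1 hw
  refine ha W t (min √(t - s) (P164.Yf W s w)) w (hs.trans hst)
    (lt_min (Real.sqrt_pos.2 (sub_pos.2 hlt)) hy) hw.1 fun u hu hwu => ?_
  rcases le_total u s with h | h
  · exact (min_le_right _ _).trans ((fA.Y_anti W w h).trans
      ((le_abs_self _).trans (abs_im_le_norm _)))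
  · exact (min_le_left _ _).trans (Surv.low hs hlt hW hz ⟨h, hu.2⟩ hwu)

theorem s_tipz (hc : S_cay) (ha : SLE.S_acc) : S_tipz := by
  intro c S τ W hd hv s hs
  obtain ⟨-, i1, -, -, ci, -, ic, -, -, im⟩ := hc
  have ne : ∀ v ∈ Ico (0 : ℝ) 1, c v ≠ 1 := fun v hv e =>
    hv.2.ne (hd.inj ⟨hv.1, hv.2.le⟩ ⟨zero_le_one, le_rfl⟩ (e.trans hd.c1.symm))
  have mem : ∀ r ∈ Icc 0 S, ∀ v ∈ Ioo r 1, icay (c v) ∈ dom W (τ r) := by
    intro r hr v hv'
    have v0 : 0 < v := hr.1.trans_lt hv'.1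
    have n1 := ne v ⟨v0.le, hv'.2⟩
    rw [hv.dom r hr]
    refine ⟨?_, fun ⟨x, hx, e⟩ => ?_⟩
    · show 0 < (icay (c v)).im
      rw [im _ n1]
      have := hd.ins v ⟨v0, hv'.2⟩
      exact div_pos (by nlinarith [norm_nonneg (c v)])
        (pow_pos (norm_pos_iff.2 (sub_ne_zero.2 n1.symm)) 2)
    · have x1 : x < 1 := hx.2.trans_lt (hv'.1.trans hv'.2)
      have e2 : c x = c v := by rw [← ci _ (ne x ⟨hx.1.le, x1⟩), ← ci _ n1]; exact congrArg cay e
      exact (hx.2.trans_lt hv'.1).ne (hd.inj ⟨hx.1.le, x1.le⟩ ⟨v0.le, hv'.2.le⟩ e2)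
  have s1 : s < 1 := hs.2.trans_lt hv.S1
  have ev : ∀ᶠ v in 𝓝[>] s, v ∈ Ioo s 1 := Ioo_mem_nhdsGT s1
  have lim : Tendsto (fun v => icay (c v)) (𝓝[>] s) (𝓝 (icay (c s))) :=
    (ic.continuousAt (isOpen_compl_singleton.mem_nhds (ne s ⟨hs.1, s1⟩))).tendsto.comp
      ((hd.cont s ⟨hs.1, s1.le⟩).tendsto.mono_left (nhdsWithin_le_iff.2
        (mem_of_superset ev fun v hv' => ⟨hs.1.trans hv'.1.le, hv'.2.le⟩)))
  refine ⟨mem s hs, ?_⟩
  rcases hs.1.eq_or_lt with rfl | s0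
  · rw [hd.c0, i1] at lim
    refine lim.congr' (ev.mono fun v hv' => ?_)
    have := (fA.init W _ (mem 0 hs v hv').1).2.1
    simp only [hv.t0, this, hv.W0, ofReal_zero, sub_zero]
  · have z0 : (0 : ℝ) ∈ Icc 0 S := ⟨le_rfl, hv.S0⟩
    refine (ha W (τ s) (icay (c s)) (hv.t0 ▸ hv.mono z0 hs s0) (fun h => ?_) fun t ht => ?_).comp
      (tendsto_nhdsWithin_iff.2 ⟨lim, ev.mono (mem s hs)⟩)
    · rw [hv.dom s hs] at h
      exact h.2 ⟨s, ⟨s0, le_rfl⟩, rfl⟩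
    · obtain ⟨r, hr, rfl⟩ := intermediate_value_Ico hs.1
        (hv.cont.mono (Icc_subset_Icc_right hs.2)) (hv.t0.symm ▸ ht)
      exact mem r ⟨hr.1, hr.2.le.trans hs.2⟩ s ⟨hr.2, s1⟩

end Vale.Agent.P153.A2
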